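import Vale.Agent.P281.H124.Vol

/-! P281, isotrivial fibrations, part (A): uniform bound of `Q^* s` -/

namespace Vale.Agent.P281.ISO

open scoped Manifold ContDiff Topology
open Set Filter Metric Vale.Agent.P281

universe u

theorem fibre_bound {E₀ : Type} [NormedAddCommGroup E₀] [NormedSpace ℂ E₀]
    [FiniteDimensional ℂ E₀] {F : Type u} [TopologicalSpace F] [ChartedSpace E₀ F]
    [IsManifold 𝓘(ℂ, E₀) ω F] [CompactSpace F] {m : ℕ} (hm : 0 < m) {s : F → ℂ}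
    (hs : ∀ p₀, ∃ a, HolV E₀ a p₀ ∧ ∀ᶠ p in 𝓝 p₀, s p = a p * jac E₀ (chartAt E₀ p₀) p ^ m)
    (r : ℝ) (hr : 0 < r) : ∃ M : ℝ, ∀ (v₀ : E₀) (Q : E₀ → F),
      (∀ v ∈ ball v₀ r, ContMDiffAt 𝓘(ℂ, E₀) 𝓘(ℂ, E₀) ω Q v) → InjOn Q (ball v₀ r) →
      ‖s (Q v₀) * ContinuousLinearMap.det (mfderiv 𝓘(ℂ, E₀) 𝓘(ℂ, E₀) Q v₀ : E₀ →L[ℂ] E₀) ^ m‖
        ≤ M := by
  obtain ⟨C, hC⟩ := H124.pb_bound (E₀ := E₀) hm (s := s) hs hr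
  exact ⟨C, fun v₀ Q hQ hinj => hC Q v₀ hQ hinj⟩

end Vale.Agent.P281.ISO
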