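import Vale.Agent.P281.ISO.Base
import Vale.Agent.P281.ISO.FibreBound

/-! P281, isotrivial fibrations, part (B): the relative form `TH` at the good points of a
ramification divisor. -/

open scoped Manifold ContDiff Topology
open Set Filter Metric

namespace Vale.Agent.P281.ISO

open Vale.Agent.P281 Vale.Agent.P281.MF

set_option linter.all false

universe u

section Lin

variable {E E' V : Type} [NormedAddCommGroup E] [NormedSpace ℂ E] [FiniteDimensional ℂ E]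
  [NormedAddCommGroup E'] [NormedSpace ℂ E'] [FiniteDimensional ℂ E']
  [NormedAddCommGroup V] [NormedSpace ℂ V] [FiniteDimensional ℂ V]

theorem det_prodMap' (S : E' →L[ℂ] E') (D : V →L[ℂ] V) : (S.prodMap D).det = S.det * D.det := by
  have : (S.prodMap D).det = LinearMap.det (LinearMap.prodMap
    (S : E' →ₗ[ℂ] E') (D : V →ₗ[ℂ] V)) := rfl
  rw [this, LinearMap.det_prodMap]

theorem det_id' (W : Type) [NormedAddCommGroup W] [NormedSpace ℂ W] :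
    (ContinuousLinearMap.id ℂ W).det = 1 := by simp [ContinuousLinearMap.det]

/-- block triangular determinants -/
theorem det_block (A : E' →L[ℂ] E') (T : (E' × V) →L[ℂ] V) :
    ((A.comp (ContinuousLinearMap.fst ℂ E' V)).prod T).det =
      A.det * (T.comp (ContinuousLinearMap.inr ℂ E' V)).det := by
  have h1 : (A.comp (ContinuousLinearMap.fst ℂ E' V)).prod T =
      (A.prodMap (ContinuousLinearMap.id ℂ V)).comp
        (((ContinuousLinearMap.fst ℂ E' V).prod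
          ((T.comp (ContinuousLinearMap.inl ℂ E' V)).comp (ContinuousLinearMap.fst ℂ E' V) +
            ContinuousLinearMap.snd ℂ E' V)).comp
          ((ContinuousLinearMap.id ℂ E').prodMap (T.comp (ContinuousLinearMap.inr ℂ E' V)))) := by
    refine ContinuousLinearMap.ext fun p => ?_
    obtain ⟨a, b⟩ := p
    have h2 : T (a, b) = T (a, 0) + T (0, b) := by
      rw [← map_add]
      simp
    simp [h2]
  rw [h1, clm_det_comp, clm_det_comp, det_shear, det_prodMap', det_prodMap', det_id', det_id']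
  ring

/-- determinants in local coordinates -/
theorem JP_coords (e₀ : E ≃L[ℂ] (E' × V)) {A A1 : E →L[ℂ] E'} {S N : E' →L[ℂ] E'}
    {D : (E' × V) →L[ℂ] E} (h1 : S.comp A = N.comp A1)
    (h2 : A1.comp D = ContinuousLinearMap.fst ℂ E' V) (P : E →L[ℂ] V) :
    S.det * JP e₀ A P * (D.comp (e₀ : E →L[ℂ] (E' × V))).det =
      N.det * (P.comp (D.comp (ContinuousLinearMap.inr ℂ E' V))).det := by
  have h3 : JP e₀ (S.comp A) P = S.det * JP e₀ A P := by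
    have := JP_left e₀ A P S (ContinuousLinearMap.id ℂ V)
    rw [det_id', mul_one] at this
    rw [← this]
    congr 1
  rw [← h3, h1, ← JP_comp]
  have h4 : JP e₀ ((N.comp A1).comp (D.comp (e₀ : E →L[ℂ] (E' × V))))
      (P.comp (D.comp (e₀ : E →L[ℂ] (E' × V)))) =
      ((N.comp (ContinuousLinearMap.fst ℂ E' V)).prod (P.comp D)).det := by
    unfold JP
    congr 1
    refine ContinuousLinearMap.ext fun p => ?_
    have h5 : A1 (D p) = p.1 := by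
      have := congrArg (fun T : (E' × V) →L[ℂ] E' => T p) h2
      simpa using this
    simp [h5]
  rw [h4, det_block]
  rfl

/-- rank one perturbations -/
theorem det_rank_one {lam : E' →L[ℂ] ℂ} {u : E'} (k : ℂ) :
    (ContinuousLinearMap.id ℂ E' + k • lam.smulRight u).det = 1 + k * lam u := by
  classical
  let b := Module.finBasis ℂ E'
  have h1 : (ContinuousLinearMap.id ℂ E' + k • lam.smulRight u).det =
      LinearMap.det ((LinearMap.id : E' →ₗ[ℂ] E') +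
        ((k • LinearMap.toSpanSingleton ℂ E' u) : ℂ →ₗ[ℂ] E') ∘ₗ (lam : E' →ₗ[ℂ] ℂ)) := by
    unfold ContinuousLinearMap.det
    congr 1
  let c := Module.Basis.singleton (Fin 1) ℂ
  rw [h1, ← LinearMap.det_toMatrix b, map_add, LinearMap.toMatrix_id,
    LinearMap.toMatrix_comp b c b, Matrix.det_one_add_mul_comm, ← LinearMap.toMatrix_comp c b c,
    ← LinearMap.toMatrix_id c, ← map_add, LinearMap.det_toMatrix]
  have h2 : (LinearMap.id : ℂ →ₗ[ℂ] ℂ) +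
      (lam : E' →ₗ[ℂ] ℂ) ∘ₗ (k • LinearMap.toSpanSingleton ℂ E' u) =
      (1 + k * lam u) • LinearMap.id := by
    ext
    simp
  rw [h2, LinearMap.det_smul]
  simp

end Lin

section Coords

variable {E E' E₀ : Type} [NormedAddCommGroup E] [NormedSpace ℂ E] [FiniteDimensional ℂ E]
  [NormedAddCommGroup E'] [NormedSpace ℂ E'] [FiniteDimensional ℂ E']
  [NormedAddCommGroup E₀] [NormedSpace ℂ E₀] [FiniteDimensional ℂ E₀]

/-- local roots of holomorphic functions -/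
theorem exists_root {wh : E → ℂ} {c₀ : E} (hw : ContDiffAt ℂ ω wh c₀) (hw0 : wh c₀ ≠ 0) {κ : ℕ}
    (hκ : 0 < κ) : ∃ ρ : E → ℂ, ContDiffAt ℂ ω ρ c₀ ∧ ρ c₀ ≠ 0 ∧ ∀ᶠ c in 𝓝 c₀, ρ c ^ κ = wh c := by
  obtain ⟨a, ha⟩ := IsAlgClosed.exists_pow_nat_eq (wh c₀) hκ
  have ha0 : a ≠ 0 := by
    intro h0
    rw [h0, zero_pow hκ.ne'] at ha
    exact hw0 ha.symm
  have h1 : ContDiffAt ℂ ω (fun c => wh c / wh c₀) c₀ := hw.div_const _
  have h2 : ContDiffAt ℂ ω (fun c => Complex.log (wh c / wh c₀)) c₀ := by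
    have h3 : AnalyticAt ℂ (fun c => wh c / wh c₀) c₀ := h1.analyticAt
    exact (h3.clog (by rw [div_self hw0]; exact Complex.one_mem_slitPlane)).contDiffAt
  refine ⟨fun c => a * Complex.exp (Complex.log (wh c / wh c₀) / κ), ?_, ?_, ?_⟩
  · exact contDiffAt_const.mul (h2.div_const _).cexp
  · exact mul_ne_zero ha0 (Complex.exp_ne_zero _)
  · filter_upwards [hw.continuousAt.eventually_ne hw0] with c hc
    have hκ' : (κ : ℂ) ≠ 0 := by exact_mod_cast hκ.ne'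
    rw [mul_pow, ha, ← Complex.exp_nat_mul, mul_div_cancel₀ _ hκ', Complex.exp_log
      (div_ne_zero hc hw0), mul_div_cancel₀ _ hw0]

/-- completion of a surjection to an isomorphism -/
theorem exists_completion (e₀ : E ≃L[ℂ] (E' × E₀)) {A : E →L[ℂ] E'}
    (hA : Function.Surjective A) : ∃ L : E ≃L[ℂ] (E' × E₀), ∀ ξ, (L ξ).1 = A ξ := by
  have hfin : Module.finrank ℂ (LinearMap.ker (A : E →ₗ[ℂ] E')) = Module.finrank ℂ E₀ := by
    have h1 := LinearMap.finrank_range_add_finrank_ker (A : E →ₗ[ℂ] E')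
    have h2 : LinearMap.range (A : E →ₗ[ℂ] E') = ⊤ := LinearMap.range_eq_top.2 hA
    rw [h2, finrank_top] at h1
    have h3 := e₀.toLinearEquiv.finrank_eq
    rw [Module.finrank_prod] at h3
    omega
  let θ : LinearMap.ker (A : E →ₗ[ℂ] E') ≃ₗ[ℂ] E₀ := LinearEquiv.ofFinrankEq _ _ hfin
  let t : E₀ →L[ℂ] E := LinearMap.toContinuousLinearMap
    ((LinearMap.ker (A : E →ₗ[ℂ] E')).subtype ∘ₗ (θ.symm : E₀ →ₗ[ℂ] _))
  have ht : Function.Injective t := by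
    intro v v' h
    exact θ.symm.injective (Subtype.ext h)
  obtain ⟨P, hP⟩ := exists_left_inv ht
  have hinj : Function.Injective (A.prod P) := by
    rw [injective_iff_map_eq_zero]
    intro ξ hξ
    have h1 : A ξ = 0 := (Prod.mk.inj hξ).1
    have h2 : P ξ = 0 := (Prod.mk.inj hξ).2
    have h3 : t (θ ⟨ξ, h1⟩) = ξ := by
      change ((θ.symm (θ ⟨ξ, h1⟩) : LinearMap.ker (A : E →ₗ[ℂ] E')) : E) = ξ
      rw [LinearEquiv.symm_apply_apply]
    have h4 := hP (θ ⟨ξ, h1⟩)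
    rw [h3, h2] at h4
    rw [← h3, ← h4, map_zero]
  have hfr : Module.finrank ℂ E = Module.finrank ℂ (E' × E₀) := e₀.toLinearEquiv.finrank_eq
  let L' : E ≃ₗ[ℂ] (E' × E₀) :=
    LinearEquiv.ofInjectiveOfFinrankEq ((A.prod P : E →L[ℂ] (E' × E₀)) : E →ₗ[ℂ] (E' × E₀))
      hinj hfr
  exact ⟨L'.toContinuousLinearEquiv, fun ξ => rfl⟩

theorem local_coords (e₀ : E ≃L[ℂ] (E' × E₀)) {Fh : E → E'} {eh wh : E → ℂ} {gh : E' → ℂ}
    {c₀ : E} {κ : ℕ} (hκ : 0 < κ) (hF : ContDiffAt ℂ ω Fh c₀) (he : ContDiffAt ℂ ω eh c₀)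
    (hw : ContDiffAt ℂ ω wh c₀) (hg : ContDiffAt ℂ ω gh (Fh c₀)) (he0 : eh c₀ = 0)
    (hw0 : wh c₀ ≠ 0) (hde : fderiv ℂ eh c₀ ≠ 0)
    (hdg : fderiv ℂ gh (Fh c₀) ≠ 0) (heq : ∀ᶠ c in 𝓝 c₀, gh (Fh c) = eh c ^ κ * wh c)
    (hsub : ∀ η, fderiv ℂ gh (Fh c₀) η = 0 →
      ∃ ξ, fderiv ℂ eh c₀ ξ = 0 ∧ fderiv ℂ Fh c₀ ξ = η)
    {W : Set E} (hW : W ∈ 𝓝 c₀) :
    ∃ (r : ℝ) (R : E' × E₀ → E) (Ψ : E → E' × E₀) (B : ℝ), 0 < r ∧ 0 ≤ B ∧
      ∀ᶠ c in 𝓝 c₀, R (Ψ c) = c ∧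
        (∀ v ∈ ball (Ψ c).2 r, ContDiffAt ℂ ω R ((Ψ c).1, v) ∧ R ((Ψ c).1, v) ∈ W ∧
          Fh (R ((Ψ c).1, v)) = Fh c ∧ (Ψ (R ((Ψ c).1, v))).2 = v) ∧
        ∀ P : E →L[ℂ] E₀, ‖JP e₀ (fderiv ℂ Fh c) P‖ ≤ B * ‖eh c‖ ^ (κ - 1) *
          ‖(P.comp ((fderiv ℂ R (Ψ c)).comp (ContinuousLinearMap.inr ℂ E' E₀))).det‖ := by
  have : CompleteSpace E := FiniteDimensional.complete ℂ E
  have : CompleteSpace E' := FiniteDimensional.complete ℂ E'
  have : CompleteSpace E₀ := FiniteDimensional.complete ℂ E₀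
  have hn : (ω : WithTop ℕ∞) ≠ 0 := by simp
  set b₀ := Fh c₀ with hb₀
  set lam := fderiv ℂ gh b₀ with hlam
  obtain ⟨u, hu⟩ : ∃ u, lam u = 1 := by
    obtain ⟨ξ, hξ⟩ : ∃ ξ, lam ξ ≠ 0 := by
      by_contra hcon
      push Not at hcon
      exact hdg (ContinuousLinearMap.ext hcon)
    exact ⟨(lam ξ)⁻¹ • ξ, by simp [hξ]⟩
  obtain ⟨ρ, hρ, hρ0, hρw⟩ := exists_root hw hw0 hκ
  -- the projection
  set π : E' →L[ℂ] E' := ContinuousLinearMap.id ℂ E' - lam.smulRight u with hπ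
  have hπa : ∀ v, π v = v - lam v • u := fun v => by simp [hπ]
  have hlπ : ∀ v, lam (π v) = 0 := fun v => by rw [hπa, map_sub, map_smul, hu]; simp
  have hπu : π u = 0 := by rw [hπa, hu, one_smul, sub_self]
  have hππ : ∀ v, π (π v) = π v := fun v => by rw [hπa (π v), hlπ, zero_smul, sub_zero]
  -- the maps
  set T : E' → E' := fun b => gh b • u + π (b - b₀) with hT
  set N : E' → E' := fun v => lam v ^ κ • u + π v with hN
  set ε : E → ℂ := fun c => eh c * ρ c with hε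
  set Ψ₁ : E → E' := fun c => ε c • u + π (Fh c - b₀) with hΨ₁
  have hεc : ContDiffAt ℂ ω ε c₀ := he.mul hρ
  have hlΨ : ∀ c, lam (Ψ₁ c) = ε c := fun c => by
    simp only [hΨ₁, map_add, map_smul, hu, hlπ, smul_eq_mul, mul_one, add_zero]
  have hπΨ : ∀ c, π (Ψ₁ c) = π (Fh c - b₀) := fun c => by
    simp only [hΨ₁, map_add, map_smul, hπu, smul_zero, zero_add, hππ]
  have hTN : ∀ᶠ c in 𝓝 c₀, T (Fh c) = N (Ψ₁ c) := by
    filter_upwards [heq, hρw] with c h1 h2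
    simp only [hT, hN]
    rw [hlΨ, hπΨ, h1]
    simp only [hε]
    rw [mul_pow, h2]
  have hTc : ContDiffAt ℂ ω T b₀ := by
    have h2 : ContDiffAt ℂ ω (fun b => π (b - b₀)) b₀ :=
      (π.contDiff.comp (contDiff_id.sub contDiff_const)).contDiffAt
    exact (hg.smul contDiffAt_const).add h2
  have hΨ₁c : ContDiffAt ℂ ω Ψ₁ c₀ := by
    have h2 : ContDiffAt ℂ ω (fun c => π (Fh c - b₀)) c₀ :=
      π.contDiff.contDiffAt.comp c₀ (hF.sub contDiffAt_const)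
    exact (hεc.smul contDiffAt_const).add h2
  have hNc : ContDiff ℂ ω N := ((lam.contDiff.pow κ).smul contDiff_const).add π.contDiff
  -- derivative of `T`
  have hTd : HasFDerivAt T ((ContinuousLinearEquiv.refl ℂ E' : E' ≃L[ℂ] E') : E' →L[ℂ] E') b₀ := by
    have h1 : HasFDerivAt gh lam b₀ := (hg.differentiableAt hn).hasFDerivAt
    have h2 : HasFDerivAt (fun b => π (b - b₀)) π b₀ := by
      have h3 : HasFDerivAt (fun w : E' => w - b₀) (ContinuousLinearMap.id ℂ E') b₀ :=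
        (hasFDerivAt_id b₀).sub_const b₀
      have h4 : HasFDerivAt π π (b₀ - b₀) := π.hasFDerivAt
      have h5 := HasFDerivAt.comp (g := π) (f := fun w : E' => w - b₀) b₀ h4 h3
      exact h5.congr_fderiv (ContinuousLinearMap.comp_id π)
    refine ((h1.smul_const u).add h2).congr_fderiv ?_
    refine ContinuousLinearMap.ext fun v => ?_
    simp [hπa]
  -- derivative of `Ψ₁`
  have hεd : HasFDerivAt ε (ρ c₀ • fderiv ℂ eh c₀) c₀ := by
    have h1 := ((he.differentiableAt hn).hasFDerivAt).mul ((hρ.differentiableAt hn).hasFDerivAt)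
    refine h1.congr_fderiv ?_
    refine ContinuousLinearMap.ext fun ξ => ?_
    simp [he0]
  have hΨ₁d : HasFDerivAt Ψ₁ ((ρ c₀ • fderiv ℂ eh c₀).smulRight u +
      π.comp (fderiv ℂ Fh c₀)) c₀ := by
    have h2 : HasFDerivAt (fun c => π (Fh c - b₀)) (π.comp (fderiv ℂ Fh c₀)) c₀ := by
      have h3 : HasFDerivAt (fun w : E => Fh w - b₀) (fderiv ℂ Fh c₀) c₀ :=
        ((hF.differentiableAt hn).hasFDerivAt).sub_const b₀
      have h4 : HasFDerivAt π π (Fh c₀ - b₀) := π.hasFDerivAt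
      exact HasFDerivAt.comp (g := π) (f := fun w : E => Fh w - b₀) c₀ h4 h3
    exact (hεd.smul_const u).add h2
  set A : E →L[ℂ] E' := (ρ c₀ • fderiv ℂ eh c₀).smulRight u + π.comp (fderiv ℂ Fh c₀) with hA
  have hAa : ∀ ξ, A ξ = (ρ c₀ * fderiv ℂ eh c₀ ξ) • u + π (fderiv ℂ Fh c₀ ξ) := fun ξ => by
    simp [hA]
  have hAs : Function.Surjective A := by
    have h1 : ∀ v, ∃ ξ, A ξ = π v := by
      intro v
      obtain ⟨ξ, hξ1, hξ2⟩ := hsub (π v) (hlπ v)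
      refine ⟨ξ, ?_⟩
      rw [hAa, hξ1, hξ2, mul_zero, zero_smul, zero_add, hππ]
    obtain ⟨ξ₀, hξ₀⟩ : ∃ ξ, fderiv ℂ eh c₀ ξ ≠ 0 := by
      by_contra hcon
      push Not at hcon
      exact hde (ContinuousLinearMap.ext hcon)
    obtain ⟨ξ₁, hξ₁⟩ := h1 (fderiv ℂ Fh c₀ ξ₀)
    have h2 : A (ξ₀ - ξ₁) = (ρ c₀ * fderiv ℂ eh c₀ ξ₀) • u := by
      rw [map_sub, hξ₁, hAa]
      abel
    intro v
    obtain ⟨ξ₂, hξ₂⟩ := h1 v
    refine ⟨(lam v * (ρ c₀ * fderiv ℂ eh c₀ ξ₀)⁻¹) • (ξ₀ - ξ₁) + ξ₂, ?_⟩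
    rw [map_add, map_smul, h2, hξ₂, smul_smul, mul_assoc,
      inv_mul_cancel₀ (mul_ne_zero hρ0 hξ₀), mul_one, hπa]
    abel
  obtain ⟨L, hL⟩ := exists_completion e₀ hAs
  set P₀ : E →L[ℂ] E₀ := (ContinuousLinearMap.snd ℂ E' E₀).comp (L : E →L[ℂ] (E' × E₀)) with hP₀
  set Ψ : E → E' × E₀ := fun c => (Ψ₁ c, P₀ (c - c₀)) with hΨ
  have hΨc : ContDiffAt ℂ ω Ψ c₀ :=
    hΨ₁c.prodMk (P₀.contDiff.comp (contDiff_id.sub contDiff_const)).contDiffAt
  have hΨd : HasFDerivAt Ψ (L : E →L[ℂ] (E' × E₀)) c₀ := by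
    have h2 : HasFDerivAt (fun c => P₀ (c - c₀)) P₀ c₀ := by
      have h3 : HasFDerivAt (fun w : E => w - c₀) (ContinuousLinearMap.id ℂ E) c₀ :=
        (hasFDerivAt_id c₀).sub_const c₀
      have h4 : HasFDerivAt P₀ P₀ (c₀ - c₀) := P₀.hasFDerivAt
      have h5 := HasFDerivAt.comp (g := P₀) (f := fun w : E => w - c₀) c₀ h4 h3
      exact h5.congr_fderiv (ContinuousLinearMap.comp_id P₀)
    refine (hΨ₁d.prodMk h2).congr_fderiv ?_
    refine ContinuousLinearMap.ext fun ξ => ?_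
    exact Prod.ext (hL ξ).symm rfl
  set R := hΨc.localInverse hΨd hn with hR
  have hRc : ContDiffAt ℂ ω R (Ψ c₀) := hΨc.to_localInverse hΨd hn
  have hstr : HasStrictFDerivAt Ψ (L : E →L[ℂ] (E' × E₀)) c₀ := hΨc.hasStrictFDerivAt' hΨd hn
  have hleft : ∀ᶠ c in 𝓝 c₀, R (Ψ c) = c := hstr.eventually_left_inverse
  have hright : ∀ᶠ p in 𝓝 (Ψ c₀), Ψ (R p) = p := hstr.eventually_right_inverse
  have hR0 : R (Ψ c₀) = c₀ := hleft.self_of_nhds
  have hRd : HasFDerivAt R (L.symm : (E' × E₀) →L[ℂ] E) (Ψ c₀) :=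
    hstr.to_localInverse.hasFDerivAt
  -- left inverse of `T`
  set G := hTc.localInverse hTd hn with hG
  have hTstr : HasStrictFDerivAt T
      ((ContinuousLinearEquiv.refl ℂ E' : E' ≃L[ℂ] E') : E' →L[ℂ] E') b₀ :=
    hTc.hasStrictFDerivAt' hTd hn
  have hGT : ∀ᶠ b in 𝓝 b₀, G (T b) = b := hTstr.eventually_left_inverse
  -- good points
  have hRt : Tendsto R (𝓝 (Ψ c₀)) (𝓝 c₀) := by
    have := hRc.continuousAt.tendsto
    rwa [hR0] at this
  have hFt : Tendsto Fh (𝓝 c₀) (𝓝 b₀) := hF.continuousAt.tendsto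
  have hΨt : Tendsto Ψ (𝓝 c₀) (𝓝 (Ψ c₀)) := hΨc.continuousAt.tendsto
  have hgood : ∀ᶠ p in 𝓝 (Ψ c₀), ContDiffAt ℂ ω R p ∧ Ψ (R p) = p ∧ R p ∈ W ∧
      T (Fh (R p)) = N (Ψ₁ (R p)) ∧ G (T (Fh (R p))) = Fh (R p) := by
    filter_upwards [hRc.eventually (by simp), hright, hRt.eventually hW, hRt.eventually hTN,
      (hFt.comp hRt).eventually hGT] with p h1 h2 h3 h4 h5
    exact ⟨h1, h2, h3, h4, h5⟩
  obtain ⟨r, hr, hball⟩ := Metric.eventually_nhds_iff_ball.1 hgood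
  -- the constant
  have hc1 : ContinuousAt (fun c => (fderiv ℂ T (Fh c)).det) c₀ := by
    have h1 : ContinuousAt (fderiv ℂ T) b₀ :=
      (hTc.fderiv_right (m := ω) (by simp)).continuousAt
    have h2 : ContinuousAt (fun c => fderiv ℂ T (Fh c)) c₀ :=
      ContinuousAt.comp (g := fderiv ℂ T) h1 hF.continuousAt
    exact (ContinuousLinearMap.continuous_det.tendsto _).comp h2.tendsto
  have hc2 : ContinuousAt (fun c =>
      ((fderiv ℂ R (Ψ c)).comp (e₀ : E →L[ℂ] (E' × E₀))).det) c₀ := by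
    have h1 : ContinuousAt (fderiv ℂ R) (Ψ c₀) :=
      (hRc.fderiv_right (m := ω) (by simp)).continuousAt
    have h2 : ContinuousAt (fun c => fderiv ℂ R (Ψ c)) c₀ :=
      ContinuousAt.comp (g := fderiv ℂ R) h1 hΨc.continuousAt
    have h3 : ContinuousAt (fun c => (fderiv ℂ R (Ψ c)).comp (e₀ : E →L[ℂ] (E' × E₀))) c₀ :=
      h2.clm_comp continuousAt_const
    exact (ContinuousLinearMap.continuous_det.tendsto _).comp h3.tendsto
  have hv1 : (fderiv ℂ T (Fh c₀)).det ≠ 0 := by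
    rw [show Fh c₀ = b₀ from rfl, hTd.fderiv]
    simp [ContinuousLinearMap.det]
  have hv2 : ((fderiv ℂ R (Ψ c₀)).comp (e₀ : E →L[ℂ] (E' × E₀))).det ≠ 0 := by
    rw [hRd.fderiv]
    have h1 : (((e₀.symm : (E' × E₀) →L[ℂ] E).comp (L : E →L[ℂ] (E' × E₀))).comp
        ((L.symm : (E' × E₀) →L[ℂ] E).comp (e₀ : E →L[ℂ] (E' × E₀)))).det = 1 := by
      rw [← det_id' E]
      congr 1
      ext ξ
      simp
    rw [clm_det_comp] at h1
    intro h0
    rw [h0, mul_zero] at h1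
    exact zero_ne_one h1
  set δ : E → ℂ := fun c => κ * ρ c ^ (κ - 1) / ((fderiv ℂ T (Fh c)).det *
    ((fderiv ℂ R (Ψ c)).comp (e₀ : E →L[ℂ] (E' × E₀))).det) with hδ
  have hδc : ContinuousAt δ c₀ :=
    (continuousAt_const.mul (hρ.continuousAt.pow _)).div (hc1.mul hc2) (mul_ne_zero hv1 hv2)
  have hδb : ∀ᶠ c in 𝓝 c₀, ‖δ c‖ < ‖δ c₀‖ + 1 :=
    hδc.norm.eventually_lt_const (by linarith)
  refine ⟨r / 2, R, Ψ, ‖δ c₀‖ + 1, half_pos hr, by positivity, ?_⟩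
  filter_upwards [hleft, hΨt.eventually (ball_mem_nhds _ (half_pos hr)), hTN, hFt.eventually hGT,
    hδb, hc1.eventually_ne hv1, hc2.eventually_ne hv2, hTN.eventually_nhds,
    hΨt.eventually hright.eventually_nhds, hF.eventually (by simp), hΨ₁c.eventually (by simp),
    hFt.eventually (hTc.eventually (by simp)), hΨt.eventually (hRc.eventually (by simp))] with
    c h1 h2 h3 h4 h5 h6 h7 h8 h9 h10 h11 h12 h13
  refine ⟨h1, ?_, ?_⟩
  · intro v hv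
    have hp : ((Ψ c).1, v) ∈ ball (Ψ c₀) r := by
      rw [mem_ball, Prod.dist_eq]
      rw [mem_ball] at hv
      have h14 := max_lt_iff.1 (show max (dist (Ψ c).1 (Ψ c₀).1) (dist (Ψ c).2 (Ψ c₀).2) < r / 2
        from h2)
      refine max_lt (by linarith [h14.1]) ?_
      calc dist v (Ψ c₀).2 ≤ dist v (Ψ c).2 + dist (Ψ c).2 (Ψ c₀).2 := dist_triangle _ _ _
        _ < r := by linarith [h14.2]
    obtain ⟨g1, g2, g3, g4, g5⟩ := hball _ hp
    refine ⟨g1, g3, ?_, by rw [g2]⟩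
    have g6 : Ψ₁ (R ((Ψ c).1, v)) = Ψ₁ c := congrArg Prod.fst g2
    rw [← g5, g4, g6, ← h3, h4]
  · intro P
    have k1 : (fderiv ℂ T (Fh c)).comp (fderiv ℂ Fh c) =
        (fderiv ℂ N (Ψ₁ c)).comp (fderiv ℂ Ψ₁ c) := by
      have k2 : (T ∘ Fh) =ᶠ[𝓝 c] (N ∘ Ψ₁) := h8
      rw [← fderiv_comp c (h12.differentiableAt hn) (h10.differentiableAt hn),
        ← fderiv_comp c (hNc.contDiffAt.differentiableAt hn) (h11.differentiableAt hn)]
      exact k2.fderiv_eq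
    have k2 : (fderiv ℂ Ψ₁ c).comp (fderiv ℂ R (Ψ c)) = ContinuousLinearMap.fst ℂ E' E₀ := by
      have k3 : (Ψ₁ ∘ R) =ᶠ[𝓝 (Ψ c)] Prod.fst := by
        filter_upwards [h9] with p hp
        exact congrArg Prod.fst hp
      have k4 : DifferentiableAt ℂ Ψ₁ (R (Ψ c)) := by
        rw [h1]
        exact h11.differentiableAt hn
      have k5 := fderiv_comp (Ψ c) k4 (h13.differentiableAt hn)
      rw [k3.fderiv_eq, fderiv_fst, h1] at k5
      exact k5.symm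
    have k3 := JP_coords e₀ k1 k2 P
    have k4 : (fderiv ℂ N (Ψ₁ c)).det = κ * ε c ^ (κ - 1) := by
      have k5 : HasFDerivAt N (ContinuousLinearMap.id ℂ E' +
          ((κ : ℂ) * lam (Ψ₁ c) ^ (κ - 1) - 1) • lam.smulRight u) (Ψ₁ c) := by
        have k6 : HasFDerivAt (fun v => lam v ^ κ) (((κ : ℂ) * lam (Ψ₁ c) ^ (κ - 1)) • lam)
            (Ψ₁ c) := by
          have k7 : HasDerivAt (fun s : ℂ => s ^ κ) ((κ : ℂ) * lam (Ψ₁ c) ^ (κ - 1))
            (lam (Ψ₁ c)) := hasDerivAt_pow κ _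
          exact k7.comp_hasFDerivAt (Ψ₁ c) lam.hasFDerivAt
        refine ((k6.smul_const u).add π.hasFDerivAt).congr_fderiv ?_
        refine ContinuousLinearMap.ext fun v => ?_
        change ((κ : ℂ) * lam (Ψ₁ c) ^ (κ - 1) * lam v) • u + π v =
          v + ((κ : ℂ) * lam (Ψ₁ c) ^ (κ - 1) - 1) • (lam v • u)
        rw [hπa]
        module
      rw [k5.fderiv, det_rank_one, hu, hlΨ]
      ring
    rw [k4] at k3
    set d := (P.comp ((fderiv ℂ R (Ψ c)).comp (ContinuousLinearMap.inr ℂ E' E₀))).det with hd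
    have k5 : JP e₀ (fderiv ℂ Fh c) P = δ c * eh c ^ (κ - 1) * d := by
      simp only [hδ]
      rw [div_mul_eq_mul_div, div_mul_eq_mul_div, eq_div_iff (mul_ne_zero h6 h7)]
      have k6 : ε c ^ (κ - 1) = eh c ^ (κ - 1) * ρ c ^ (κ - 1) := by
        simp only [hε]
        rw [mul_pow]
      rw [k6] at k3
      linear_combination k3
    rw [k5, norm_mul, norm_mul, norm_pow]
    gcongr

end Coords

section Rel

variable {E E' E₀ : Type} [NormedAddCommGroup E] [NormedSpace ℂ E] [FiniteDimensional ℂ E]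
  [NormedAddCommGroup E'] [NormedSpace ℂ E'] [FiniteDimensional ℂ E']
  [NormedAddCommGroup E₀] [NormedSpace ℂ E₀] [FiniteDimensional ℂ E₀]
variable {X Y F : Type u} [TopologicalSpace X] [ChartedSpace E X] [IsManifold 𝓘(ℂ, E) ω X]
  [TopologicalSpace Y] [ChartedSpace E' Y] [IsManifold 𝓘(ℂ, E') ω Y]
  [TopologicalSpace F] [ChartedSpace E₀ F] [IsManifold 𝓘(ℂ, E₀) ω F] [CompactSpace F]

theorem dV_chart_surj {x₀ x : X} (hx : x ∈ (chartAt E x₀).source) :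
    Function.Surjective (dV E (chartAt E x₀ : X → E) x) := by
  obtain ⟨A, hA⟩ := dV_chart_leftInv (E := E) hx
  have hinj : Function.Injective (dV E (chartAt E x₀ : X → E) x) := by
    intro a b hab
    have h1 := congrArg (fun T : E →L[ℂ] E => T a) hA
    have h2 := congrArg (fun T : E →L[ℂ] E => T b) hA
    simp only [ContinuousLinearMap.comp_apply, ContinuousLinearMap.id_apply] at h1 h2
    rw [← h1, ← h2]
    exact congrArg A hab
  exact (LinearMap.injective_iff_surjective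
    (f := ((dV E (chartAt E x₀ : X → E) x : E →L[ℂ] E) : E →ₗ[ℂ] E))).1 hinj

/-- holomorphic maps read in a chart of the source -/
theorem holM_symm {x₀ z : X} (hz : z ∈ (chartAt E x₀).source) {p : X → F}
    (hp : HolM E E₀ p z) :
    ContMDiffAt 𝓘(ℂ, E) 𝓘(ℂ, E₀) ω (p ∘ (chartAt E x₀).symm) (chartAt E x₀ z) := by
  have hmem : chartAt E x₀ ∈ IsManifold.maximalAtlas 𝓘(ℂ, E) ω X :=
    IsManifold.chart_mem_maximalAtlas _
  have h1 : ContMDiffAt 𝓘(ℂ, E) 𝓘(ℂ, E) ω (chartAt E x₀).symm (chartAt E x₀ z) :=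
    contMDiffAt_symm_of_mem_maximalAtlas hmem ((chartAt E x₀).map_source hz)
  have h2 : ContMDiffAt 𝓘(ℂ, E) 𝓘(ℂ, E₀) ω p ((chartAt E x₀).symm (chartAt E x₀ z)) := by
    rw [(chartAt E x₀).left_inv hz]
    exact hp
  exact ContMDiffAt.comp _ h2 h1

theorem dM_eq_chart {x₀ z : X} (hz : z ∈ (chartAt E x₀).source) {p : X → F}
    (hp : HolM E E₀ p z) {P : E →L[ℂ] E₀}
    (hP : P = mfderiv 𝓘(ℂ, E) 𝓘(ℂ, E₀) (p ∘ (chartAt E x₀).symm) (chartAt E x₀ z)) :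
    dM E E₀ p z = P.comp (dV E (chartAt E x₀ : X → E) z) := by
  subst hP
  have h1 : p =ᶠ[𝓝 z] (p ∘ (chartAt E x₀).symm) ∘ (chartAt E x₀ : X → E) := by
    filter_upwards [(chartAt E x₀).open_source.mem_nhds hz] with w hw
    simp [(chartAt E x₀).left_inv hw]
  unfold dM dV
  rw [h1.mfderiv_eq]
  exact mfderiv_comp z ((holM_symm hz hp).mdifferentiableAt (by simp)) (HolV.chart hz).mdiff

theorem rel_bound {f : X → Y} (hf : ∀ x, HolM E E' f x) {S : Set Y} {ι : Type u} {U : ι → Set Y}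
    {q : ι → X → F} (hI : Iso E E' E₀ f S U q) (e₀ : E ≃L[ℂ] (E' × E₀)) {m : ℕ} (hm : 0 < m)
    {s : F → ℂ} (hs : Sec E₀ m s) {x₀ y : X} {y₀ : Y} (hx₀ : y ∈ (chartAt E x₀).source)
    (hy₀ : f y ∈ (chartAt E' y₀).source) {e w : X → ℂ} {g : Y → ℂ} {κ : ℕ} (hκ : 0 < κ)
    (he : HolV E e y) (he0 : e y = 0) (hde : dif E e y ≠ 0) (hg : HolV E' g (f y))
    (hg0 : g (f y) = 0) (hdg : dif E' g (f y) ≠ 0) (hw : HolV E w y) (hw0 : w y ≠ 0)
    (heq : ∀ᶠ z in 𝓝 y, g (f z) = e z ^ κ * w z)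
    (hsub : ∀ η, dif E' g (f y) η = 0 → ∃ ξ, dif E e y ξ = 0 ∧ dM E E' f y ξ = η) :
    ∃ C : ℝ, ∀ᶠ z in 𝓝 y, ∀ a, f z ∈ U a →
      ‖jac E' (chartAt E' y₀) (f z) ^ m * TH E E' E₀ e₀ f (q a) m s z‖ ≤
        C * ‖e z‖ ^ (m * (κ - 1)) * ‖jac E (chartAt E x₀) z ^ m‖ := by
  classical
  set φ := chartAt E x₀ with hφ
  set ψ := chartAt E' y₀ with hψ
  have hmem : φ ∈ IsManifold.maximalAtlas 𝓘(ℂ, E) ω X := IsManifold.chart_mem_maximalAtlas _
  set c₀ : E := φ y with hc₀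
  have hsc : φ.symm c₀ = y := φ.left_inv hx₀
  have hψf : ∀ z, f z ∈ ψ.source → HolV E (fun z => ψ (f z)) z := fun z hz =>
    HolV.comp (HolV.chart hz) (hf z)
  set Fh : E → E' := (fun z => ψ (f z)) ∘ φ.symm with hFh
  set eh : E → ℂ := e ∘ φ.symm with heh
  set wh : E → ℂ := w ∘ φ.symm with hwh
  set gh : E' → ℂ := g ∘ ψ.symm with hgh
  have hF : ContDiffAt ℂ ω Fh c₀ := (hψf y hy₀).rep hx₀
  have heh' : ContDiffAt ℂ ω eh c₀ := he.rep hx₀
  have hwh' : ContDiffAt ℂ ω wh c₀ := hw.rep hx₀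
  have hFc : Fh c₀ = ψ (f y) := by
    show ψ (f (φ.symm c₀)) = ψ (f y)
    rw [hsc]
  have hgh' : ContDiffAt ℂ ω gh (Fh c₀) := by
    rw [hFc]
    exact hg.rep hy₀
  -- derivatives
  have d1 : dif E e y = (fderiv ℂ eh c₀).comp (dV E (φ : X → E) y) := dV_eq_chart hx₀ he
  have d2 : dif E' g (f y) = (fderiv ℂ gh (Fh c₀)).comp (dV E' (ψ : Y → E') (f y)) := by
    rw [hFc]
    exact dV_eq_chart hy₀ hg
  have d3 : dV E (fun z => ψ (f z)) y = (fderiv ℂ Fh c₀).comp (dV E (φ : X → E) y) :=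
    dV_eq_chart hx₀ (hψf y hy₀)
  have d4 : dV E (fun z => ψ (f z)) y = (dV E' (ψ : Y → E') (f y)).comp (dM E E' f y) :=
    dV_comp (HolV.chart hy₀) (hf y)
  have hde' : fderiv ℂ eh c₀ ≠ 0 := by
    intro h0
    apply hde
    rw [d1, h0]
    exact ContinuousLinearMap.zero_comp _
  have hdg' : fderiv ℂ gh (Fh c₀) ≠ 0 := by
    intro h0
    apply hdg
    rw [d2, h0]
    exact ContinuousLinearMap.zero_comp _
  have hφs : ContinuousAt φ.symm c₀ := φ.continuousAt_symm (φ.map_source hx₀)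
  have hφst : Tendsto φ.symm (𝓝 c₀) (𝓝 y) := by
    have := hφs.tendsto
    rwa [hsc] at this
  have hfc : ContinuousAt f y := (hf y).continuousAt
  have hfs : ∀ᶠ z in 𝓝 y, f z ∈ ψ.source := hfc.eventually (ψ.open_source.mem_nhds hy₀)
  have heq' : ∀ᶠ c in 𝓝 c₀, gh (Fh c) = eh c ^ κ * wh c := by
    filter_upwards [hφst.eventually heq, hφst.eventually hfs] with c h1 h2
    show g (ψ.symm (ψ (f (φ.symm c)))) = _
    rw [ψ.left_inv h2]
    exact h1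
  have hsub' : ∀ η, fderiv ℂ gh (Fh c₀) η = 0 →
      ∃ ξ, fderiv ℂ eh c₀ ξ = 0 ∧ fderiv ℂ Fh c₀ ξ = η := by
    intro η hη
    obtain ⟨η', rfl⟩ := dV_chart_surj (E := E') hy₀ η
    have h1 : dif E' g (f y) η' = 0 := by
      rw [d2]
      exact hη
    obtain ⟨ξ, h2, h3⟩ := hsub η' h1
    refine ⟨dV E (φ : X → E) y ξ, ?_, ?_⟩
    · rw [d1] at h2
      exact h2
    · have h4 := congrArg (fun T : E →L[ℂ] E' => T ξ) (d3.symm.trans d4)
      simp only [ContinuousLinearMap.comp_apply] at h4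
      rw [h3] at h4
      exact h4
  have hW : φ.target ∩ {c | f (φ.symm c) ∈ ψ.source} ∈ 𝓝 c₀ :=
    Filter.inter_mem (φ.open_target.mem_nhds (φ.map_source hx₀)) (hφst.eventually hfs)
  obtain ⟨r, R, Ψ, B, hr, hB, hev⟩ := local_coords e₀ hκ hF heh' hwh' hgh'
    (show e (φ.symm c₀) = 0 by rw [hsc]; exact he0) (show w (φ.symm c₀) ≠ 0 by rw [hsc]; exact hw0)
    hde' hdg' heq' hsub' hW
  obtain ⟨M, hM⟩ := fibre_bound (E₀ := E₀) hm (s := s) hs r hr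
  refine ⟨B ^ m * M, ?_⟩
  filter_upwards [φ.open_source.mem_nhds hx₀, hfs, (φ.continuousAt hx₀).eventually hev] with
    z hz hfz hzc a hza
  obtain ⟨h1, h2, h3⟩ := hzc
  set c : E := φ z with hc
  have hscz : φ.symm c = z := φ.left_inv hz
  -- points of the fibre
  have hx : ∀ v ∈ ball (Ψ c).2 r, f (φ.symm (R ((Ψ c).1, v))) = f z := by
    intro v hv
    obtain ⟨g1, g2, g3, g4⟩ := h2 v hv
    have g5 : ψ (f (φ.symm (R ((Ψ c).1, v)))) = ψ (f (φ.symm c)) := g3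
    rw [hscz] at g5
    exact ψ.injOn g2.2 hfz g5
  have hsrc : ∀ v ∈ ball (Ψ c).2 r, φ.symm (R ((Ψ c).1, v)) ∈ φ.source := fun v hv =>
    φ.map_target (h2 v hv).2.1.1
  have hφR : ∀ v ∈ ball (Ψ c).2 r, φ (φ.symm (R ((Ψ c).1, v))) = R ((Ψ c).1, v) := fun v hv =>
    φ.right_inv (h2 v hv).2.1.1
  have hRv : ∀ v ∈ ball (Ψ c).2 r, ContDiffAt ℂ ω (fun v => R ((Ψ c).1, v)) v := by
    intro v hv
    exact ContDiffAt.comp (g := R) (f := fun v : E₀ => ((Ψ c).1, v)) v (h2 v hv).1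
      (contDiff_const.prodMk contDiff_id).contDiffAt
  set Q : E₀ → F := fun v => q a (φ.symm (R ((Ψ c).1, v))) with hQ
  have hQhol : ∀ v ∈ ball (Ψ c).2 r, ContMDiffAt 𝓘(ℂ, E₀) 𝓘(ℂ, E₀) ω Q v := by
    intro v hv
    have g1 := holM_symm (E₀ := E₀) (hsrc v hv)
      (hI.hol a (φ.symm (R ((Ψ c).1, v))) (by rw [hx v hv]; exact hza))
    rw [hφR v hv] at g1
    exact ContMDiffAt.comp (g := q a ∘ φ.symm) (f := fun v => R ((Ψ c).1, v)) v g1
      (hRv v hv).contMDiffAt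
  have hQinj : InjOn Q (ball (Ψ c).2 r) := by
    intro v hv v' hv' hvv
    have g1 : φ.symm (R ((Ψ c).1, v)) = φ.symm (R ((Ψ c).1, v')) :=
      hI.inj a _ _ (by rw [hx v hv]; exact hza) (by rw [hx v hv, hx v' hv']) hvv
    have g2 : R ((Ψ c).1, v) = R ((Ψ c).1, v') := by
      rw [← hφR v hv, ← hφR v' hv', g1]
    rw [← (h2 v hv).2.2.2, ← (h2 v' hv').2.2.2, g2]
  have hv₁ : (Ψ c).2 ∈ ball (Ψ c).2 r := mem_ball_self hr
  have key := hM (Ψ c).2 Q hQhol hQinj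
  have hR1 : R ((Ψ c).1, (Ψ c).2) = c := h1
  have hQ1 : Q (Ψ c).2 = q a z := by
    show q a (φ.symm (R ((Ψ c).1, (Ψ c).2))) = q a z
    rw [hR1, hscz]
  -- derivative of `Q`
  set P : E →L[ℂ] E₀ := mfderiv 𝓘(ℂ, E) 𝓘(ℂ, E₀) (q a ∘ φ.symm) c with hP
  have hq : HolM E E₀ (q a) z := hI.hol a z hza
  have hdQ : (mfderiv 𝓘(ℂ, E₀) 𝓘(ℂ, E₀) Q (Ψ c).2 : E₀ →L[ℂ] E₀) =
      P.comp ((fderiv ℂ R (Ψ c)).comp (ContinuousLinearMap.inr ℂ E' E₀)) := by
    have g1 : MDifferentiableAt 𝓘(ℂ, E) 𝓘(ℂ, E₀) (q a ∘ φ.symm) (R ((Ψ c).1, (Ψ c).2)) := by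
      rw [hR1]
      exact (holM_symm hz hq).mdifferentiableAt (by simp)
    have g2 : MDifferentiableAt 𝓘(ℂ, E₀) 𝓘(ℂ, E) (fun v => R ((Ψ c).1, v)) (Ψ c).2 :=
      (hRv _ hv₁).contMDiffAt.mdifferentiableAt (by simp)
    have g3 := mfderiv_comp (Ψ c).2 g1 g2
    have g4 : HasFDerivAt (fun v => R ((Ψ c).1, v))
        ((fderiv ℂ R (Ψ c)).comp (ContinuousLinearMap.inr ℂ E' E₀)) (Ψ c).2 :=
      HasFDerivAt.comp (g := R) (f := fun v : E₀ => ((Ψ c).1, v)) (Ψ c).2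
        (((h2 _ hv₁).1.differentiableAt (by simp)).hasFDerivAt) (hasFDerivAt_prodMk_right _ _)
    have g5 : (mfderiv 𝓘(ℂ, E₀) 𝓘(ℂ, E) (fun v => R ((Ψ c).1, v)) (Ψ c).2 : E₀ →L[ℂ] E) =
        (fderiv ℂ R (Ψ c)).comp (ContinuousLinearMap.inr ℂ E' E₀) := by
      rw [mfderiv_eq_fderiv]
      exact g4.fderiv
    refine g3.trans ?_
    have g6 : (mfderiv 𝓘(ℂ, E) 𝓘(ℂ, E₀) (q a ∘ φ.symm) (R ((Ψ c).1, (Ψ c).2)) : E →L[ℂ] E₀) =
        P := by rw [hR1]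
    exact congrArg₂ (fun (A : E →L[ℂ] E₀) (B : E₀ →L[ℂ] E) => A.comp B) g6 g5
  rw [hQ1, hdQ] at key
  -- the relative form
  have k1 : jac E' (ψ : Y → E') (f z) * JP e₀ (dM E E' f z) (dM E E₀ (q a) z) =
      JP e₀ (fderiv ℂ Fh c) P * jac E (φ : X → E) z := by
    have g1 : dV E (fun z => ψ (f z)) z = (fderiv ℂ Fh c).comp (dV E (φ : X → E) z) :=
      dV_eq_chart hz (hψf z hfz)
    have g2 : dV E (fun z => ψ (f z)) z = (dV E' (ψ : Y → E') (f z)).comp (dM E E' f z) :=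
      dV_comp (HolV.chart hfz) (hf z)
    have g3 := dM_eq_chart hz hq hP
    have g4 := JP_left e₀ (dM E E' f z) (dM E E₀ (q a) z) (dV E' (ψ : Y → E') (f z))
      (ContinuousLinearMap.id ℂ E₀)
    rw [det_id', mul_one, ContinuousLinearMap.id_comp, ← g2, g1, g3, JP_comp] at g4
    rw [g3]
    exact g4.symm
  have k2 : jac E' (ψ : Y → E') (f z) ^ m * TH E E' E₀ e₀ f (q a) m s z =
      s (q a z) * JP e₀ (fderiv ℂ Fh c) P ^ m * jac E (φ : X → E) z ^ m := by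
    unfold TH
    rw [mul_assoc, ← mul_pow, ← k1, mul_pow]
    ring
  rw [k2, norm_mul]
  refine mul_le_mul_of_nonneg_right ?_ (norm_nonneg _)
  have k3 := h3 P
  have k4 : ‖eh c‖ = ‖e z‖ := by
    show ‖e (φ.symm c)‖ = ‖e z‖
    rw [hscz]
  rw [k4] at k3
  rw [norm_mul, norm_pow]
  calc ‖s (q a z)‖ * ‖JP e₀ (fderiv ℂ Fh c) P‖ ^ m
      ≤ ‖s (q a z)‖ * (B * ‖e z‖ ^ (κ - 1) *
        ‖(P.comp ((fderiv ℂ R (Ψ c)).comp (ContinuousLinearMap.inr ℂ E' E₀))).det‖) ^ m := by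
        gcongr
    _ = B ^ m * ‖e z‖ ^ (m * (κ - 1)) * ‖s (q a z) * (P.comp ((fderiv ℂ R (Ψ c)).comp
        (ContinuousLinearMap.inr ℂ E' E₀))).det ^ m‖ := by
        rw [norm_mul, norm_pow, mul_pow, mul_pow, ← pow_mul, mul_comm (κ - 1) m]
        ring
    _ ≤ B ^ m * ‖e z‖ ^ (m * (κ - 1)) * M := mul_le_mul_of_nonneg_left key (by positivity)
    _ = B ^ m * M * ‖e z‖ ^ (m * (κ - 1)) := by ring

end Rel

end Vale.Agent.P281.ISO
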