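import Vale.Agent.P281.ISO.SymA

/-!
# P281: the rank of the symmetrised sections
-/

open scoped Manifold ContDiff Topology
open Set Filter Metric

namespace Vale.Agent.P281.ISO

open Vale.Agent.P281 Vale.Agent.P281.MF

set_option linter.unusedSectionVars false

universe u

section Man

variable {E₀ : Type} [NormedAddCommGroup E₀] [NormedSpace ℂ E₀] [FiniteDimensional ℂ E₀]
variable {F : Type u} [TopologicalSpace F] [ChartedSpace E₀ F] [IsManifold 𝓘(ℂ, E₀) ω F]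

theorem dif_add {g h : F → ℂ} {p : F} (hg : HolV E₀ g p) (hh : HolV E₀ h p) :
    dif E₀ (fun w => g w + h w) p = dif E₀ g p + dif E₀ h p := by
  have h1 := (hg.mdiff.hasMFDerivAt.add hh.mdiff.hasMFDerivAt).mfderiv
  exact h1

theorem dif_const (c : ℂ) (p : F) : dif E₀ (fun _ : F => c) p = 0 := by
  unfold dif
  exact mfderiv_const

theorem dif_sum {P : Type*} (T : Finset P) {g : P → F → ℂ} {p : F}
    (hg : ∀ σ ∈ T, HolV E₀ (g σ) p) :
    dif E₀ (fun w => ∑ σ ∈ T, g σ w) p = ∑ σ ∈ T, dif E₀ (g σ) p := by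
  classical
  induction T using Finset.induction_on with
  | empty => simpa using dif_const (E₀ := E₀) (0 : ℂ) p
  | @insert a T ha ih =>
    have h1 : (fun w => ∑ σ ∈ insert a T, g σ w) = fun w => g a w + ∑ σ ∈ T, g σ w := by
      funext w; rw [Finset.sum_insert ha]
    rw [h1, dif_add (hg a (Finset.mem_insert_self a T))
      (HolV.sum fun σ hσ => hg σ (Finset.mem_insert_of_mem hσ)),
      ih fun σ hσ => hg σ (Finset.mem_insert_of_mem hσ), Finset.sum_insert ha]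

theorem jac_ne_ev (p₀ : F) (m : ℕ) : ∀ᶠ p in 𝓝 p₀, jac E₀ (chartAt E₀ p₀ : F → E₀) p ^ m ≠ 0 := by
  filter_upwards [(chartAt E₀ p₀).open_source.mem_nhds (mem_chart_source E₀ p₀)] with p hp
  exact pow_ne_zero _ (jac_chart_ne_zero hp)

theorem Sec.local_ne {m : ℕ} {s : F → ℂ} (hs : Sec E₀ m s) (p₀ : F) :
    ∃ a : F → ℂ, HolV E₀ a p₀ ∧ ∀ᶠ p in 𝓝 p₀, s p ≠ 0 ↔ a p ≠ 0 := by
  obtain ⟨a, ha, hev⟩ := hs p₀
  refine ⟨a, ha, ?_⟩
  filter_upwards [hev, jac_ne_ev (E₀ := E₀) p₀ m] with p h1 h2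
  rw [h1]
  exact ⟨fun h => left_ne_zero_of_mul h, fun h => mul_ne_zero h h2⟩

theorem Sec.isOpen_ne {m : ℕ} {s : F → ℂ} (hs : Sec E₀ m s) : IsOpen {p | s p ≠ 0} := by
  rw [isOpen_iff_mem_nhds]
  intro p hp
  obtain ⟨a, ha, hev⟩ := hs.local_ne p
  have h1 : a p ≠ 0 := hev.self_of_nhds.1 hp
  filter_upwards [hev, ha.continuousAt.eventually_ne h1] with w h2 h3
  exact h2.2 h3

theorem Sec.dense_ne [PreconnectedSpace F] {m : ℕ} {s : F → ℂ} (hs : Sec E₀ m s)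
    (h0 : ∃ p, s p ≠ 0) : Dense {p | s p ≠ 0} := by
  obtain ⟨p, hp⟩ := h0
  exact dense_of_local (E := E₀) ⟨p, hp⟩ fun x => hs.local_ne x

theorem Sec.div_holV {m : ℕ} {s t : F → ℂ} (hs : Sec E₀ m s) (ht : Sec E₀ m t) {p : F}
    (h0 : t p ≠ 0) : HolV E₀ (fun w => s w / t w) p := by
  obtain ⟨a, ha, hae⟩ := hs p
  obtain ⟨b, hb, hbe⟩ := ht p
  have hb0 : b p ≠ 0 := by
    intro h
    have := hbe.self_of_nhds
    rw [h, zero_mul] at this
    exact h0 this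
  refine (ha.div hb hb0).congr ?_
  filter_upwards [hae, hbe, jac_ne_ev (E₀ := E₀) p m] with w h1 h2 h3
  rw [h1, h2, mul_div_mul_right _ _ h3]

theorem Sec.det {m : ℕ} {a b c d : F → ℂ} (ha : Sec E₀ m a) (hb : Sec E₀ m b)
    (hc : Sec E₀ m c) (hd : Sec E₀ m d) :
    Sec E₀ (2 * m) (fun w => a w * b w - c w * d w) := by
  intro p₀
  obtain ⟨a', ha', hae⟩ := ha p₀
  obtain ⟨b', hb', hbe⟩ := hb p₀
  obtain ⟨c', hc', hce⟩ := hc p₀
  obtain ⟨d', hd', hde⟩ := hd p₀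
  have h1 : HolV E₀ (fun w => a' w * b' w + (-1) * (c' w * d' w)) p₀ :=
    (ha'.mul hb').add ((HolV.const _ p₀).mul (hc'.mul hd'))
  refine ⟨_, h1, ?_⟩
  filter_upwards [hae, hbe, hce, hde] with w h1 h2 h3 h4
  rw [h1, h2, h3, h4]
  ring

theorem rank_lemma [PreconnectedSpace F] {P : Type*} [Fintype P] {j m : ℕ}
    {s : P → Fin (j + 1) → F → ℂ} (hs : ∀ σ c, Sec E₀ m (s σ c)) (hs0 : ∀ σ, ∃ w, s σ 0 w ≠ 0)
    (o : P) {z : F} (hz : s o 0 z ≠ 0)
    (hli : LinearIndependent ℂ (fun b : Fin j => dif E₀ (fun w => s o b.succ w / s o 0 w) z)) :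
    ∃ (D : ℕ) (Ψ : Fin (j + 1) → (P → Fin (j + 1) → ℂ) → ℂ) (p : F), 0 < D ∧
      (∀ b, GoodX E₀ F D (Ψ b)) ∧ Ψ 0 (fun σ c => s σ c p) ≠ 0 ∧
      LinearIndependent ℂ (fun b : Fin j => dif E₀ (fun w => Ψ b.succ (fun σ c => s σ c w) /
        Ψ 0 (fun σ c => s σ c w)) p) := by
  classical
  -- the sections which must not vanish at the point
  set 𝓗 : Set (F → ℂ) := {h | (∃ w, h w ≠ 0) ∧ ((∃ σ, h = s σ 0) ∨
    ∃ σ c, h = fun w => s σ c w * s o 0 w - s o c w * s σ 0 w)} with h𝓗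
  have hfin : 𝓗.Finite := by
    refine ((Set.finite_range fun σ => s σ 0).union (Set.finite_range
      fun x : P × Fin (j + 1) => fun w => s x.1 x.2 w * s o 0 w - s o x.2 w * s x.1 0 w)).subset ?_
    rintro h ⟨-, ⟨σ, rfl⟩ | ⟨σ, c, rfl⟩⟩
    · exact Or.inl ⟨σ, rfl⟩
    · exact Or.inr ⟨(σ, c), rfl⟩
  have hsec : ∀ h ∈ 𝓗, ∃ k, Sec E₀ k h := by
    rintro h ⟨-, ⟨σ, rfl⟩ | ⟨σ, c, rfl⟩⟩
    · exact ⟨m, hs σ 0⟩
    · exact ⟨2 * m, (hs σ c).det (hs o 0) (hs o c) (hs σ 0)⟩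
  have hd := dense_compl_finite (X := F) (T := (fun h : F → ℂ => {w | h w = 0}) '' 𝓗)
    (hfin.image _)
    (by
      rintro _ ⟨h, hh, rfl⟩
      obtain ⟨k, hk⟩ := hsec h hh
      have h1 := hk.isOpen_ne
      have h2 : {w | h w = 0} = {w | h w ≠ 0}ᶜ := by ext w; simp
      show IsClosed {w | h w = 0}
      rw [h2]
      exact h1.isClosed_compl)
    (by
      rintro _ ⟨h, hh, rfl⟩
      obtain ⟨k, hk⟩ := hsec h hh
      have h1 := hk.dense_ne hh.1
      have h2 : {w | h w = 0}ᶜ = {w | h w ≠ 0} := by ext w; simp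
      show Dense {w | h w = 0}ᶜ
      rw [h2]
      exact h1)
  have hz1 : ∀ᶠ w in 𝓝 z, LinearIndependent ℂ
      (fun b : Fin j => dif E₀ (fun w => s o b.succ w / s o 0 w) w) :=
    linearIndependent_dif_eventually (fun b => (hs o b.succ).div_holV (hs o 0) hz) hli
  obtain ⟨O, hO1, hO2, hO3⟩ := eventually_nhds_iff.1 hz1
  obtain ⟨p, hpO, hp⟩ := hd.2.inter_open_nonempty O hO2 ⟨z, hO3⟩
  have hpl := hO1 p hpO
  have hp' : ∀ h ∈ 𝓗, h p ≠ 0 := fun h hh h0 => hp _ ⟨h, hh, rfl⟩ h0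
  have hp0 : ∀ σ, s σ 0 p ≠ 0 := fun σ => hp' _ ⟨hs0 σ, Or.inl ⟨σ, rfl⟩⟩
  -- ratios
  set u : P → Fin (j + 1) → F → ℂ := fun σ c w => s σ c w / s σ 0 w with hu
  have huh : ∀ σ c, HolV E₀ (u σ c) p := fun σ c => (hs σ c).div_holV (hs σ 0) (hp0 σ)
  have hp0ev : ∀ᶠ w in 𝓝 p, ∀ σ, s σ 0 w ≠ 0 := Filter.eventually_all.2 fun σ =>
    (hs σ 0).isOpen_ne.mem_nhds (hp0 σ)
  have hu0 : ∀ σ, u σ 0 =ᶠ[𝓝 p] fun _ => 1 := by
    intro σ
    filter_upwards [hp0ev] with w hw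
    exact div_self (hw σ)
  have hu0p : ∀ σ, u σ 0 p = 1 := fun σ => div_self (hp0 σ)
  set bad : Finset P := Finset.univ.filter fun σ => ∃ c, u σ c p ≠ u o c p with hbad
  have hgood : ∀ σ, σ ∉ bad → ∀ c, u σ c =ᶠ[𝓝 p] u o c := by
    intro σ hσ c
    have h1 : u σ c p = u o c p := by
      by_contra hcon
      exact hσ (Finset.mem_filter.2 ⟨Finset.mem_univ _, c, hcon⟩)
    have h2 : s σ c p * s o 0 p - s o c p * s σ 0 p = 0 := by
      rw [hu] at h1
      have h3 := (div_eq_div_iff (hp0 σ) (hp0 o)).1 h1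
      rw [h3, sub_self]
    have h3 : ∀ w, s σ c w * s o 0 w - s o c w * s σ 0 w = 0 := by
      by_contra hcon
      push Not at hcon
      exact hp' _ ⟨hcon, Or.inr ⟨σ, c, rfl⟩⟩ h2
    filter_upwards [hp0ev] with w hw
    exact (div_eq_div_iff (hw σ) (hw o)).2 (sub_eq_zero.1 (h3 w))
  have hbex : ∀ σ, ∃ c, σ ∈ bad → u σ c p ≠ u o c p := by
    intro σ
    by_cases h : σ ∈ bad
    · obtain ⟨c, hc⟩ := (Finset.mem_filter.1 h).2
      exact ⟨c, fun _ => hc⟩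
    · exact ⟨0, fun h' => absurd h' h⟩
  choose i hi using hbex
  have ho : o ∉ bad := by
    intro h
    obtain ⟨c, hc⟩ := (Finset.mem_filter.1 h).2
    exact hc rfl
  set ρ : P → ℂ := fun τ => u τ (i τ) p with hρ
  set κ : P → ℂ := fun τ => (u o (i τ) p - u τ (i τ) p)⁻¹ with hκ
  set N : ℕ := 2 * bad.card + 1 with hN
  set H : Fin j → (Fin (j + 1) → ℂ) → ℂ := fun b => HB bad i ρ κ b.succ (u o b.succ p) with hH
  refine ⟨N * Fintype.card P, Fin.cons (fun V => (∏ τ, V τ 0) ^ N) (fun b => EX N (H b)), p,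
    Nat.mul_pos (by omega) (Fintype.card_pos_iff.2 ⟨o⟩), ?_, ?_, ?_⟩
  · intro b
    refine Fin.cases ?_ (fun b => ?_) b
    · exact goodX_prod N
    · exact goodX_EX bad i ρ κ b.succ (u o b.succ p)
  · show (∏ τ, s τ 0 p) ^ N ≠ 0
    exact pow_ne_zero _ (Finset.prod_ne_zero_iff.2 fun τ _ => hp0 τ)
  · -- the ratio
    have hrat : ∀ b : Fin j, (fun w => EX N (H b) (fun σ c => s σ c w) /
        (∏ τ, s τ 0 w) ^ N) =ᶠ[𝓝 p] fun w => ∑ σ, H b (fun c => u σ c w) := by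
      intro b
      filter_upwards [hp0ev] with w hw
      exact EX_div (HB_hom bad i ρ κ b.succ (u o b.succ p)) (fun σ c => s σ c w) hw
    have hfac : ∀ σ τ, HolV E₀ (fun w => (u σ (i τ) w - ρ τ * u σ 0 w) * κ τ) p := by
      intro σ τ
      have h1 : HolV E₀ (fun w => (u σ (i τ) w + (-ρ τ) * u σ 0 w) * κ τ) p :=
        ((huh σ (i τ)).add ((HolV.const _ p).mul (huh σ 0))).mul (HolV.const _ p)
      refine h1.congr (Eventually.of_forall fun w => ?_)
      show _ = _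
      ring
    have hlin : ∀ σ (b : Fin j), HolV E₀ (fun w => u σ b.succ w - u o b.succ p * u σ 0 w) p := by
      intro σ b
      have h1 : HolV E₀ (fun w => u σ b.succ w + (-u o b.succ p) * u σ 0 w) p :=
        (huh σ b.succ).add ((HolV.const _ p).mul (huh σ 0))
      refine h1.congr (Eventually.of_forall fun w => ?_)
      show _ = _
      ring
    have hHh : ∀ σ (b : Fin j), HolV E₀ (fun w => H b (fun c => u σ c w)) p := fun σ b =>
      (hlin σ b).mul (HolV.prod fun τ _ => (hfac σ τ).pow 2)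
    have hdbad : ∀ σ ∈ bad, ∀ b : Fin j, dif E₀ (fun w => H b (fun c => u σ c w)) p = 0 := by
      intro σ hσ b
      have h1 : (fun w => H b (fun c => u σ c w)) = fun w =>
          ((u σ (i σ) w - ρ σ * u σ 0 w) * κ σ) * (((u σ (i σ) w - ρ σ * u σ 0 w) * κ σ) *
            ((u σ b.succ w - u o b.succ p * u σ 0 w) *
              ∏ τ ∈ bad.erase σ, ((u σ (i τ) w - ρ τ * u σ 0 w) * κ τ) ^ 2)) := by
        funext w
        show (u σ b.succ w - u o b.succ p * u σ 0 w) *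
          ∏ τ ∈ bad, ((u σ (i τ) w - ρ τ * u σ 0 w) * κ τ) ^ 2 = _
        rw [← Finset.mul_prod_erase bad _ hσ]
        ring
      have h2 : (u σ (i σ) p - ρ σ * u σ 0 p) * κ σ = 0 := by
        rw [hu0p, mul_one, sub_self, zero_mul]
      rw [h1, dif_mul (hfac σ σ) ((hfac σ σ).mul ((hlin σ b).mul
        (HolV.prod fun τ _ => (hfac σ τ).pow 2))) h2, h2, zero_mul]
      exact zero_smul ℂ (dif E₀ (fun w => (u σ (i σ) w - ρ σ * u σ 0 w) * κ σ) p)
    have hdgood : ∀ σ, σ ∉ bad → ∀ b : Fin j, dif E₀ (fun w => H b (fun c => u σ c w)) p =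
        dif E₀ (u o b.succ) p := by
      intro σ hσ b
      have h1 : (fun w => H b (fun c => u σ c w)) =ᶠ[𝓝 p] fun w =>
          (u o b.succ w - u o b.succ p * u o 0 w) *
            ∏ τ ∈ bad, ((u o (i τ) w - ρ τ * u o 0 w) * κ τ) ^ 2 := by
        have h2 : ∀ᶠ w in 𝓝 p, ∀ c, u σ c w = u o c w :=
          Filter.eventually_all.2 fun c => hgood σ hσ c
        filter_upwards [h2] with w hw
        show (u σ b.succ w - u o b.succ p * u σ 0 w) *
          ∏ τ ∈ bad, ((u σ (i τ) w - ρ τ * u σ 0 w) * κ τ) ^ 2 = _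
        rw [hw b.succ, hw 0]
        congr 1
        exact Finset.prod_congr rfl fun τ _ => by rw [hw (i τ)]
      have h3 : u o b.succ p - u o b.succ p * u o 0 p = 0 := by rw [hu0p, mul_one, sub_self]
      have h4 : ∏ τ ∈ bad, ((u o (i τ) p - ρ τ * u o 0 p) * κ τ) ^ 2 = 1 := by
        refine Finset.prod_eq_one fun τ hτ => ?_
        have h5 : u o (i τ) p - u τ (i τ) p ≠ 0 := sub_ne_zero.2 (hi τ hτ).symm
        rw [hu0p, mul_one]
        show ((u o (i τ) p - u τ (i τ) p) * (u o (i τ) p - u τ (i τ) p)⁻¹) ^ 2 = 1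
        rw [mul_inv_cancel₀ h5, one_pow]
      have h5 : dif E₀ (fun w => H b (fun c => u σ c w)) p = dif E₀ (fun w =>
          (u o b.succ w - u o b.succ p * u o 0 w) *
            ∏ τ ∈ bad, ((u o (i τ) w - ρ τ * u o 0 w) * κ τ) ^ 2) p := dV_congr h1
      have h8 : (1 : ℂ) • dif E₀ (fun w => u o b.succ w - u o b.succ p * u o 0 w) p =
          dif E₀ (fun w => u o b.succ w - u o b.succ p * u o 0 w) p := one_smul ℂ _
      rw [h5, dif_mul (hlin o b) (HolV.prod fun τ _ => (hfac o τ).pow 2) h3, h4, h8]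
      have h6 : (fun w => u o b.succ w - u o b.succ p * u o 0 w) =ᶠ[𝓝 p]
          fun w => u o b.succ w + (-u o b.succ p) := by
        filter_upwards [hu0 o] with w hw
        rw [hw]; ring
      have h7 : dif E₀ (fun w => u o b.succ w - u o b.succ p * u o 0 w) p =
          dif E₀ (fun w => u o b.succ w + (-u o b.succ p)) p := dV_congr h6
      rw [h7, dif_add (huh o b.succ) (HolV.const _ p), dif_const, add_zero]
    have hfun : (fun b : Fin j => dif E₀ (fun w =>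
        (Fin.cons (fun V : P → Fin (j + 1) → ℂ => (∏ τ, V τ 0) ^ N)
          (fun b => EX N (H b)) : Fin (j + 1) → (P → Fin (j + 1) → ℂ) → ℂ) b.succ
            (fun σ c => s σ c w) /
        (Fin.cons (fun V : P → Fin (j + 1) → ℂ => (∏ τ, V τ 0) ^ N)
          (fun b => EX N (H b)) : Fin (j + 1) → (P → Fin (j + 1) → ℂ) → ℂ) 0
            (fun σ c => s σ c w)) p) =
        fun b : Fin j => (((Finset.univ \ bad).card : ℕ) : ℂ) •
          dif E₀ (fun w => s o b.succ w / s o 0 w) p := by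
      funext b
      have h1 : dif E₀ (fun w => EX N (H b) (fun σ c => s σ c w) /
          (∏ τ, s τ 0 w) ^ N) p = dif E₀ (fun w => ∑ σ, H b (fun c => u σ c w)) p :=
        dV_congr (hrat b)
      refine Eq.trans h1 ?_
      rw [dif_sum Finset.univ fun σ _ => hHh σ b, ← Finset.sum_sdiff (Finset.subset_univ bad),
        Finset.sum_eq_zero fun σ hσ => hdbad σ hσ b, add_zero,
        Finset.sum_congr rfl fun σ hσ => hdgood σ (Finset.mem_sdiff.1 hσ).2 b,
        Finset.sum_const, ← Nat.cast_smul_eq_nsmul ℂ]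
    rw [hfun]
    have hcard : (((Finset.univ \ bad).card : ℕ) : ℂ) ≠ 0 := by
      have h1 : 0 < (Finset.univ \ bad).card :=
        Finset.card_pos.2 ⟨o, Finset.mem_sdiff.2 ⟨Finset.mem_univ _, ho⟩⟩
      exact_mod_cast h1.ne'
    exact hpl.units_smul (fun _ => Units.mk0 _ hcard)

end Man

end Vale.Agent.P281.ISO
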