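import Vale.Agent.P281.H124.Vol
import Vale.Agent.P281.ISO.RelBound

/-! P281, isotrivial pairs (klt horizontal boundaries): local integrability of
`∏ |e_i| ^ (-2 δ_i)`, uniform bound of `Q^* s` for sections with poles, relative bound. -/

open scoped Manifold ContDiff Topology ENNReal
open Set Filter Metric MeasureTheory

namespace Vale.Agent.P281.ISO

open Vale.Agent.P281 Vale.Agent.P281.MF Vale.Agent.P281.H124

set_option linter.all false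

universe u

/-- one variable -/
theorem li_one {δ : ℝ} (hδ : δ < 1) :
    Integrable (indicator (ball (0 : ℂ) 1) fun z => ‖z‖ ^ (-(2 * δ))) := by
  rw [integrable_indicator_iff measurableSet_ball]
  have h := integrableOn_fun_norm_addHaar (E := ℂ) (volume : Measure ℂ)
    (f := fun t : ℝ => t ^ (-(2 * δ))) (r := 1)
  rw [h]
  have h2 : IntegrableOn (fun y : ℝ => y ^ (1 - 2 * δ)) (Ioo 0 1) := by
    have h3 := intervalIntegral.intervalIntegrable_rpow' (a := 0) (b := 1) (r := 1 - 2 * δ)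
      (by linarith)
    rw [intervalIntegrable_iff_integrableOn_Ioo_of_le zero_le_one] at h3
    exact h3
  refine h2.congr_fun (fun y hy => ?_) measurableSet_Ioo
  have h0 : 0 < y := hy.1
  simp only [Complex.finrank_real_complex, Nat.add_one_sub_one, pow_one, smul_eq_mul]
  rw [show (1 - 2 * δ) = 1 + (-(2 * δ)) by ring, Real.rpow_add h0, Real.rpow_one]

/-- the model function on the polydisc -/
noncomputable def liG {ι : Type*} [Fintype ι] (δ : ι → ℝ) {K : Type*} [NormedAddCommGroup K]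
    (z : (ι → ℂ) × K) : ℝ :=
  (∏ i, indicator (ball (0 : ℂ) 1) (fun t => ‖t‖ ^ (-(2 * δ i))) (z.1 i)) *
    indicator (ball (0 : K) 1) (fun _ => (1 : ℝ)) z.2

theorem li_prod {ι : Type*} [Fintype ι] {δ : ι → ℝ} (hδ : ∀ i, δ i < 1) {K : Type*}
    [NormedAddCommGroup K] [NormedSpace ℝ K] [FiniteDimensional ℝ K] [MeasurableSpace K]
    [BorelSpace K] (ν : Measure K) [ν.IsAddHaarMeasure] :
    Integrable (liG δ : (ι → ℂ) × K → ℝ) ((volume : Measure (ι → ℂ)).prod ν) := by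
  have h1 : Integrable (fun z : ι → ℂ => ∏ i, indicator (ball (0 : ℂ) 1)
      (fun t => ‖t‖ ^ (-(2 * δ i))) (z i)) (volume : Measure (ι → ℂ)) :=
    Integrable.fintype_prod (f := fun i => indicator (ball (0 : ℂ) 1)
      (fun t => ‖t‖ ^ (-(2 * δ i)))) fun i => li_one (hδ i)
  have h2 : Integrable (indicator (ball (0 : K) 1) (fun _ => (1 : ℝ))) ν := by
    rw [integrable_indicator_iff measurableSet_ball]
    exact integrableOn_const measure_ball_lt_top.ne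
  exact h1.mul_prod h2

/-- pulled back to another space -/
theorem li_map {ι : Type*} [Fintype ι] {δ : ι → ℝ} (hδ : ∀ i, δ i < 1) {K : Type*}
    [NormedAddCommGroup K] [NormedSpace ℂ K] [FiniteDimensional ℂ K] {V : Type*}
    [NormedAddCommGroup V] [NormedSpace ℂ V] [FiniteDimensional ℂ V] [MeasurableSpace V]
    [BorelSpace V] (μ : Measure V) [μ.IsAddHaarMeasure] (L : V ≃L[ℂ] ((ι → ℂ) × K)) :
    ∫⁻ y, ENNReal.ofReal (liG δ (L y)) ∂μ < ⊤ := by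
  have hV : FiniteDimensional ℝ V := FiniteDimensional.complexToReal V
  have hK : FiniteDimensional ℝ K := FiniteDimensional.complexToReal K
  let _ : MeasurableSpace K := borel K
  have : BorelSpace K := ⟨rfl⟩
  obtain ⟨ν, hν⟩ : ∃ ν : Measure K, ν.IsAddHaarMeasure := ⟨Measure.addHaar, inferInstance⟩
  have hKp : ProperSpace K := FiniteDimensional.proper_real K
  have hνs : SigmaFinite ν := inferInstance
  let L' : V ≃L[ℝ] ((ι → ℂ) × K) :=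
    { L.toLinearEquiv.restrictScalars ℝ with
      continuous_toFun := L.continuous
      continuous_invFun := L.symm.continuous }
  have h1 : (μ.map L').IsAddHaarMeasure := L'.isAddHaarMeasure_map μ
  have hma : MeasurableAdd K := inferInstance
  have hpr : ((volume : Measure (ι → ℂ)).prod ν).IsAddHaarMeasure :=
    Measure.prod.instIsAddHaarMeasure _ _
  have h2 := Measure.isAddLeftInvariant_eq_smul (μ.map L') ((volume : Measure (ι → ℂ)).prod ν)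
  have h3 : Integrable (liG δ : (ι → ℂ) × K → ℝ) (μ.map L') := by
    rw [h2]
    exact (li_prod hδ ν).smul_measure_nnreal
  have h4 : Integrable (fun y => liG δ (L' y)) μ := by
    exact (L'.toHomeomorph.measurableEmbedding.integrable_map_iff (μ := μ)).1 h3
  exact h4.lintegral_lt_top

/-- **Local integrability.** -/
theorem li_local {d : ℕ} {δ : Fin d → ℝ} (hδ : ∀ i, δ i < 1) {V : Type}
    [NormedAddCommGroup V] [NormedSpace ℂ V] [FiniteDimensional ℂ V] [MeasurableSpace V]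
    [BorelSpace V] (μ : Measure V) [μ.IsAddHaarMeasure] {x₀ : V} {e : Fin d → V → ℂ}
    (he : ∀ i, ContDiffAt ℂ ω (e i) x₀) (he0 : ∀ i, e i x₀ = 0)
    (hli : LinearIndependent ℂ (fun i => fderiv ℂ (e i) x₀)) :
    ∃ N : Set V, IsOpen N ∧ x₀ ∈ N ∧
      ∫⁻ x in N, ENNReal.ofReal (∏ i, ‖e i x‖ ^ (-(2 * δ i))) ∂μ < ⊤ := by
  have hV : FiniteDimensional ℝ V := FiniteDimensional.complexToReal V
  have : CompleteSpace V := FiniteDimensional.complete ℂ V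
  have hn : (ω : WithTop ℕ∞) ≠ 0 := by simp
  set A : V →L[ℂ] (Fin d → ℂ) := ContinuousLinearMap.pi fun i => fderiv ℂ (e i) x₀ with hA
  have hAs : Function.Surjective A := JB.surjective_of_linearIndependent hli
  have hle : d ≤ Module.finrank ℂ V := by
    have h1 := LinearMap.finrank_range_add_finrank_ker (A : V →ₗ[ℂ] (Fin d → ℂ))
    rw [LinearMap.range_eq_top.2 hAs, finrank_top, Module.finrank_fin_fun] at h1
    omega
  let K : Type := Fin (Module.finrank ℂ V - d) → ℂ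
  have hfr : Module.finrank ℂ V = Module.finrank ℂ ((Fin d → ℂ) × K) := by
    rw [Module.finrank_prod, Module.finrank_fin_fun, Module.finrank_fin_fun]
    omega
  let e₀ : V ≃L[ℂ] ((Fin d → ℂ) × K) := ContinuousLinearEquiv.ofFinrankEq hfr
  obtain ⟨L, hL⟩ := exists_completion e₀ hAs
  set P₀ : V →L[ℂ] K := (ContinuousLinearMap.snd ℂ (Fin d → ℂ) K).comp
    (L : V →L[ℂ] ((Fin d → ℂ) × K)) with hP₀
  set Φ : V → (Fin d → ℂ) × K := fun x => (fun i => e i x, P₀ (x - x₀)) with hΦ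
  have hΦc : ContDiffAt ℂ ω Φ x₀ :=
    (contDiffAt_pi.2 he).prodMk (P₀.contDiff.comp (contDiff_id.sub contDiff_const)).contDiffAt
  have hΦd : HasFDerivAt Φ (L : V →L[ℂ] ((Fin d → ℂ) × K)) x₀ := by
    have h2 : HasFDerivAt (fun c => P₀ (c - x₀)) P₀ x₀ := by
      have h3 : HasFDerivAt (fun w : V => w - x₀) (ContinuousLinearMap.id ℂ V) x₀ :=
        (hasFDerivAt_id x₀).sub_const x₀
      have h4 : HasFDerivAt P₀ P₀ (x₀ - x₀) := P₀.hasFDerivAt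
      have h5 := HasFDerivAt.comp (g := P₀) (f := fun w : V => w - x₀) x₀ h4 h3
      exact h5.congr_fderiv (ContinuousLinearMap.comp_id P₀)
    have h1 : HasFDerivAt (fun x i => e i x) A x₀ :=
      hasFDerivAt_pi'.2 fun i => ((he i).differentiableAt hn).hasFDerivAt
    refine (h1.prodMk h2).congr_fderiv ?_
    refine ContinuousLinearMap.ext fun ξ => ?_
    exact Prod.ext (hL ξ).symm rfl
  have hstr : HasStrictFDerivAt Φ (L : V →L[ℂ] ((Fin d → ℂ) × K)) x₀ :=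
    hΦc.hasStrictFDerivAt' hΦd hn
  set Ξ : V → V := fun x => L.symm (Φ x) with hΞ
  have hΞc : ContDiffAt ℂ ω Ξ x₀ := L.symm.contDiff.contDiffAt.comp x₀ hΦc
  have hΞd : fderiv ℂ Ξ x₀ = ContinuousLinearMap.id ℂ V := by
    have h1 : HasFDerivAt Ξ ((L.symm : ((Fin d → ℂ) × K) →L[ℂ] V).comp
        (L : V →L[ℂ] ((Fin d → ℂ) × K))) x₀ :=
      HasFDerivAt.comp (g := L.symm) (f := Φ) x₀ L.symm.hasFDerivAt hΦd
    rw [h1.fderiv]
    ext ξ
    simp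
  have hdet : ContinuousAt (fun x => ‖(fderiv ℂ Ξ x).det‖) x₀ := by
    have h1 : ContinuousAt (fderiv ℂ Ξ) x₀ := (hΞc.fderiv_right (m := ω) (by simp)).continuousAt
    exact ((ContinuousLinearMap.continuous_det.tendsto _).comp h1.tendsto).norm
  have hdet0 : (1 / 2 : ℝ) < ‖(fderiv ℂ Ξ x₀).det‖ := by
    rw [hΞd, det_id']
    norm_num
  have h1 : ∀ᶠ x in 𝓝 x₀, (1 / 2 : ℝ) < ‖(fderiv ℂ Ξ x).det‖ :=
    hdet.eventually_const_lt hdet0
  have h2 : ∀ᶠ x in 𝓝 x₀, ∀ i, e i x ∈ ball (0 : ℂ) 1 := by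
    rw [eventually_all]
    intro i
    have h3 := (he i).continuousAt.eventually (ball_mem_nhds (e i x₀) one_pos)
    rw [he0 i] at h3
    exact h3
  have h3 : ∀ᶠ x in 𝓝 x₀, P₀ (x - x₀) ∈ ball (0 : K) 1 := by
    have h4 : ContinuousAt (fun x => P₀ (x - x₀)) x₀ := by fun_prop
    have h5 := h4.eventually (ball_mem_nhds _ one_pos)
    simp only [sub_self, map_zero] at h5
    exact h5
  have h4 : ∀ᶠ x in 𝓝 x₀, ContDiffAt ℂ ω Ξ x := hΞc.eventually (by simp)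
  obtain ⟨N₀, hN₀, hN₀o, hxN₀⟩ := _root_.eventually_nhds_iff.1 (((h1.and h2).and h3).and h4)
  set N : Set V := N₀ ∩ (hstr.toOpenPartialHomeomorph Φ).source with hN
  have hNo : IsOpen N := hN₀o.inter (hstr.toOpenPartialHomeomorph Φ).open_source
  have hinj : InjOn Ξ N := by
    intro x hx x' hx' h
    exact (hstr.toOpenPartialHomeomorph Φ).injOn hx.2 hx'.2 (L.symm.injective h)
  refine ⟨N, hNo, ⟨hxN₀, hstr.mem_toOpenPartialHomeomorph_source⟩, ?_⟩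
  set g : V → ℝ≥0∞ := fun y => ENNReal.ofReal (liG δ (L y)) with hg
  have hΞg : ∀ x ∈ N, ENNReal.ofReal (∏ i, ‖e i x‖ ^ (-(2 * δ i))) = g (Ξ x) := by
    intro x hx
    have h5 : L (Ξ x) = (fun i => e i x, P₀ (x - x₀)) := L.apply_symm_apply _
    simp only [hg]
    rw [h5]
    unfold liG
    simp only
    rw [indicator_of_mem (hN₀ x hx.1).1.2, mul_one]
    congr 1
    refine Finset.prod_congr rfl fun i _ => ?_
    rw [indicator_of_mem ((hN₀ x hx.1).1.1.2 i)]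
  have hle1 : ∀ x ∈ N, ENNReal.ofReal (∏ i, ‖e i x‖ ^ (-(2 * δ i))) ≤
      4 * (ENNReal.ofReal |((fderiv ℂ Ξ x).restrictScalars ℝ).det| * g (Ξ x)) := by
    intro x hx
    rw [hΞg x hx, ← mul_assoc]
    have h5 : (1 : ℝ≥0∞) ≤ 4 * ENNReal.ofReal |((fderiv ℂ Ξ x).restrictScalars ℝ).det| := by
      rw [abs_det_real, show (4 : ℝ≥0∞) = ENNReal.ofReal 4 by simp, ← ENNReal.ofReal_mul (by norm_num),
        ← ENNReal.ofReal_one]
      apply ENNReal.ofReal_le_ofReal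
      have h6 := (hN₀ x hx.1).1.1.1
      nlinarith
    calc g (Ξ x) = 1 * g (Ξ x) := (one_mul _).symm
      _ ≤ _ := mul_le_mul_left h5 _
  calc ∫⁻ x in N, ENNReal.ofReal (∏ i, ‖e i x‖ ^ (-(2 * δ i))) ∂μ
      ≤ ∫⁻ x in N, 4 * (ENNReal.ofReal |((fderiv ℂ Ξ x).restrictScalars ℝ).det| * g (Ξ x)) ∂μ :=
        setLIntegral_mono' hNo.measurableSet hle1
    _ = 4 * ∫⁻ x in N, ENNReal.ofReal |((fderiv ℂ Ξ x).restrictScalars ℝ).det| * g (Ξ x) ∂μ :=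
        lintegral_const_mul' _ _ (by simp)
    _ = 4 * ∫⁻ y in Ξ '' N, g y ∂μ := by
        rw [lintegral_image_eq_lintegral_abs_det_fderiv_mul μ hNo.measurableSet
          (f' := fun x => (fderiv ℂ Ξ x).restrictScalars ℝ) (fun x hx => ?_) hinj]
        exact ((((hN₀ x hx.1).2.differentiableAt hn).hasFDerivAt).restrictScalars
          ℝ).hasFDerivWithinAt
    _ ≤ 4 * ∫⁻ y, g y ∂μ := by
        gcongr
        exact Measure.restrict_le_self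
    _ < ⊤ := ENNReal.mul_lt_top (by simp) (li_map hδ μ L)

section Klt

set_option linter.unusedSectionVars false

variable {E₀ : Type} [NormedAddCommGroup E₀] [NormedSpace ℂ E₀] [FiniteDimensional ℂ E₀]
  {F : Type u} [TopologicalSpace F] [ChartedSpace E₀ F] [IsManifold 𝓘(ℂ, E₀) ω F]

/-- off the poles the section is holomorphic -/
theorem formAt_of_avoid {κ : Set F → ℕ} {m : ℕ} {s : F → ℂ}
    (hs : IsSection E₀ (fun (C : Set F) p g => IsLocalEq E₀ C g p) m κ s) {p : F}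
    (hp : ∀ C, κ C ≠ 0 → p ∉ C) :
    ∃ a : F → ℂ, HolAt E₀ a p ∧ ∀ᶠ z in 𝓝 p, s z = a z * jac E₀ (chartAt E₀ p) z ^ m := by
  obtain ⟨T, g, a, hT, hg, ha, hev⟩ := hs p
  have hpr : HolV E₀ (fun z => ∏ i ∈ T, g i z ^ κ i) p := by
    refine HolV.prod fun i hi => HolV.pow ?_ _
    obtain ⟨W, hWo, hpW, hWh, -, -⟩ := hg i hi
    exact hWh p hpW
  have hpr0 : ∏ i ∈ T, g i p ^ κ i ≠ 0 := by
    refine Finset.prod_ne_zero_iff.2 fun i hi => ?_
    obtain ⟨W, hWo, hpW, -, hWz, -⟩ := hg i hi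
    by_cases h0 : κ i = 0
    · rw [h0, pow_zero]
      exact one_ne_zero
    · exact pow_ne_zero _ fun h1 => hp i h0 ((hWz p hpW).2 h1)
  refine ⟨fun z => a z / ∏ i ∈ T, g i z ^ κ i, HolV.div ha hpr hpr0, ?_⟩
  filter_upwards [hev, hpr.continuousAt.eventually_ne hpr0] with z h1 h2
  rw [div_mul_eq_mul_div, eq_div_iff h2]
  exact h1 h2

/-- the pull back is holomorphic -/
theorem pb_contDiffAt' {m : ℕ} {s : F → ℂ} {Q : E₀ → F} {w : E₀}
    (hs : ∃ a : F → ℂ, HolAt E₀ a (Q w) ∧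
      ∀ᶠ z in 𝓝 (Q w), s z = a z * jac E₀ (chartAt E₀ (Q w)) z ^ m)
    (hQ : ContMDiffAt 𝓘(ℂ, E₀) 𝓘(ℂ, E₀) ω Q w) : ContDiffAt ℂ ω (pb m s Q) w := by
  obtain ⟨a, ha, hae⟩ := hs
  have h1 : ContDiffAt ℂ ω (fun u => a (Q u)) w :=
    contMDiffAt_iff_contDiffAt.1 (ContMDiffAt.comp w ha hQ)
  have h2 := contDiffAt_chart hQ (mem_chart_source E₀ (Q w))
  have h3 : ContDiffAt ℂ ω (fun u => (fderiv ℂ (fun u => chartAt E₀ (Q w) (Q u)) u).det) w :=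
    contDiff_det.contDiffAt.comp w (h2.fderiv_right (m := ω) (by simp))
  refine (h1.mul (h3.pow m)).congr_of_eventuallyEq ?_
  have h4 : ∀ᶠ u in 𝓝 w, ContMDiffAt 𝓘(ℂ, E₀) 𝓘(ℂ, E₀) ω Q u :=
    (contMDiffAt_iff_contMDiffAt_nhds (by simp)).1 hQ
  filter_upwards [h4, hQ.continuousAt.eventually hae,
    hQ.continuousAt.eventually ((chartAt E₀ (Q w)).open_source.mem_nhds
      (mem_chart_source E₀ (Q w)))] with u h5 h6 h7
  exact pb_local h5 h7 h6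

theorem kappa_ne {Δ : Set F → ℝ} {m : ℕ} (hm : 0 < m) {κ : Set F → ℕ}
    (hκ : ∀ C, (κ C : ℝ) = m * Δ C) (C : Set F) : κ C ≠ 0 ↔ Δ C ≠ 0 := by
  have hm' : (m : ℝ) ≠ 0 := by positivity
  rw [← Nat.cast_ne_zero (R := ℝ), hκ C]
  simp [hm']

/-- local structure of a section with poles along the boundary -/
theorem loc_klt [MeasurableSpace E₀] [BorelSpace E₀] (μ : Measure E₀) [μ.IsAddHaarMeasure]
    {Δ : Set F → ℝ} (hsnc : IsSNCBoundary E₀ Δ) (hlt : ∀ C, Δ C < 1) {m : ℕ} (hm : 0 < m)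
    {κ : Set F → ℕ} (hκ : ∀ C, (κ C : ℝ) = m * Δ C) {s : F → ℂ}
    (hs : IsSection E₀ (fun (C : Set F) p g => IsLocalEq E₀ C g p) m κ s) (p : F) :
    ∃ (O : Set F) (α : F → ℂ) (H : E₀ → ℝ≥0∞), IsOpen O ∧ p ∈ O ∧
      O ⊆ (chartAt E₀ p).source ∧ ∫⁻ x in chartAt E₀ p '' O, H x ∂μ < ⊤ ∧
      ∀ z ∈ O, (∀ C, Δ C ≠ 0 → z ∉ C) → s z = α z * jac E₀ (chartAt E₀ p) z ^ m ∧
        ‖α z‖ₑ ^ (2 / (m : ℝ)) ≤ H (chartAt E₀ p z) := by
  classical
  have hp0 : (0 : ℝ) < 2 / m := by positivity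
  have hκ0 := kappa_ne (F := F) hm hκ
  obtain ⟨T, g, a, hT, hg, ha, hev⟩ := hs p
  set φ := chartAt E₀ p with hφ
  have hps : p ∈ φ.source := mem_chart_source E₀ p
  have hιfin : Finite {D : Set F // Δ D ≠ 0 ∧ p ∈ D} :=
    (hsnc.finite.subset (fun D (h : Δ D ≠ 0 ∧ p ∈ D) => h.1)).to_subtype
  have hιft : Fintype {D : Set F // Δ D ≠ 0 ∧ p ∈ D} := Fintype.ofFinite _
  have hιT : ∀ i : {D : Set F // Δ D ≠ 0 ∧ p ∈ D}, i.1 ∈ T := fun i => hT _ ((hκ0 _).2 i.2.1)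
  have hli := hsnc.snc p g (fun D hD hp => hg D (hT D ((hκ0 D).2 hD)))
  obtain ⟨d, ⟨q⟩⟩ : ∃ d : ℕ, Nonempty (Fin d ≃ {D : Set F // Δ D ≠ 0 ∧ p ∈ D}) :=
    ⟨_, ⟨(Fintype.equivFin _).symm⟩⟩
  have hgh : ∀ i ∈ T, HolV E₀ (g i) p := fun i hi => by
    obtain ⟨W, hWo, hpW, hWh, -, -⟩ := hg i hi
    exact hWh p hpW
  set e : Fin d → E₀ → ℂ := fun i => g (q i).1 ∘ φ.symm with he
  have hec : ∀ i, ContDiffAt ℂ ω (e i) (φ p) := fun i => (hgh _ (hιT (q i))).rep hps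
  have he0 : ∀ i, e i (φ p) = 0 := by
    intro i
    show g (q i).1 (φ.symm (φ p)) = 0
    rw [φ.left_inv hps]
    obtain ⟨W, hWo, hpW, -, hWz, -⟩ := hg _ (hιT (q i))
    exact (hWz p hpW).1 (q i).2.2
  have hli' : LinearIndependent ℂ (fun i => fderiv ℂ (e i) (φ p)) := by
    let Λ : (E₀ →L[ℂ] ℂ) →ₗ[ℂ] (E₀ →L[ℂ] ℂ) :=
      { toFun := fun f => f.comp (dV E₀ (φ : F → E₀) p)
        map_add' := fun f f' => ContinuousLinearMap.add_comp _ _ _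
        map_smul' := fun c f => ContinuousLinearMap.smul_comp _ _ _ }
    refine LinearIndependent.of_comp Λ ?_
    have h1 := hli.comp q q.injective
    have h2 : (Λ ∘ fun i => fderiv ℂ (e i) (φ p)) = (fun D : {D : Set F // Δ D ≠ 0 ∧ p ∈ D} =>
        dif E₀ (g D.1) p) ∘ q := by
      funext i
      exact (dV_eq_chart hps (hgh _ (hιT (q i)))).symm
    rw [h2]
    exact h1
  obtain ⟨N, hNo, hpN, hNint⟩ := li_local (δ := fun i => Δ (q i).1) (fun i => hlt _) μ hec he0 hli'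
  -- the other factors
  set T₂ := T.filter (fun C => ¬ (Δ C ≠ 0 ∧ p ∈ C)) with hT₂
  have hpr : HolV E₀ (fun z => ∏ i ∈ T₂, g i z ^ κ i) p :=
    HolV.prod fun i hi => (hgh i (Finset.mem_filter.1 hi).1).pow _
  have hpr0 : ∏ i ∈ T₂, g i p ^ κ i ≠ 0 := by
    refine Finset.prod_ne_zero_iff.2 fun i hi => ?_
    obtain ⟨hi1, hi2⟩ := Finset.mem_filter.1 hi
    obtain ⟨W, hWo, hpW, -, hWz, -⟩ := hg i hi1
    by_cases h0 : κ i = 0
    · rw [h0, pow_zero]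
      exact one_ne_zero
    · exact pow_ne_zero _ fun h1 => hi2 ⟨(hκ0 i).1 h0, (hWz p hpW).2 h1⟩
  set b : F → ℂ := fun z => a z / ∏ i ∈ T₂, g i z ^ κ i with hb
  have hbc : ContinuousAt b p :=
    (HolV.continuousAt (ha : HolV E₀ a p)).div hpr.continuousAt hpr0
  set M : ℝ := ‖b p‖ + 1 with hM
  have h1 : ∀ᶠ z in 𝓝 p, ‖b z‖ < M := hbc.norm.eventually_lt_const (by simp [hM])
  have h2 : ∀ᶠ z in 𝓝 p, ∀ i ∈ T, (z ∈ i ↔ g i z = 0) := by
    rw [Filter.eventually_all_finset]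
    intro i hi
    obtain ⟨W, hWo, hpW, -, hWz, -⟩ := hg i hi
    filter_upwards [hWo.mem_nhds hpW] with z hz
    exact hWz z hz
  have h0 : ∀ᶠ z in 𝓝 p, z ∈ φ.source := φ.open_source.mem_nhds hps
  have h0' : ∀ᶠ z in 𝓝 p, φ z ∈ N := (φ.continuousAt hps).eventually (hNo.mem_nhds hpN)
  obtain ⟨O, hO, hOo, hpO⟩ := _root_.eventually_nhds_iff.1
    (((((h0.and h0').and h1).and h2).and (hpr.continuousAt.eventually_ne hpr0)).and hev)
  have hM0 : 0 ≤ M := by positivity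
  refine ⟨O, fun z => b z * (∏ i ∈ T.filter (fun C => Δ C ≠ 0 ∧ p ∈ C), g i z ^ κ i)⁻¹,
    fun x => ENNReal.ofReal (M ^ (2 / (m : ℝ))) *
      ENNReal.ofReal (∏ i, ‖e i x‖ ^ (-(2 * Δ (q i).1))), hOo, hpO,
    fun z hz => (hO z hz).1.1.1.1.1, ?_, fun z hz hav => ?_⟩
  · have h3 : φ '' O ⊆ N := by
      rintro _ ⟨z, hz, rfl⟩
      exact (hO z hz).1.1.1.1.2
    calc ∫⁻ x in φ '' O, ENNReal.ofReal (M ^ (2 / (m : ℝ))) *
          ENNReal.ofReal (∏ i, ‖e i x‖ ^ (-(2 * Δ (q i).1))) ∂μ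
        ≤ ∫⁻ x in N, ENNReal.ofReal (M ^ (2 / (m : ℝ))) *
          ENNReal.ofReal (∏ i, ‖e i x‖ ^ (-(2 * Δ (q i).1))) ∂μ := lintegral_mono_set h3
      _ = ENNReal.ofReal (M ^ (2 / (m : ℝ))) * ∫⁻ x in N,
          ENNReal.ofReal (∏ i, ‖e i x‖ ^ (-(2 * Δ (q i).1))) ∂μ :=
          lintegral_const_mul' _ _ ENNReal.ofReal_ne_top
      _ < ⊤ := ENNReal.mul_lt_top ENNReal.ofReal_lt_top hNint
  · obtain ⟨⟨⟨⟨⟨hz1, hz2⟩, hz3⟩, hz4⟩, hz5⟩, hz6⟩ := hO z hz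
    have hg0 : ∀ i ∈ T.filter (fun C => Δ C ≠ 0 ∧ p ∈ C), g i z ≠ 0 := by
      intro i hi h0
      obtain ⟨hi1, hi2⟩ := Finset.mem_filter.1 hi
      exact hav i hi2.1 ((hz4 i hi1).2 h0)
    have hP1 : ∏ i ∈ T.filter (fun C => Δ C ≠ 0 ∧ p ∈ C), g i z ^ κ i ≠ 0 :=
      Finset.prod_ne_zero_iff.2 fun i hi => pow_ne_zero _ (hg0 i hi)
    have hP : ∏ i ∈ T, g i z ^ κ i = (∏ i ∈ T.filter (fun C => Δ C ≠ 0 ∧ p ∈ C), g i z ^ κ i) *
        ∏ i ∈ T₂, g i z ^ κ i :=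
      (Finset.prod_filter_mul_prod_filter_not T (fun C => Δ C ≠ 0 ∧ p ∈ C) _).symm
    refine ⟨?_, ?_⟩
    · rw [hP] at hz6
      have h3 := hz6 (mul_ne_zero hP1 hz5)
      simp only [hb]
      field_simp
      linear_combination h3
    · have h3 : ‖b z * (∏ i ∈ T.filter (fun C => Δ C ≠ 0 ∧ p ∈ C), g i z ^ κ i)⁻¹‖ ^
          (2 / (m : ℝ)) = ‖b z‖ ^ (2 / (m : ℝ)) * ∏ i, ‖e i (φ z)‖ ^ (-(2 * Δ (q i).1)) := by
        rw [norm_mul, norm_inv, norm_prod, Real.mul_rpow (norm_nonneg _) (by positivity),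
          Real.inv_rpow (by positivity), ← Real.finset_prod_rpow _ _ (fun i _ => by positivity),
          ← Finset.prod_inv_distrib]
        congr 1
        have h4 : ∀ i ∈ T.filter (fun C => Δ C ≠ 0 ∧ p ∈ C),
            (‖g i z ^ κ i‖ ^ (2 / (m : ℝ)))⁻¹ = ‖g i z‖ ^ (-(2 * Δ i)) := by
          intro i hi
          rw [Real.rpow_neg (norm_nonneg _), norm_pow, ← Real.rpow_natCast,
            ← Real.rpow_mul (norm_nonneg _), hκ i]
          congr 2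
          have : (m : ℝ) ≠ 0 := by positivity
          field_simp
        rw [Finset.prod_congr rfl h4]
        rw [Finset.prod_subtype (p := fun D : Set F => Δ D ≠ 0 ∧ p ∈ D)
          (T.filter (fun C => Δ C ≠ 0 ∧ p ∈ C)) (fun D => ?_) (fun i => ‖g i z‖ ^ (-(2 * Δ i)))]
        · rw [← Equiv.prod_comp q]
          refine Finset.prod_congr rfl fun i _ => ?_
          simp only [he, Function.comp_apply]
          rw [φ.left_inv hz1]
        · rw [Finset.mem_filter]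
          exact ⟨fun h => h.2, fun h => ⟨hT D ((hκ0 D).2 h.1), h⟩⟩
      beta_reduce
      rw [← ofReal_norm, ENNReal.ofReal_rpow_of_nonneg (norm_nonneg _) hp0.le, h3,
        ← ENNReal.ofReal_mul (by positivity)]
      apply ENNReal.ofReal_le_ofReal
      refine mul_le_mul_of_nonneg_right ?_ (Finset.prod_nonneg fun i _ => by positivity)
      exact Real.rpow_le_rpow (norm_nonneg _) hz3.le hp0.le

/-- **Volume bound, klt version.** -/
theorem lintegral_pb_le_klt [MeasurableSpace E₀] [BorelSpace E₀] (μ : Measure E₀)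
    [μ.IsAddHaarMeasure] [CompactSpace F] {Δ : Set F → ℝ} (hsnc : IsSNCBoundary E₀ Δ)
    (hlt : ∀ C, Δ C < 1) {m : ℕ} (hm : 0 < m) {κ : Set F → ℕ}
    (hκ : ∀ C, (κ C : ℝ) = m * Δ C) {s : F → ℂ}
    (hs : IsSection E₀ (fun (C : Set F) p g => IsLocalEq E₀ C g p) m κ s) :
    ∃ M : ℝ≥0∞, M ≠ ⊤ ∧ ∀ (Q : E₀ → F) (v : E₀) (r : ℝ),
      (∀ w ∈ ball v r, ContMDiffAt 𝓘(ℂ, E₀) 𝓘(ℂ, E₀) ω Q w) → InjOn Q (ball v r) →
      (∀ w ∈ ball v r, ∀ C, Δ C ≠ 0 → Q w ∉ C) →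
      ∫⁻ w in ball v r, ‖pb m s Q w‖ₑ ^ (2 / (m : ℝ)) ∂μ ≤ M := by
  classical
  have hfd : FiniteDimensional ℝ E₀ := FiniteDimensional.complexToReal E₀
  have hp0 : (0 : ℝ) < 2 / m := by positivity
  choose O α H hOo hpO hOs hint hOα using loc_klt μ hsnc hlt hm hκ hs
  obtain ⟨T, hT⟩ := isCompact_univ.elim_finite_subcover O hOo fun p _ =>
    mem_iUnion.2 ⟨p, hpO p⟩
  refine ⟨∑ p ∈ T, ∫⁻ x in chartAt E₀ p '' O p, H p x ∂μ,
    (ENNReal.sum_lt_top.2 fun p _ => hint p).ne, ?_⟩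
  intro Q v r hQ hinj hav
  have hQc : ContinuousOn Q (ball v r) := fun w hw => (hQ w hw).continuousAt.continuousWithinAt
  have hcover : ball v r ⊆ ⋃ p ∈ T, (ball v r ∩ Q ⁻¹' O p) := by
    intro w hw
    obtain ⟨p, hpT, hp⟩ := mem_iUnion₂.1 (hT (mem_univ (Q w)))
    exact mem_iUnion₂.2 ⟨p, hpT, hw, hp⟩
  have hmeas : ∀ p, MeasurableSet (ball v r ∩ Q ⁻¹' O p) := fun p =>
    (hQc.isOpen_inter_preimage isOpen_ball (hOo p)).measurableSet
  calc ∫⁻ w in ball v r, ‖pb m s Q w‖ₑ ^ (2 / (m : ℝ)) ∂μ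
      ≤ ∫⁻ w in ⋃ p ∈ T, (ball v r ∩ Q ⁻¹' O p), ‖pb m s Q w‖ₑ ^ (2 / (m : ℝ)) ∂μ :=
        lintegral_mono_set hcover
    _ ≤ ∑ p ∈ T, ∫⁻ w in ball v r ∩ Q ⁻¹' O p, ‖pb m s Q w‖ₑ ^ (2 / (m : ℝ)) ∂μ :=
        setLIntegral_biUnion_le μ T _ _
    _ ≤ _ := Finset.sum_le_sum fun p _ => ?_
  set ψ : E₀ → E₀ := fun u => chartAt E₀ p (Q u) with hψ
  have hd : ∀ w ∈ ball v r ∩ Q ⁻¹' O p, DifferentiableAt ℂ ψ w := fun w hw =>
    (contDiffAt_chart (hQ w hw.1) (hOs p hw.2)).differentiableAt (by simp)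
  have h1 : ∀ w ∈ ball v r ∩ Q ⁻¹' O p, ‖pb m s Q w‖ₑ ^ (2 / (m : ℝ)) ≤
      ENNReal.ofReal |((fderiv ℂ ψ w).restrictScalars ℝ).det| * H p (ψ w) := by
    intro w hw
    obtain ⟨h2, h3⟩ := hOα p (Q w) hw.2 (hav w hw.1)
    rw [pb_local (hQ w hw.1) (hOs p hw.2) h2, abs_det_real, enorm_mul, enorm_pow,
      ENNReal.mul_rpow_of_nonneg _ _ hp0.le, mul_comm]
    refine mul_le_mul' (le_of_eq ?_) h3
    rw [← ENNReal.rpow_natCast, ← ENNReal.rpow_mul]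
    have : (m : ℝ) * (2 / m) = (2 : ℕ) := by
      have : (m : ℝ) ≠ 0 := by positivity
      field_simp
      norm_num
    rw [this, ENNReal.rpow_natCast, ENNReal.ofReal_pow (norm_nonneg _), ofReal_norm]
  calc ∫⁻ w in ball v r ∩ Q ⁻¹' O p, ‖pb m s Q w‖ₑ ^ (2 / (m : ℝ)) ∂μ
      ≤ ∫⁻ w in ball v r ∩ Q ⁻¹' O p,
          ENNReal.ofReal |((fderiv ℂ ψ w).restrictScalars ℝ).det| * H p (ψ w) ∂μ :=
        setLIntegral_mono' (hmeas p) h1
    _ = ∫⁻ x in ψ '' (ball v r ∩ Q ⁻¹' O p), H p x ∂μ := by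
        refine (lintegral_image_eq_lintegral_abs_det_fderiv_mul μ (hmeas p)
          (f' := fun w => (fderiv ℂ ψ w).restrictScalars ℝ) (fun w hw => ?_) ?_ _).symm
        · exact ((hd w hw).hasFDerivAt.restrictScalars ℝ).hasFDerivWithinAt
        · intro w hw w' hw' h
          exact hinj hw.1 hw'.1 ((chartAt E₀ p).injOn (hOs p hw.2) (hOs p hw'.2) h)
    _ ≤ ∫⁻ x in chartAt E₀ p '' O p, H p x ∂μ := by
        refine lintegral_mono_set ?_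
        rintro _ ⟨w, hw, rfl⟩
        exact ⟨Q w, hw.2, rfl⟩

/-- **Uniform bound, klt version.** -/
theorem fibre_bound_klt [CompactSpace F] {Δ : Set F → ℝ} (hsnc : IsSNCBoundary E₀ Δ)
    (hlt : ∀ C, Δ C < 1) {m : ℕ} (hm : 0 < m) {κ : Set F → ℕ}
    (hκ : ∀ C, (κ C : ℝ) = m * Δ C) {s : F → ℂ}
    (hs : IsSection E₀ (fun (C : Set F) p g => IsLocalEq E₀ C g p) m κ s)
    (r : ℝ) (hr : 0 < r) : ∃ M : ℝ, ∀ (v₀ : E₀) (Q : E₀ → F),
      (∀ v ∈ ball v₀ r, ContMDiffAt 𝓘(ℂ, E₀) 𝓘(ℂ, E₀) ω Q v) → InjOn Q (ball v₀ r) →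
      (∀ v ∈ ball v₀ r, ∀ C, Δ C ≠ 0 → Q v ∉ C) →
      ‖s (Q v₀) * ContinuousLinearMap.det (mfderiv 𝓘(ℂ, E₀) 𝓘(ℂ, E₀) Q v₀ : E₀ →L[ℂ] E₀) ^ m‖
        ≤ M := by
  have hfd : FiniteDimensional ℝ E₀ := FiniteDimensional.complexToReal E₀
  let _ : MeasurableSpace E₀ := borel E₀
  have : BorelSpace E₀ := ⟨rfl⟩
  let μ : Measure E₀ := Measure.addHaar
  obtain ⟨M, hM, hb⟩ := lintegral_pb_le_klt μ hsnc hlt hm hκ hs
  have hp0 : (0 : ℝ) < 2 / m := by positivity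
  set N : ℝ≥0∞ := (M / μ (ball 0 r)) ^ ((m : ℝ) / 2) with hN
  have hball : μ (ball (0 : E₀) r) ≠ 0 := (measure_ball_pos μ 0 hr).ne'
  have hball' : μ (ball (0 : E₀) r) ≠ ⊤ := measure_ball_lt_top.ne
  have hNt : N ≠ ⊤ := ENNReal.rpow_ne_top_of_nonneg (by positivity) (ENNReal.div_ne_top hM hball)
  refine ⟨N.toReal, fun v Q hQ hinj hav => ?_⟩
  have h1 := rpow_mul_volume_le μ (f := pb m s Q) (z := v) (r := r)
    (fun w hw => ((pb_contDiffAt' (formAt_of_avoid hs fun C hC =>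
      hav w hw C ((kappa_ne hm hκ C).1 hC)) (hQ w hw)).differentiableAt
        (by simp)).differentiableWithinAt) hp0
  have h2 := h1.trans (hb Q v r hQ hinj hav)
  have h3 : μ (ball v r) = μ (ball (0 : E₀) r) := Measure.addHaar_ball_center _ _ _
  rw [h3, ← ENNReal.le_div_iff_mul_le (Or.inl hball) (Or.inl hball')] at h2
  have h4 := ENNReal.rpow_le_rpow h2 (z := (m : ℝ) / 2) (by positivity)
  rw [← ENNReal.rpow_mul] at h4
  have h5 : 2 / (m : ℝ) * (m / 2) = 1 := by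
    have : (m : ℝ) ≠ 0 := by positivity
    field_simp
  rw [h5, ENNReal.rpow_one] at h4
  have h6 := ENNReal.toReal_mono hNt h4
  rwa [toReal_enorm] at h6

end Klt

section RelP

variable {E E' E₀ : Type} [NormedAddCommGroup E] [NormedSpace ℂ E] [FiniteDimensional ℂ E]
  [NormedAddCommGroup E'] [NormedSpace ℂ E'] [FiniteDimensional ℂ E']
  [NormedAddCommGroup E₀] [NormedSpace ℂ E₀] [FiniteDimensional ℂ E₀]
variable {X Y F : Type u} [TopologicalSpace X] [ChartedSpace E X] [IsManifold 𝓘(ℂ, E) ω X]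
  [TopologicalSpace Y] [ChartedSpace E' Y] [IsManifold 𝓘(ℂ, E') ω Y]
  [TopologicalSpace F] [ChartedSpace E₀ F] [IsManifold 𝓘(ℂ, E₀) ω F]

/-- holomorphic maps read in a chart of the source -/
theorem holM_symm' {x₀ z : X} (hz : z ∈ (chartAt E x₀).source) {p : X → F}
    (hp : HolM E E₀ p z) :
    ContMDiffAt 𝓘(ℂ, E) 𝓘(ℂ, E₀) ω (p ∘ (chartAt E x₀).symm) (chartAt E x₀ z) := by
  have hmem : chartAt E x₀ ∈ IsManifold.maximalAtlas 𝓘(ℂ, E) ω X :=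
    IsManifold.chart_mem_maximalAtlas _
  have h1 : ContMDiffAt 𝓘(ℂ, E) 𝓘(ℂ, E) ω (chartAt E x₀).symm (chartAt E x₀ z) :=
    contMDiffAt_symm_of_mem_maximalAtlas hmem ((chartAt E x₀).map_source hz)
  have h2 : ContMDiffAt 𝓘(ℂ, E) 𝓘(ℂ, E₀) ω p ((chartAt E x₀).symm (chartAt E x₀ z)) := by
    rw [(chartAt E x₀).left_inv hz]
    exact hp
  exact ContMDiffAt.comp _ h2 h1

theorem dM_eq_chart' {x₀ z : X} (hz : z ∈ (chartAt E x₀).source) {p : X → F}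
    (hp : HolM E E₀ p z) {P : E →L[ℂ] E₀}
    (hP : P = mfderiv 𝓘(ℂ, E) 𝓘(ℂ, E₀) (p ∘ (chartAt E x₀).symm) (chartAt E x₀ z)) :
    dM E E₀ p z = P.comp (dV E (chartAt E x₀ : X → E) z) := by
  subst hP
  have h1 : p =ᶠ[𝓝 z] (p ∘ (chartAt E x₀).symm) ∘ (chartAt E x₀ : X → E) := by
    filter_upwards [(chartAt E x₀).open_source.mem_nhds hz] with w hw
    simp [(chartAt E x₀).left_inv hw]
  unfold dM dV
  rw [h1.mfderiv_eq]
  exact mfderiv_comp z ((holM_symm' hz hp).mdifferentiableAt (by simp)) (HolV.chart hz).mdiff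

/-- the relative form at the good points, with poles along the boundary -/
theorem rel_bound_P {f : X → Y} (hf : ∀ x, HolM E E' f x) {S : Set Y} {ι : Type u} {U : ι → Set Y}
    {q : ι → X → F} (hI : Iso E E' E₀ f S U q) (e₀ : E ≃L[ℂ] (E' × E₀)) {m : ℕ} (hm : 0 < m)
    {s : F → ℂ} {Δ : Set F → ℝ} {κ' : Set F → ℕ}
    (hs : IsSection E₀ (fun (C : Set F) p g => IsLocalEq E₀ C g p) m κ' s)
    (hbd : ∀ r : ℝ, 0 < r → ∃ M : ℝ, ∀ (v₀ : E₀) (Q : E₀ → F),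
      (∀ v ∈ ball v₀ r, ContMDiffAt 𝓘(ℂ, E₀) 𝓘(ℂ, E₀) ω Q v) → InjOn Q (ball v₀ r) →
      (∀ v ∈ ball v₀ r, ∀ C, Δ C ≠ 0 → Q v ∉ C) →
      ‖s (Q v₀) * ContinuousLinearMap.det (mfderiv 𝓘(ℂ, E₀) 𝓘(ℂ, E₀) Q v₀ : E₀ →L[ℂ] E₀) ^ m‖
        ≤ M) {x₀ y : X}
    (hav : ∀ᶠ z in 𝓝 y, ∀ a, f z ∈ U a → ∀ C, Δ C ≠ 0 → q a z ∉ C) {y₀ : Y} (hx₀ : y ∈ (chartAt E x₀).source)
    (hy₀ : f y ∈ (chartAt E' y₀).source) {e w : X → ℂ} {g : Y → ℂ} {κ : ℕ} (hκ : 0 < κ)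
    (he : HolV E e y) (he0 : e y = 0) (hde : dif E e y ≠ 0) (hg : HolV E' g (f y))
    (hg0 : g (f y) = 0) (hdg : dif E' g (f y) ≠ 0) (hw : HolV E w y) (hw0 : w y ≠ 0)
    (heq : ∀ᶠ z in 𝓝 y, g (f z) = e z ^ κ * w z)
    (hsub : ∀ η, dif E' g (f y) η = 0 → ∃ ξ, dif E e y ξ = 0 ∧ dM E E' f y ξ = η) :
    ∃ C : ℝ, ∀ᶠ z in 𝓝 y, ∀ a, f z ∈ U a →
      ‖jac E' (chartAt E' y₀) (f z) ^ m * TH E E' E₀ e₀ f (q a) m s z‖ ≤
        C * ‖e z‖ ^ (m * (κ - 1)) * ‖jac E (chartAt E x₀) z ^ m‖ := by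
  classical
  set φ := chartAt E x₀ with hφ
  set ψ := chartAt E' y₀ with hψ
  have hmem : φ ∈ IsManifold.maximalAtlas 𝓘(ℂ, E) ω X := IsManifold.chart_mem_maximalAtlas _
  set c₀ : E := φ y with hc₀
  have hsc : φ.symm c₀ = y := φ.left_inv hx₀
  have hψf : ∀ z, f z ∈ ψ.source → HolV E (fun z => ψ (f z)) z := fun z hz =>
    HolV.comp (HolV.chart hz) (hf z)
  set Fh : E → E' := (fun z => ψ (f z)) ∘ φ.symm with hFh
  set eh : E → ℂ := e ∘ φ.symm with heh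
  set wh : E → ℂ := w ∘ φ.symm with hwh
  set gh : E' → ℂ := g ∘ ψ.symm with hgh
  have hF : ContDiffAt ℂ ω Fh c₀ := (hψf y hy₀).rep hx₀
  have heh' : ContDiffAt ℂ ω eh c₀ := he.rep hx₀
  have hwh' : ContDiffAt ℂ ω wh c₀ := hw.rep hx₀
  have hFc : Fh c₀ = ψ (f y) := by
    show ψ (f (φ.symm c₀)) = ψ (f y)
    rw [hsc]
  have hgh' : ContDiffAt ℂ ω gh (Fh c₀) := by
    rw [hFc]
    exact hg.rep hy₀
  -- derivatives
  have d1 : dif E e y = (fderiv ℂ eh c₀).comp (dV E (φ : X → E) y) := dV_eq_chart hx₀ he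
  have d2 : dif E' g (f y) = (fderiv ℂ gh (Fh c₀)).comp (dV E' (ψ : Y → E') (f y)) := by
    rw [hFc]
    exact dV_eq_chart hy₀ hg
  have d3 : dV E (fun z => ψ (f z)) y = (fderiv ℂ Fh c₀).comp (dV E (φ : X → E) y) :=
    dV_eq_chart hx₀ (hψf y hy₀)
  have d4 : dV E (fun z => ψ (f z)) y = (dV E' (ψ : Y → E') (f y)).comp (dM E E' f y) :=
    dV_comp (HolV.chart hy₀) (hf y)
  have hde' : fderiv ℂ eh c₀ ≠ 0 := by
    intro h0
    apply hde
    rw [d1, h0]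
    exact ContinuousLinearMap.zero_comp _
  have hdg' : fderiv ℂ gh (Fh c₀) ≠ 0 := by
    intro h0
    apply hdg
    rw [d2, h0]
    exact ContinuousLinearMap.zero_comp _
  have hφs : ContinuousAt φ.symm c₀ := φ.continuousAt_symm (φ.map_source hx₀)
  have hφst : Tendsto φ.symm (𝓝 c₀) (𝓝 y) := by
    have := hφs.tendsto
    rwa [hsc] at this
  have hfc : ContinuousAt f y := (hf y).continuousAt
  have hfs : ∀ᶠ z in 𝓝 y, f z ∈ ψ.source := hfc.eventually (ψ.open_source.mem_nhds hy₀)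
  have heq' : ∀ᶠ c in 𝓝 c₀, gh (Fh c) = eh c ^ κ * wh c := by
    filter_upwards [hφst.eventually heq, hφst.eventually hfs] with c h1 h2
    show g (ψ.symm (ψ (f (φ.symm c)))) = _
    rw [ψ.left_inv h2]
    exact h1
  have hsub' : ∀ η, fderiv ℂ gh (Fh c₀) η = 0 →
      ∃ ξ, fderiv ℂ eh c₀ ξ = 0 ∧ fderiv ℂ Fh c₀ ξ = η := by
    intro η hη
    obtain ⟨η', rfl⟩ := dV_chart_surj (E := E') hy₀ η
    have h1 : dif E' g (f y) η' = 0 := by
      rw [d2]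
      exact hη
    obtain ⟨ξ, h2, h3⟩ := hsub η' h1
    refine ⟨dV E (φ : X → E) y ξ, ?_, ?_⟩
    · rw [d1] at h2
      exact h2
    · have h4 := congrArg (fun T : E →L[ℂ] E' => T ξ) (d3.symm.trans d4)
      simp only [ContinuousLinearMap.comp_apply] at h4
      rw [h3] at h4
      exact h4
  have hW : (φ.target ∩ {c | f (φ.symm c) ∈ ψ.source}) ∩
      {c | ∀ a, f (φ.symm c) ∈ U a → ∀ C, Δ C ≠ 0 → q a (φ.symm c) ∉ C} ∈ 𝓝 c₀ :=
    Filter.inter_mem (Filter.inter_mem (φ.open_target.mem_nhds (φ.map_source hx₀))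
      (hφst.eventually hfs)) (hφst.eventually hav)
  obtain ⟨r, R, Ψ, B, hr, hB, hev⟩ := local_coords e₀ hκ hF heh' hwh' hgh'
    (show e (φ.symm c₀) = 0 by rw [hsc]; exact he0) (show w (φ.symm c₀) ≠ 0 by rw [hsc]; exact hw0)
    hde' hdg' heq' hsub' hW
  obtain ⟨M, hM⟩ := hbd r hr
  refine ⟨B ^ m * M, ?_⟩
  filter_upwards [φ.open_source.mem_nhds hx₀, hfs, (φ.continuousAt hx₀).eventually hev] with
    z hz hfz hzc a hza
  obtain ⟨h1, h2, h3⟩ := hzc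
  set c : E := φ z with hc
  have hscz : φ.symm c = z := φ.left_inv hz
  -- points of the fibre
  have hx : ∀ v ∈ ball (Ψ c).2 r, f (φ.symm (R ((Ψ c).1, v))) = f z := by
    intro v hv
    obtain ⟨g1, g2, g3, g4⟩ := h2 v hv
    have g5 : ψ (f (φ.symm (R ((Ψ c).1, v)))) = ψ (f (φ.symm c)) := g3
    rw [hscz] at g5
    exact ψ.injOn g2.1.2 hfz g5
  have hsrc : ∀ v ∈ ball (Ψ c).2 r, φ.symm (R ((Ψ c).1, v)) ∈ φ.source := fun v hv =>
    φ.map_target (h2 v hv).2.1.1.1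
  have hφR : ∀ v ∈ ball (Ψ c).2 r, φ (φ.symm (R ((Ψ c).1, v))) = R ((Ψ c).1, v) := fun v hv =>
    φ.right_inv (h2 v hv).2.1.1.1
  have hRv : ∀ v ∈ ball (Ψ c).2 r, ContDiffAt ℂ ω (fun v => R ((Ψ c).1, v)) v := by
    intro v hv
    exact ContDiffAt.comp (g := R) (f := fun v : E₀ => ((Ψ c).1, v)) v (h2 v hv).1
      (contDiff_const.prodMk contDiff_id).contDiffAt
  set Q : E₀ → F := fun v => q a (φ.symm (R ((Ψ c).1, v))) with hQ
  have hQhol : ∀ v ∈ ball (Ψ c).2 r, ContMDiffAt 𝓘(ℂ, E₀) 𝓘(ℂ, E₀) ω Q v := by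
    intro v hv
    have g1 := holM_symm' (E₀ := E₀) (hsrc v hv)
      (hI.hol a (φ.symm (R ((Ψ c).1, v))) (by rw [hx v hv]; exact hza))
    rw [hφR v hv] at g1
    exact ContMDiffAt.comp (g := q a ∘ φ.symm) (f := fun v => R ((Ψ c).1, v)) v g1
      (hRv v hv).contMDiffAt
  have hQinj : InjOn Q (ball (Ψ c).2 r) := by
    intro v hv v' hv' hvv
    have g1 : φ.symm (R ((Ψ c).1, v)) = φ.symm (R ((Ψ c).1, v')) :=
      hI.inj a _ _ (by rw [hx v hv]; exact hza) (by rw [hx v hv, hx v' hv']) hvv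
    have g2 : R ((Ψ c).1, v) = R ((Ψ c).1, v') := by
      rw [← hφR v hv, ← hφR v' hv', g1]
    rw [← (h2 v hv).2.2.2, ← (h2 v' hv').2.2.2, g2]
  have hv₁ : (Ψ c).2 ∈ ball (Ψ c).2 r := mem_ball_self hr
  have hQav : ∀ v ∈ ball (Ψ c).2 r, ∀ C, Δ C ≠ 0 → Q v ∉ C := fun v hv =>
    (h2 v hv).2.1.2 a (by rw [hx v hv]; exact hza)
  have key := hM (Ψ c).2 Q hQhol hQinj hQav
  have hR1 : R ((Ψ c).1, (Ψ c).2) = c := h1
  have hQ1 : Q (Ψ c).2 = q a z := by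
    show q a (φ.symm (R ((Ψ c).1, (Ψ c).2))) = q a z
    rw [hR1, hscz]
  -- derivative of `Q`
  set P : E →L[ℂ] E₀ := mfderiv 𝓘(ℂ, E) 𝓘(ℂ, E₀) (q a ∘ φ.symm) c with hP
  have hq : HolM E E₀ (q a) z := hI.hol a z hza
  have hdQ : (mfderiv 𝓘(ℂ, E₀) 𝓘(ℂ, E₀) Q (Ψ c).2 : E₀ →L[ℂ] E₀) =
      P.comp ((fderiv ℂ R (Ψ c)).comp (ContinuousLinearMap.inr ℂ E' E₀)) := by
    have g1 : MDifferentiableAt 𝓘(ℂ, E) 𝓘(ℂ, E₀) (q a ∘ φ.symm) (R ((Ψ c).1, (Ψ c).2)) := by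
      rw [hR1]
      exact (holM_symm' hz hq).mdifferentiableAt (by simp)
    have g2 : MDifferentiableAt 𝓘(ℂ, E₀) 𝓘(ℂ, E) (fun v => R ((Ψ c).1, v)) (Ψ c).2 :=
      (hRv _ hv₁).contMDiffAt.mdifferentiableAt (by simp)
    have g3 := mfderiv_comp (Ψ c).2 g1 g2
    have g4 : HasFDerivAt (fun v => R ((Ψ c).1, v))
        ((fderiv ℂ R (Ψ c)).comp (ContinuousLinearMap.inr ℂ E' E₀)) (Ψ c).2 :=
      HasFDerivAt.comp (g := R) (f := fun v : E₀ => ((Ψ c).1, v)) (Ψ c).2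
        (((h2 _ hv₁).1.differentiableAt (by simp)).hasFDerivAt) (hasFDerivAt_prodMk_right _ _)
    have g5 : (mfderiv 𝓘(ℂ, E₀) 𝓘(ℂ, E) (fun v => R ((Ψ c).1, v)) (Ψ c).2 : E₀ →L[ℂ] E) =
        (fderiv ℂ R (Ψ c)).comp (ContinuousLinearMap.inr ℂ E' E₀) := by
      rw [mfderiv_eq_fderiv]
      exact g4.fderiv
    refine g3.trans ?_
    have g6 : (mfderiv 𝓘(ℂ, E) 𝓘(ℂ, E₀) (q a ∘ φ.symm) (R ((Ψ c).1, (Ψ c).2)) : E →L[ℂ] E₀) =
        P := by rw [hR1]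
    exact congrArg₂ (fun (A : E →L[ℂ] E₀) (B : E₀ →L[ℂ] E) => A.comp B) g6 g5
  rw [hQ1, hdQ] at key
  -- the relative form
  have k1 : jac E' (ψ : Y → E') (f z) * JP e₀ (dM E E' f z) (dM E E₀ (q a) z) =
      JP e₀ (fderiv ℂ Fh c) P * jac E (φ : X → E) z := by
    have g1 : dV E (fun z => ψ (f z)) z = (fderiv ℂ Fh c).comp (dV E (φ : X → E) z) :=
      dV_eq_chart hz (hψf z hfz)
    have g2 : dV E (fun z => ψ (f z)) z = (dV E' (ψ : Y → E') (f z)).comp (dM E E' f z) :=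
      dV_comp (HolV.chart hfz) (hf z)
    have g3 := dM_eq_chart' hz hq hP
    have g4 := JP_left e₀ (dM E E' f z) (dM E E₀ (q a) z) (dV E' (ψ : Y → E') (f z))
      (ContinuousLinearMap.id ℂ E₀)
    rw [det_id', mul_one, ContinuousLinearMap.id_comp, ← g2, g1, g3, JP_comp] at g4
    rw [g3]
    exact g4.symm
  have k2 : jac E' (ψ : Y → E') (f z) ^ m * TH E E' E₀ e₀ f (q a) m s z =
      s (q a z) * JP e₀ (fderiv ℂ Fh c) P ^ m * jac E (φ : X → E) z ^ m := by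
    unfold TH
    rw [mul_assoc, ← mul_pow, ← k1, mul_pow]
    ring
  rw [k2, norm_mul]
  refine mul_le_mul_of_nonneg_right ?_ (norm_nonneg _)
  have k3 := h3 P
  have k4 : ‖eh c‖ = ‖e z‖ := by
    show ‖e (φ.symm c)‖ = ‖e z‖
    rw [hscz]
  rw [k4] at k3
  rw [norm_mul, norm_pow]
  calc ‖s (q a z)‖ * ‖JP e₀ (fderiv ℂ Fh c) P‖ ^ m
      ≤ ‖s (q a z)‖ * (B * ‖e z‖ ^ (κ - 1) *
        ‖(P.comp ((fderiv ℂ R (Ψ c)).comp (ContinuousLinearMap.inr ℂ E' E₀))).det‖) ^ m := by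
        gcongr
    _ = B ^ m * ‖e z‖ ^ (m * (κ - 1)) * ‖s (q a z) * (P.comp ((fderiv ℂ R (Ψ c)).comp
        (ContinuousLinearMap.inr ℂ E' E₀))).det ^ m‖ := by
        rw [norm_mul, norm_pow, mul_pow, mul_pow, ← pow_mul, mul_comm (κ - 1) m]
        ring
    _ ≤ B ^ m * ‖e z‖ ^ (m * (κ - 1)) * M := mul_le_mul_of_nonneg_left key (by positivity)
    _ = B ^ m * M * ‖e z‖ ^ (m * (κ - 1)) := by ring

end RelP

end Vale.Agent.P281.ISO
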