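import Vale.Agent.P281.MF.Main

open scoped Manifold ContDiff Topology
open Set Filter Metric

namespace Vale.Agent.P281.ISO

open Vale.Agent.P281 Vale.Agent.P281.MF

set_option linter.unusedSectionVars false

universe u

section Defs

variable (E E' E₀ : Type) [NormedAddCommGroup E] [NormedSpace ℂ E]
  [NormedAddCommGroup E'] [NormedSpace ℂ E'] [NormedAddCommGroup E₀] [NormedSpace ℂ E₀]
variable {X Y F : Type u} [TopologicalSpace X] [ChartedSpace E X]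
  [TopologicalSpace Y] [ChartedSpace E' Y] [TopologicalSpace F] [ChartedSpace E₀ F]

/-- `f` is a fibre bundle with fibre `F` over `Y \ S`, `q a : f⁻¹(U a) → F` local projections. -/
structure Iso (f : X → Y) (S : Set Y) {ι : Type u} (U : ι → Set Y) (q : ι → X → F) : Prop where
  cov : ∀ y, y ∉ S → ∃ a, y ∈ U a
  isOpen : ∀ a, IsOpen (U a)
  inj : ∀ a x x', f x ∈ U a → f x = f x' → q a x = q a x' → x = x'
  surj : ∀ a, ∀ y ∈ U a, ∀ p, ∃ x, f x = y ∧ q a x = p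
  hol : ∀ a x, f x ∈ U a → HolM E E₀ (q a) x
  imm : ∀ a x, f x ∈ U a → ∀ ξ, dM E E' f x ξ = 0 → dM E E₀ (q a) x ξ = 0 → ξ = 0

/-- sections of `m K_F`. -/
def Sec (m : ℕ) (s : F → ℂ) : Prop :=
  ∀ p₀ : F, ∃ a : F → ℂ, HolV E₀ a p₀ ∧
    ∀ᶠ p in 𝓝 p₀, s p = a p * jac E₀ (chartAt E₀ p₀) p ^ m

/-- the relative `m`-canonical form of `s`, through the projection `q`. -/
noncomputable def TH (e₀ : E ≃L[ℂ] (E' × E₀)) (f : X → Y) (q : X → F) (m : ℕ) (s : F → ℂ)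
    (x : X) : ℂ :=
  s (q x) * JP e₀ (dM E E' f x) (dM E E₀ q x) ^ m

/-- `s` defines a global relative form over `⋃ U a`. -/
def Inv (e₀ : E ≃L[ℂ] (E' × E₀)) (f : X → Y) {ι : Type u} (U : ι → Set Y) (q : ι → X → F) (m : ℕ)
    (s : F → ℂ) : Prop :=
  ∀ a b x, f x ∈ U a → f x ∈ U b → TH E E' E₀ e₀ f (q a) m s x = TH E E' E₀ e₀ f (q b) m s x

end Defs

section Lemmas

variable {E E' E₀ : Type} [NormedAddCommGroup E] [NormedSpace ℂ E] [FiniteDimensional ℂ E]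
  [NormedAddCommGroup E'] [NormedSpace ℂ E'] [FiniteDimensional ℂ E']
  [NormedAddCommGroup E₀] [NormedSpace ℂ E₀] [FiniteDimensional ℂ E₀]
variable {X Y F : Type u} [TopologicalSpace X] [ChartedSpace E X] [IsManifold 𝓘(ℂ, E) ω X]
  [TopologicalSpace Y] [ChartedSpace E' Y] [IsManifold 𝓘(ℂ, E') ω Y]
  [TopologicalSpace F] [ChartedSpace E₀ F] [IsManifold 𝓘(ℂ, E₀) ω F]

theorem TH_mul (e₀ : E ≃L[ℂ] (E' × E₀)) (f : X → Y) (q : X → F) (m m' : ℕ) (s s' : F → ℂ)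
    (x : X) : TH E E' E₀ e₀ f q (m + m') (fun p => s p * s' p) x =
      TH E E' E₀ e₀ f q m s x * TH E E' E₀ e₀ f q m' s' x := by
  unfold TH; ring

theorem TH_pow (e₀ : E ≃L[ℂ] (E' × E₀)) (f : X → Y) (q : X → F) (m n : ℕ) (s : F → ℂ)
    (x : X) : TH E E' E₀ e₀ f q (m * n) (fun p => s p ^ n) x =
      TH E E' E₀ e₀ f q m s x ^ n := by
  unfold TH; ring

/-- the relative Jacobian of a local projection does not vanish. -/
theorem Iso.JP_ne {f : X → Y} {S : Set Y} {ι : Type u} {U : ι → Set Y} {q : ι → X → F}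
    (h : Iso E E' E₀ f S U q) (e₀ : E ≃L[ℂ] (E' × E₀)) {a : ι} {x : X} (hx : f x ∈ U a) :
    JP e₀ (dM E E' f x) (dM E E₀ (q a) x) ≠ 0 := by
  intro h0
  unfold JP at h0
  have h1 : Function.Injective (((dM E E' f x).prod (dM E E₀ (q a) x)).comp
      (e₀.symm : (E' × E₀) →L[ℂ] E)) := by
    rw [injective_iff_map_eq_zero]
    intro v hv
    have h2 := h.imm a x hx (e₀.symm v) (Prod.mk.inj hv).1 (Prod.mk.inj hv).2
    exact (map_eq_zero_iff e₀.symm e₀.symm.injective).1 h2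
  have h2 : LinearMap.ker (((dM E E' f x).prod (dM E E₀ (q a) x)).comp
      (e₀.symm : (E' × E₀) →L[ℂ] E) : (E' × E₀) →ₗ[ℂ] (E' × E₀)) = ⊥ :=
    LinearMap.ker_eq_bot.2 h1
  have h3 := (LinearMap.isUnit_iff_ker_eq_bot _).2 h2
  exact (LinearMap.isUnit_det _ h3).ne_zero h0

end Lemmas

end Vale.Agent.P281.ISO
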