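import Vale.Agent.P281.ISO.Base

/-!
# P281, isotrivial fibrations: the number of independent sections
-/

open scoped Manifold ContDiff Topology
open Set Filter Metric

namespace Vale.Agent.P281.ISO

open Vale.Agent.P281 Vale.Agent.P281.MF

set_option linter.unusedSectionVars false
set_option linter.unusedVariables false

universe u

theorem Sec.isSection {E₀ : Type} [NormedAddCommGroup E₀] [NormedSpace ℂ E₀] {F : Type u}
    [TopologicalSpace F] [ChartedSpace E₀ F] {m : ℕ} {s : F → ℂ} (hs : Sec E₀ m s) :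
    IsSection E₀ (fun (D : Set F) z g => IsLocalEq E₀ D g z) m (fun _ => 0) s := by
  intro p₀
  obtain ⟨a, ha, hev⟩ := hs p₀
  refine ⟨∅, fun _ _ => 0, a, fun i hi => (hi rfl).elim, fun i hi => by simp at hi, ha, ?_⟩
  filter_upwards [hev] with p hp _
  simp only [Finset.prod_empty, mul_one]
  exact hp

theorem Sec.pow {E₀ : Type} [NormedAddCommGroup E₀] [NormedSpace ℂ E₀] {F : Type u}
    [TopologicalSpace F] [ChartedSpace E₀ F] [IsManifold 𝓘(ℂ, E₀) ω F] {m : ℕ} {s : F → ℂ}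
    (hs : Sec E₀ m s) (n : ℕ) : Sec E₀ (m * n) (fun p => s p ^ n) := by
  intro p₀
  obtain ⟨a, ha, hev⟩ := hs p₀
  refine ⟨fun p => a p ^ n, HolV.pow ha n, ?_⟩
  filter_upwards [hev] with p hp
  rw [hp, mul_pow, pow_mul]

/-- independent functionals on the two factors of a product. -/
theorem linearIndependent_addCases {V V' : Type*} [NormedAddCommGroup V] [NormedSpace ℂ V]
    [NormedAddCommGroup V'] [NormedSpace ℂ V'] {j₁ j₂ : ℕ} {φ : Fin j₁ → (V' →L[ℂ] ℂ)}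
    {ψ : Fin j₂ → (V →L[ℂ] ℂ)} (hφ : LinearIndependent ℂ φ) (hψ : LinearIndependent ℂ ψ) :
    LinearIndependent ℂ (fun b : Fin (j₁ + j₂) => Fin.addCases (motive := fun _ =>
      (V × V') →L[ℂ] ℂ) (fun α => (φ α).comp (ContinuousLinearMap.snd ℂ V V'))
      (fun β => (ψ β).comp (ContinuousLinearMap.fst ℂ V V')) b) := by
  rw [Fintype.linearIndependent_iff] at hφ hψ ⊢
  intro g hg
  rw [Fin.sum_univ_add] at hg
  simp only [Fin.addCases_left, Fin.addCases_right] at hg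
  have h1 : ∀ α, g (Fin.castAdd j₂ α) = 0 := by
    apply hφ
    refine ContinuousLinearMap.ext fun v => ?_
    have := congrArg (fun A : (V × V') →L[ℂ] ℂ => A (0, v)) hg
    simpa [sum_apply] using this
  have h2 : ∀ β, g (Fin.natAdd j₁ β) = 0 := by
    apply hψ
    refine ContinuousLinearMap.ext fun v => ?_
    have := congrArg (fun A : (V × V') →L[ℂ] ℂ => A (v, 0)) hg
    simpa [sum_apply] using this
  intro b
  refine Fin.addCases (motive := fun b => g b = 0) h1 h2 b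

variable {E E' E₀ : Type} [NormedAddCommGroup E] [NormedSpace ℂ E] [FiniteDimensional ℂ E]
  [NormedAddCommGroup E'] [NormedSpace ℂ E'] [FiniteDimensional ℂ E']
  [NormedAddCommGroup E₀] [NormedSpace ℂ E₀] [FiniteDimensional ℂ E₀]
variable {X Y F : Type u} [TopologicalSpace X] [ChartedSpace E X] [IsManifold 𝓘(ℂ, E) ω X]
  [TopologicalSpace Y] [ChartedSpace E' Y] [IsManifold 𝓘(ℂ, E') ω Y]
  [TopologicalSpace F] [ChartedSpace E₀ F] [IsManifold 𝓘(ℂ, E₀) ω F]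

theorem Iso.surj_prod {f : X → Y} {S : Set Y} {ι : Type u} {U : ι → Set Y} {q : ι → X → F}
    (h : Iso E E' E₀ f S U q) (e₀ : E ≃L[ℂ] (E' × E₀)) {a : ι} {x : X} (hx : f x ∈ U a) :
    Function.Surjective ((dM E E' f x).prod (dM E E₀ (q a) x)) := by
  have h1 : Function.Injective (((dM E E' f x).prod (dM E E₀ (q a) x)).comp
      (e₀.symm : (E' × E₀) →L[ℂ] E)) := by
    rw [injective_iff_map_eq_zero]
    intro v hv
    have h2 := h.imm a x hx (e₀.symm v) (Prod.mk.inj hv).1 (Prod.mk.inj hv).2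
    exact (map_eq_zero_iff e₀.symm e₀.symm.injective).1 h2
  have h2 : Function.Surjective (((dM E E' f x).prod (dM E E₀ (q a) x)).comp
      (e₀.symm : (E' × E₀) →L[ℂ] E) : (E' × E₀) →ₗ[ℂ] (E' × E₀)) :=
    LinearMap.surjective_of_injective h1
  intro w
  obtain ⟨v, hv⟩ := h2 w
  exact ⟨e₀.symm v, hv⟩

theorem kodGE_iso {f : X → Y} (hf : ∀ x, HolM E E' f x) {S : Set Y} (hS : IsClosed S)
    (hSd : Dense Sᶜ) {ι : Type u} {U : ι → Set Y} {q : ι → X → F} (hI : Iso E E' E₀ f S U q)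
    (e₀ : E ≃L[ℂ] (E' × E₀)) {Δ : Set X → ℝ} (hfin : {D | Δ D ≠ 0}.Finite)
    (hpr : ∀ D, Δ D ≠ 0 → IsPrimeDivisor E D) {B : Set Y → ℝ}
    (hB : ∀ G, B G ≠ 0 → IsPrimeDivisor E' G) {d : ℕ} (hd : 0 < d) {K₀ : Set X → ℕ}
    (hK₀ : ∀ D, (K₀ D : ℝ) = d * Δ D)
    (hmain : ∀ (m : ℕ) (k : Set Y → ℕ) (t : Y → ℂ) (s : F → ℂ), 0 < m →
      (∀ G, (k G : ℝ) = (m * d : ℕ) * B G) →
      IsSection E' (fun (G : Set Y) z g => IsLocalEq E' G g z) (m * d) k t →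
      Sec E₀ (m * d) s → Inv E E' E₀ e₀ f U q (m * d) s →
      ∃ σ : X → ℂ, IsSection E (fun (D : Set X) z g => IsLocalEq E D g z) (m * d)
        (fun D => m * K₀ D) σ ∧
        ∀ a x, f x ∈ U a → (∀ G, k G ≠ 0 → f x ∉ G) →
          σ x = t (f x) * TH E E' E₀ e₀ f (q a) (m * d) s x)
    {j₁ m₁ : ℕ} (hm₁ : 0 < m₁) {s : Fin (j₁ + 1) → F → ℂ} (hs : ∀ b, Sec E₀ m₁ (s b))
    (hsi : ∀ b, Inv E E' E₀ e₀ f U q m₁ (s b)) {p : F} (hp : s 0 p ≠ 0)
    (hli : LinearIndependent ℂ (fun b : Fin j₁ => dif E₀ (fun w => s b.succ w / s 0 w) p))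
    {j₂ : ℕ} (hj : KodGE E' (fun (G : Set Y) z g => IsLocalEq E' G g z) B j₂) :
    KodGE E (fun (D : Set X) z g => IsLocalEq E D g z) Δ (j₁ + j₂) := by
  classical
  obtain ⟨m₂, k, t, y₁, hm₂, hk, ht, hy₁, ht0, hind⟩ := hj
  obtain ⟨y₂, hy₂⟩ := good_point ht hy₁ ht0 hind
  obtain ⟨p₂, hp₂⟩ := good_point (fun b => (hs b).isSection)
    (fun D hD => (hD rfl).elim) hp hli
  have hkB : ∀ G, k G ≠ 0 → IsPrimeDivisor E' G := by
    intro G hG
    refine hB G fun h0 => hG ?_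
    have h1 := hk G
    rw [h0, mul_zero] at h1
    exact_mod_cast h1
  have hkfin : {G | k G ≠ 0}.Finite := by
    obtain ⟨T, g, a, hT, -⟩ := ht 0 y₁
    exact (T.finite_toSet).subset fun G hG => hT G hG
  have hdY := dense_compl_finite hkfin (fun G hG => (hkB G hG).1) (fun G hG => by
    rw [dense_iff_inter_open]
    intro U hU hUne
    obtain ⟨x, hxU, hxD⟩ := IsLocalEq.exists_notMem (hkB G hG).2.1 hU hUne
    exact ⟨x, hxU, hxD⟩)
  have hdX := dense_compl_finite hfin (fun D hD => (hpr D hD).1) (fun D hD => by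
    rw [dense_iff_inter_open]
    intro U hU hUne
    obtain ⟨x, hxU, hxD⟩ := IsLocalEq.exists_notMem (hpr D hD).2.1 hU hUne
    exact ⟨x, hxU, hxD⟩)
  have hcont : Continuous f := continuous_iff_continuousAt.2 fun x => (hf x).continuousAt
  -- an open set below
  obtain ⟨V, hV1, hV2, hV3⟩ := eventually_nhds_iff.1 hy₂
  obtain ⟨P, hP1, hP2, hP3⟩ := eventually_nhds_iff.1 hp₂
  have hVne : (V ∩ {y | ∀ G ∈ {G | k G ≠ 0}, y ∉ G}).Nonempty :=
    hdY.2.inter_open_nonempty _ hV2 ⟨y₂, hV3⟩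
  obtain ⟨y₀, ⟨hy₀V, hy₀G⟩, hy₀S⟩ := hSd.inter_open_nonempty _ (hV2.inter hdY.1) hVne
  obtain ⟨a, hya⟩ := hI.cov y₀ hy₀S
  obtain ⟨x₀, hx₀, hqx₀⟩ := hI.surj a y₀ hya p₂
  have hqc : ∀ x, f x ∈ U a → ContinuousAt (q a) x := fun x hx => (hI.hol a x hx).continuousAt
  set O : Set Y := (V ∩ {y | ∀ G ∈ {G | k G ≠ 0}, y ∉ G}) ∩ U a with hO
  have hOo : IsOpen O := (hV2.inter hdY.1).inter (hI.isOpen a)
  have hx₀O : f x₀ ∈ O := by rw [hx₀]; exact ⟨⟨hy₀V, hy₀G⟩, hya⟩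
  have hev0 : ∀ᶠ z in 𝓝 x₀, f z ∈ O ∧ q a z ∈ P := by
    have h1 : ∀ᶠ z in 𝓝 x₀, f z ∈ O := hcont.continuousAt.eventually (hOo.mem_nhds hx₀O)
    have h2 : ∀ᶠ z in 𝓝 x₀, q a z ∈ P :=
      (hqc x₀ hx₀O.2).eventually (hP2.mem_nhds (by rw [hqx₀]; exact hP3))
    exact h1.and h2
  obtain ⟨Ω, hΩ1, hΩ2, hΩ3⟩ := eventually_nhds_iff.1 hev0
  obtain ⟨x, hxΩ, hxD⟩ := hdX.2.inter_open_nonempty _ hΩ2 ⟨x₀, hΩ3⟩
  obtain ⟨hxO, hxP⟩ := hΩ1 x hxΩ
  -- the sections above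
  set τ : Fin (j₁ + j₂ + 1) → Y → ℂ :=
    Fin.cons (t 0) (Fin.addCases (fun _ => t 0) (fun β => t β.succ)) with hτ
  set ς : Fin (j₁ + j₂ + 1) → F → ℂ :=
    Fin.cons (s 0) (Fin.addCases (fun α => s α.succ) (fun _ => s 0)) with hς
  have hτs : ∀ b, ∃ c, τ b = t c := by
    intro b
    refine Fin.cases ⟨0, rfl⟩ (fun b => ?_) b
    refine Fin.addCases (fun α => ⟨0, ?_⟩) (fun β => ⟨β.succ, ?_⟩) b
    · simp only [hτ, Fin.cons_succ, Fin.addCases_left]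
    · simp only [hτ, Fin.cons_succ, Fin.addCases_right]
  have hςs : ∀ b, ∃ c, ς b = s c := by
    intro b
    refine Fin.cases ⟨0, rfl⟩ (fun b => ?_) b
    refine Fin.addCases (fun α => ⟨α.succ, ?_⟩) (fun β => ⟨0, ?_⟩) b
    · simp only [hς, Fin.cons_succ, Fin.addCases_left]
    · simp only [hς, Fin.cons_succ, Fin.addCases_right]
  have hw1 : m₂ * (m₁ * d) = m₁ * m₂ * d := by ring
  have hw2 : m₁ * (m₂ * d) = m₁ * m₂ * d := by ring
  have hσ : ∀ b : Fin (j₁ + j₂ + 1), ∃ σ : X → ℂ,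
      IsSection E (fun (D : Set X) z g => IsLocalEq E D g z) (m₁ * m₂ * d)
        (fun D => m₁ * m₂ * K₀ D) σ ∧
        ∀ z, f z ∈ U a → (∀ G, k G * (m₁ * d) ≠ 0 → f z ∉ G) →
          σ z = τ b (f z) ^ (m₁ * d) *
            TH E E' E₀ e₀ f (q a) (m₁ * m₂ * d) (fun p => ς b p ^ (m₂ * d)) z := by
    intro b
    obtain ⟨c, hc⟩ := hτs b
    obtain ⟨c', hc'⟩ := hςs b
    have h1 := isSection_pow (ht c) (m₁ * d)
    rw [hw1] at h1
    have h2 := (hs c').pow (m₂ * d)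
    rw [hw2] at h2
    have h3 : Inv E E' E₀ e₀ f U q (m₁ * m₂ * d) (fun p => s c' p ^ (m₂ * d)) := by
      intro a' b' z ha' hb'
      have h4 := hsi c' a' b' z ha' hb'
      rw [← hw2, TH_pow, TH_pow, h4]
    obtain ⟨σ, hσ1, hσ2⟩ := hmain (m₁ * m₂) (fun G => k G * (m₁ * d))
      (fun y => t c y ^ (m₁ * d)) (fun p => s c' p ^ (m₂ * d)) (Nat.mul_pos hm₁ hm₂)
      (fun G => by push_cast; rw [hk G]; ring) h1 h2 h3
    refine ⟨σ, hσ1, fun z hz hG => ?_⟩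
    rw [hσ2 a z hz hG, hc, hc']
  choose σ hσs hσv using hσ
  have hev : ∀ᶠ z in 𝓝 x, (f z ∈ O ∧ q a z ∈ P) ∧ ∀ b, σ b z = τ b (f z) ^ (m₁ * d) *
      (ς b (q a z) ^ (m₂ * d) * JP e₀ (dM E E' f z) (dM E E₀ (q a) z) ^ (m₁ * m₂ * d)) := by
    filter_upwards [hΩ2.mem_nhds hxΩ] with z hz
    have h1 := hΩ1 z hz
    refine ⟨h1, fun b => ?_⟩
    rw [hσv b z h1.1.2 fun G hG => h1.1.1.2 G (left_ne_zero_of_mul hG)]
    rfl
  have hJ : ∀ z, f z ∈ O → JP e₀ (dM E E' f z) (dM E E₀ (q a) z) ≠ 0 := fun z hz =>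
    hI.JP_ne e₀ hz.2
  obtain ⟨hx1, hx2, hx3, hx4⟩ := hV1 _ hxO.1.1
  obtain ⟨hq1, hq2, hq3, hq4⟩ := hP1 _ hxP
  have hratL : ∀ α : Fin j₁, (fun z => σ (Fin.castAdd j₂ α).succ z / σ 0 z) =ᶠ[𝓝 x]
      fun z => (fun y => (s α.succ y / s 0 y) ^ (m₂ * d)) (q a z) := by
    intro α
    filter_upwards [hev] with z hz
    have h1 : t 0 (f z) ^ (m₁ * d) ≠ 0 := pow_ne_zero _ (hV1 _ hz.1.1.1.1).1
    have h2 : JP e₀ (dM E E' f z) (dM E E₀ (q a) z) ^ (m₁ * m₂ * d) ≠ 0 :=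
      pow_ne_zero _ (hJ z hz.1.1)
    show σ (Fin.castAdd j₂ α).succ z / σ 0 z = (s α.succ (q a z) / s 0 (q a z)) ^ (m₂ * d)
    rw [hz.2, hz.2, div_pow]
    simp only [hτ, hς, Fin.cons_succ, Fin.cons_zero, Fin.addCases_left]
    rw [mul_div_mul_left _ _ h1, mul_div_mul_right _ _ h2]
  have hratR : ∀ β : Fin j₂, (fun z => σ (Fin.natAdd j₁ β).succ z / σ 0 z) =ᶠ[𝓝 x]
      fun z => (fun y => (t β.succ y / t 0 y) ^ (m₁ * d)) (f z) := by
    intro β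
    filter_upwards [hev] with z hz
    have h1 : s 0 (q a z) ^ (m₂ * d) ≠ 0 := pow_ne_zero _ (hP1 _ hz.1.2).1
    have h2 : JP e₀ (dM E E' f z) (dM E E₀ (q a) z) ^ (m₁ * m₂ * d) ≠ 0 :=
      pow_ne_zero _ (hJ z hz.1.1)
    show σ (Fin.natAdd j₁ β).succ z / σ 0 z = (t β.succ (f z) / t 0 (f z)) ^ (m₁ * d)
    rw [hz.2, hz.2, div_pow]
    simp only [hτ, hς, Fin.cons_succ, Fin.cons_zero, Fin.addCases_right]
    rw [mul_div_mul_right _ _ (mul_ne_zero h1 h2)]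
  refine ⟨m₁ * m₂ * d, fun D => m₁ * m₂ * K₀ D, σ, x,
    Nat.mul_pos (Nat.mul_pos hm₁ hm₂) hd, ?_, hσs, ?_, ?_, ?_⟩
  · intro D
    push_cast
    rw [hK₀ D]; ring
  · intro D hD
    have hΔ : Δ D ≠ 0 := by
      intro h0
      have h1 := hK₀ D
      rw [h0, mul_zero] at h1
      exact right_ne_zero_of_mul hD (by exact_mod_cast h1)
    obtain ⟨g, hg⟩ := (hpr D hΔ).2.1 x
    exact ⟨g, hg, fun h0 => hxD D hΔ (hg.mem_iff.2 h0)⟩
  · rw [hev.self_of_nhds.2]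
    exact mul_ne_zero (pow_ne_zero _ hx1)
      (mul_ne_zero (pow_ne_zero _ hq1) (pow_ne_zero _ (hJ x hxO)))
  · have hcL : ∀ α : Fin j₁, (((m₂ * d : ℕ) : ℂ) *
        (s α.succ (q a x) / s 0 (q a x)) ^ (m₂ * d - 1)) ≠ 0 := fun α =>
      mul_ne_zero (by exact_mod_cast (Nat.mul_pos hm₂ hd).ne')
        (pow_ne_zero _ (div_ne_zero (hq2 α) hq1))
    have hcR : ∀ β : Fin j₂, (((m₁ * d : ℕ) : ℂ) *
        (t β.succ (f x) / t 0 (f x)) ^ (m₁ * d - 1)) ≠ 0 := fun β =>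
      mul_ne_zero (by exact_mod_cast (Nat.mul_pos hm₁ hd).ne')
        (pow_ne_zero _ (div_ne_zero (hx2 β) hx1))
    have h5 := (linearIndependent_precomp (hI.surj_prod e₀ hxO.2) _).2
      (linearIndependent_addCases (V := E') (V' := E₀) hq4 hx4)
    have h6 := h5.units_smul (fun b : Fin (j₁ + j₂) => Fin.addCases (motive := fun _ => ℂˣ)
      (fun α => Units.mk0 _ (hcL α)) (fun β => Units.mk0 _ (hcR β)) b)
    have hfun : (fun b : Fin (j₁ + j₂) => dif E (fun w => σ b.succ w / σ 0 w) x) =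
        (fun b : Fin (j₁ + j₂) => Fin.addCases (motive := fun _ => ℂˣ)
          (fun α => Units.mk0 _ (hcL α)) (fun β => Units.mk0 _ (hcR β)) b) •
        (fun b : Fin (j₁ + j₂) => (Fin.addCases (motive := fun _ =>
      (E' × E₀) →L[ℂ] ℂ) (fun α => (dif E₀ (fun w => s α.succ w / s 0 w) (q a x)).comp
        (ContinuousLinearMap.snd ℂ E' E₀))
      (fun β => (dif E' (fun w => t β.succ w / t 0 w) (f x)).comp
        (ContinuousLinearMap.fst ℂ E' E₀)) b).comp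
          ((dM E E' f x).prod (dM E E₀ (q a) x))) := by
      funext b
      refine Fin.addCases (fun α => ?_) (fun β => ?_) b
      · have h1 : dif E (fun w => σ (Fin.castAdd j₂ α).succ w / σ 0 w) x =
            dif E (fun z => (fun y => (s α.succ y / s 0 y) ^ (m₂ * d)) (q a z)) x :=
          dV_congr (hratL α)
        rw [h1, dif_comp (HolV.pow (hq3 α) (m₂ * d)) (hI.hol a x hxO.2),
          MF.dif_pow (hq3 α)]
        simp only [Pi.smul_apply', Fin.addCases_left]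
        rfl
      · have h1 : dif E (fun w => σ (Fin.natAdd j₁ β).succ w / σ 0 w) x =
            dif E (fun z => (fun y => (t β.succ y / t 0 y) ^ (m₁ * d)) (f z)) x :=
          dV_congr (hratR β)
        rw [h1, dif_comp (HolV.pow (hx3 β) (m₁ * d)) (hf x), MF.dif_pow (hx3 β)]
        simp only [Pi.smul_apply', Fin.addCases_right]
        rfl
    rw [hfun]
    exact h6

end Vale.Agent.P281.ISO
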