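import Vale.Agent.P281.ISO.SymB

/-!
# P281: invariant pluricanonical sections of the fibre
-/

open scoped Manifold ContDiff Topology
open Set Filter Metric

namespace Vale.Agent.P281.ISO

open Vale.Agent.P281 Vale.Agent.P281.MF

set_option linter.unusedSectionVars false

universe u

theorem exists_invariants {E E' E₀ : Type} [NormedAddCommGroup E] [NormedSpace ℂ E]
    [FiniteDimensional ℂ E] [NormedAddCommGroup E'] [NormedSpace ℂ E'] [FiniteDimensional ℂ E']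
    [NormedAddCommGroup E₀] [NormedSpace ℂ E₀] [FiniteDimensional ℂ E₀]
    {X Y F : Type u} [TopologicalSpace X] [ChartedSpace E X] [IsManifold 𝓘(ℂ, E) ω X]
    [TopologicalSpace Y] [ChartedSpace E' Y] [IsManifold 𝓘(ℂ, E') ω Y]
    [TopologicalSpace F] [ChartedSpace E₀ F] [IsManifold 𝓘(ℂ, E₀) ω F] [PreconnectedSpace F]
    {f : X → Y} {S : Set Y} {ι : Type u} {U : ι → Set Y} {q : ι → X → F}
    (hI : Iso E E' E₀ f S U q) (e₀ : E ≃L[ℂ] (E' × E₀))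
    (hfin : ∀ (m : ℕ) (s : F → ℂ), 0 < m → Sec E₀ m s → ∃ 𝒮 : Set (F → ℂ), 𝒮.Finite ∧ s ∈ 𝒮 ∧
      (∀ s' ∈ 𝒮, Sec E₀ m s') ∧ ∀ a b y, y ∈ U a → y ∈ U b → ∀ s' ∈ 𝒮, ∃ s'' ∈ 𝒮, ∀ x, f x = y →
        TH E E' E₀ e₀ f (q b) m s' x = TH E E' E₀ e₀ f (q a) m s'' x)
    {j m : ℕ} (hm : 0 < m) {s : Fin (j + 1) → F → ℂ} (hs : ∀ b, Sec E₀ m (s b)) {z : F}
    (hz : s 0 z ≠ 0)
    (hli : LinearIndependent ℂ (fun b : Fin j => dif E₀ (fun w => s b.succ w / s 0 w) z)) :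
    ∃ (m' : ℕ) (Φ : Fin (j + 1) → F → ℂ) (p : F), 0 < m' ∧ (∀ b, Sec E₀ m' (Φ b)) ∧
      (∀ b, Inv E E' E₀ e₀ f U q m' (Φ b)) ∧ Φ 0 p ≠ 0 ∧
      LinearIndependent ℂ (fun b : Fin j => dif E₀ (fun w => Φ b.succ w / Φ 0 w) p) := by
  classical
  choose 𝒮 h𝒮fin h𝒮mem h𝒮sec h𝒮tr using fun b => hfin m (s b) hm (hs b)
  have hPfin : Finite {σ : Fin (j + 1) → F → ℂ // (∀ c, σ c ∈ 𝒮 c) ∧ ∃ w, σ 0 w ≠ 0} :=
    ((Set.Finite.pi' h𝒮fin).subset (fun σ hσ => hσ.1) :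
      {σ : Fin (j + 1) → F → ℂ | (∀ c, σ c ∈ 𝒮 c) ∧ ∃ w, σ 0 w ≠ 0}.Finite)
  set P : Type u := {σ : Fin (j + 1) → F → ℂ // (∀ c, σ c ∈ 𝒮 c) ∧ ∃ w, σ 0 w ≠ 0} with hP
  have : Finite P := hPfin
  have : Fintype P := Fintype.ofFinite P
  have hT : ∀ a b x, f x ∈ U a → f x ∈ U b → ∃ T : P ≃ P, ∀ (σ : P) (c : Fin (j + 1)),
      TH E E' E₀ e₀ f (q b) m (σ.1 c) x = TH E E' E₀ e₀ f (q a) m ((T σ).1 c) x := by
    intro a b x ha hb
    have h1 : ∀ σ : P, ∃ σ' : P, ∀ c x', f x' = f x →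
        TH E E' E₀ e₀ f (q b) m (σ.1 c) x' = TH E E' E₀ e₀ f (q a) m (σ'.1 c) x' := by
      intro σ
      choose t ht1 ht2 using fun c => h𝒮tr c a b (f x) ha hb (σ.1 c) (σ.2.1 c)
      refine ⟨⟨t, ht1, ?_⟩, fun c x' hx' => ht2 c x' hx'⟩
      obtain ⟨w, hw⟩ := σ.2.2
      obtain ⟨x', hx', hqx'⟩ := hI.surj b (f x) hb w
      refine ⟨q a x', fun h0 => ?_⟩
      have h2 := ht2 0 x' hx'
      unfold TH at h2
      rw [h0, zero_mul, hqx'] at h2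
      have hbx : f x' ∈ U b := by rw [hx']; exact hb
      exact mul_ne_zero hw (pow_ne_zero _ (hI.JP_ne e₀ hbx)) h2
    choose T hT using h1
    have hinj : Function.Injective T := by
      intro σ σ' h
      refine Subtype.ext (funext fun c => funext fun w => ?_)
      obtain ⟨x', hx', hqx'⟩ := hI.surj b (f x) hb w
      have h3 := hT σ c x' hx'
      have h4 := hT σ' c x' hx'
      rw [h] at h3
      have h5 := h3.trans h4.symm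
      unfold TH at h5
      rw [hqx'] at h5
      have hbx : f x' ∈ U b := by rw [hx']; exact hb
      exact mul_right_cancel₀ (pow_ne_zero _ (hI.JP_ne e₀ hbx)) h5
    exact ⟨Equiv.ofBijective T (Finite.injective_iff_bijective.1 hinj),
      fun σ c => hT σ c x rfl⟩
  obtain ⟨D, Ψ, p, hD, hΨ, h0, hl⟩ := rank_lemma (E₀ := E₀) (P := P) (s := fun σ c => σ.1 c)
    (fun σ c => h𝒮sec c (σ.1 c) (σ.2.1 c)) (fun σ => σ.2.2) ⟨s, h𝒮mem, z, hz⟩ hz hli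
  exact ⟨m * D, fun b w => Ψ b (fun σ c => σ.1 c w), p, Nat.mul_pos hm hD,
    fun b => (hΨ b).sec fun σ c => h𝒮sec c (σ.1 c) (σ.2.1 c),
    fun b => (hΨ b).inv' e₀ f hT, h0, hl⟩

end Vale.Agent.P281.ISO
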