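import Vale.Agent.P281.ISO.Lift
import Vale.Agent.P281.ISO.RelBound
import Vale.Agent.P281.ISO.Rank
import Vale.Agent.P281.ISO.Sym

open scoped Manifold ContDiff Topology
open Set Filter Metric Asymptotics

namespace Vale.Agent.P281.ISO

open Vale.Agent.P281 Vale.Agent.P281.MF

set_option linter.unusedSectionVars false

universe u

section Core

variable {E E' E₀ : Type} [NormedAddCommGroup E] [NormedSpace ℂ E] [FiniteDimensional ℂ E]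
  [NormedAddCommGroup E'] [NormedSpace ℂ E'] [FiniteDimensional ℂ E']
  [NormedAddCommGroup E₀] [NormedSpace ℂ E₀] [FiniteDimensional ℂ E₀]
variable {X Y F : Type u} [TopologicalSpace X] [ChartedSpace E X] [IsManifold 𝓘(ℂ, E) ω X]
  [TopologicalSpace Y] [ChartedSpace E' Y] [IsManifold 𝓘(ℂ, E') ω Y]
  [TopologicalSpace F] [ChartedSpace E₀ F] [IsManifold 𝓘(ℂ, E₀) ω F]

theorem sec_of_isSection {ι : Type u} {eqn : ι → F → (F → ℂ) → Prop} {m : ℕ} {k : ι → ℕ}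
    (hk : ∀ i, k i = 0) {s : F → ℂ} (h : IsSection E₀ eqn m k s) : Sec E₀ m s := by
  intro p₀
  obtain ⟨T, g, a, -, -, ha, hev⟩ := h p₀
  refine ⟨a, ha, ?_⟩
  filter_upwards [hev] with p hp
  have h1 : ∏ i ∈ T, g i p ^ k i = 1 := Finset.prod_eq_one fun i _ => by rw [hk i, pow_zero]
  rw [h1, mul_one] at hp
  exact hp one_ne_zero

variable {f : X → Y} {S : Set Y} {ι : Type u} {U : ι → Set Y} {q : ι → X → F}

/-- the main theorem, with an abstract orbifold base `B`. -/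
theorem core [Nonempty X] [CompactSpace F] [PreconnectedSpace F] (hf : ∀ x, HolM E E' f x) (hS : IsClosed S)
    (hSd : Dense Sᶜ) (hI : Iso E E' E₀ f S U q) (hUS : ∀ a, ∀ y ∈ U a, y ∉ S)
    (e₀ : E ≃L[ℂ] (E' × E₀))
    (hthin : ∀ x, ∃ h : X → ℂ, HolV E h x ∧ (¬ ∀ᶠ z in 𝓝 x, h z = 0) ∧
      ∀ᶠ z in 𝓝 x, (f z ∈ S → h z = 0) ∧ (h z = 0 → z ∈ closure {z | h z = 0 ∧ Good E E' f S z}))
    (horb : ∀ (m : ℕ) (s : F → ℂ), 0 < m → Sec E₀ m s → ∃ 𝒮 : Set (F → ℂ), 𝒮.Finite ∧ s ∈ 𝒮 ∧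
      (∀ s' ∈ 𝒮, Sec E₀ m s') ∧ ∀ a b y, y ∈ U a → y ∈ U b → ∀ s' ∈ 𝒮, ∃ s'' ∈ 𝒮, ∀ x, f x = y →
        TH E E' E₀ e₀ f (q b) m s' x = TH E E' E₀ e₀ f (q a) m s'' x)
    {Δ : Set X → ℝ} (hsnc : IsSNCBoundary E Δ) {B : Set Y → ℝ}
    (hB : ∀ G, B G ≠ 0 → IsPrimeDivisor E' G ∧ G ⊆ S)
    (hBD : ∀ (D : Set X) (G : Set Y) (κ : ℕ), IsPrimeDivisor E D → IsPrimeDivisor E' G →
      closure (f '' D) = G → 0 < κ → (∃ z ∈ D, ∃ e g w, IsLocalEq E D e z ∧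
        IsLocalEq E' G g (f z) ∧ HolAt E w z ∧ w z ≠ 0 ∧ ∀ᶠ x in 𝓝 z, g (f x) = e x ^ κ * w x) →
      (κ : ℝ) * B G ≤ κ - 1 + Δ D)
    {j₁ j₂ : ℕ} (h₁ : KodGE E₀ (fun (D : Set F) p g => IsLocalEq E₀ D g p) 0 j₁)
    (h₂ : KodGE E' (fun (G : Set Y) z g => IsLocalEq E' G g z) B j₂) :
    KodGE E (fun (D : Set X) z g => IsLocalEq E D g z) Δ (j₁ + j₂) := by
  classical
  obtain ⟨m₀, k₀, s₀, z₀, hm₀, hk₀, hs₀, -, hz₀, hli₀⟩ := h₁
  have hk₀' : ∀ i, k₀ i = 0 := fun i => by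
    have := hk₀ i
    simpa using this
  obtain ⟨m₁, s, p, hm₁, hs, hsi, hp, hli⟩ := exists_invariants hI e₀ horb hm₀
    (fun b => sec_of_isSection hk₀' (hs₀ b)) hz₀ hli₀
  obtain ⟨d, hd, K₀, hK₀, -⟩ := exists_denominator hsnc
  refine kodGE_iso hf hS hSd hI e₀ hsnc.finite hsnc.prime (fun G hG => (hB G hG).1) hd hK₀ ?_
    hm₁ hs hsi hp hli h₂
  intro m k t s hm hk ht hs hinv
  have hKD : ∀ D, m * K₀ D ≠ 0 → Δ D ≠ 0 := by
    intro D hD h0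
    apply hD
    have h1 := hK₀ D
    rw [h0, mul_zero] at h1
    have h2 : K₀ D = 0 := by exact_mod_cast h1
    rw [h2]; simp
  have hkB : ∀ G, k G ≠ 0 → B G ≠ 0 := by
    intro G hG h0
    have h1 := hk G
    rw [h0, mul_zero] at h1
    exact hG (by exact_mod_cast h1)
  obtain ⟨σ, hσ, hσe⟩ := lift hf hS hI hUS e₀ hthin hs hinv
    (fun x₀ y y₀ hx₀ hy₀ e w g κ hκ he he0 hde hg hg0 hdg hw hw0 heq hsub =>
      rel_bound hf hI e₀ (Nat.mul_pos hm hd) hs hx₀ hy₀ hκ he he0 hde hg hg0 hdg hw hw0 heq hsub)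
    (K := fun D => m * K₀ D) (hsnc.finite.subset fun D hD => hKD D hD)
    (fun D hD => hsnc.prime D (hKD D hD)) (fun G hG => (hB G (hkB G hG)).1)
    (fun G hG => (hB G (hkB G hG)).2) (by
      intro D G κ hD hG hDG hκ hwit
      have h1 := hBD D G κ hD hG hDG hκ hwit
      have h3 : ((κ * k G : ℕ) : ℝ) ≤ (((m * d) * (κ - 1) + m * K₀ D : ℕ) : ℝ) := by
        push_cast [Nat.cast_sub (show 1 ≤ κ from hκ)]
        rw [hk G, hK₀]
        push_cast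
        have h4 : (0 : ℝ) ≤ m * d := by positivity
        calc (κ : ℝ) * (m * d * B G) = m * d * (κ * B G) := by ring
          _ ≤ m * d * (κ - 1 + Δ D) := by gcongr
          _ = m * d * (κ - 1) + m * (d * Δ D) := by ring
      exact_mod_cast h3) ht
  exact ⟨σ, hσ, fun a x hx _ => hσe a x hx⟩

end Core

end Vale.Agent.P281.ISO
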