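import Vale.Agent.P281.ISO.Defs
import Vale.Agent.P281.ISO.RelBound
import Vale.Agent.P281.ISO.Rank

open scoped Manifold ContDiff Topology
open Set Filter Metric Asymptotics

namespace Vale.Agent.P281.ISO

open Vale.Agent.P281 Vale.Agent.P281.MF

set_option linter.unusedSectionVars false

universe u

section Mono

variable {E E' E₀ : Type} [NormedAddCommGroup E] [NormedSpace ℂ E] [FiniteDimensional ℂ E]
  [NormedAddCommGroup E'] [NormedSpace ℂ E'] [FiniteDimensional ℂ E']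
  [NormedAddCommGroup E₀] [NormedSpace ℂ E₀] [FiniteDimensional ℂ E₀]
variable {X Y F : Type u} [TopologicalSpace X] [ChartedSpace E X] [IsManifold 𝓘(ℂ, E) ω X]
  [TopologicalSpace Y] [ChartedSpace E' Y] [IsManifold 𝓘(ℂ, E') ω Y]
  [TopologicalSpace F] [ChartedSpace E₀ F] [IsManifold 𝓘(ℂ, E₀) ω F]
variable {f : X → Y} {S : Set Y} {ι : Type u} {U : ι → Set Y} {q : ι → X → F}

theorem iso_of (h : J.IsFibreBundle E E' E₀ f S U q) :
    Iso E E' E₀ f S U q ∧ (∀ a, ∀ y ∈ U a, y ∉ S) ∧ IsClosed S := by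
  refine ⟨⟨fun y hy => (h.1 y).1 hy, fun a => (h.2 a).1, ?_, ?_, ?_, ?_⟩, ?_, ?_⟩
  · intro a x x' hx hfx hqx
    obtain ⟨z, -, hz⟩ := (h.2 a).2.1 (f x) hx (q a x)
    rw [hz x ⟨rfl, rfl⟩, hz x' ⟨hfx.symm, hqx.symm⟩]
  · intro a y hy p
    obtain ⟨x, hx, -⟩ := (h.2 a).2.1 y hy p
    exact ⟨x, hx⟩
  · intro a x hx
    exact ((h.2 a).2.2 x hx).1
  · intro a x hx
    exact ((h.2 a).2.2 x hx).2
  · intro a y hy
    exact (h.1 y).2 ⟨a, hy⟩
  · have h1 : Sᶜ = ⋃ a, U a := by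
      ext y
      rw [mem_compl_iff, mem_iUnion]
      exact h.1 y
    rw [← isOpen_compl_iff, h1]
    exact isOpen_iUnion fun a => (h.2 a).1

/-- local section of the projection `q a` in a fibre. -/
theorem local_section (hf : ∀ x, HolM E E' f x) (hI : Iso E E' E₀ f S U q)
    (e₀ : E ≃L[ℂ] (E' × E₀)) {a : ι} {x₀ : X} (ha : f x₀ ∈ U a) :
    ∃ ψ : F → X, HolM E₀ E ψ (q a x₀) ∧ ψ (q a x₀) = x₀ ∧
      ∀ᶠ p in 𝓝 (q a x₀), f (ψ p) = f x₀ ∧ q a (ψ p) = p := by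
  have : CompleteSpace E := FiniteDimensional.complete ℂ E
  set φ := chartAt E x₀ with hφ
  set ψY := chartAt E' (f x₀) with hψY
  set χ := chartAt E₀ (q a x₀) with hχ
  have hxs : x₀ ∈ φ.source := mem_chart_source E x₀
  have hys : f x₀ ∈ ψY.source := mem_chart_source E' (f x₀)
  have hps : q a x₀ ∈ χ.source := mem_chart_source E₀ (q a x₀)
  have hq : HolM E E₀ (q a) x₀ := hI.hol a x₀ ha
  have h1 : HolV E (fun z => ψY (f z)) x₀ := HolV.comp (h := (ψY : Y → E')) (HolV.chart hys) (hf x₀)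
  have h2 : HolV E (fun z => χ (q a z)) x₀ := HolV.comp (h := (χ : F → E₀)) (HolV.chart hps) hq
  have hG1 : ContDiffAt ℂ ω ((fun z => ψY (f z)) ∘ φ.symm) (φ x₀) := h1.rep hxs
  have hG2 : ContDiffAt ℂ ω ((fun z => χ (q a z)) ∘ φ.symm) (φ x₀) := h2.rep hxs
  set G : E → E' × E₀ := fun v => (ψY (f (φ.symm v)), χ (q a (φ.symm v))) with hG
  have hGc : ContDiffAt ℂ ω G (φ x₀) := hG1.prodMk hG2
  set L₁ := fderiv ℂ ((fun z => ψY (f z)) ∘ φ.symm) (φ x₀) with hL₁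
  set L₂ := fderiv ℂ ((fun z => χ (q a z)) ∘ φ.symm) (φ x₀) with hL₂
  have hGd : HasFDerivAt G (L₁.prod L₂) (φ x₀) :=
    (hG1.differentiableAt (by simp)).hasFDerivAt.prodMk
      (hG2.differentiableAt (by simp)).hasFDerivAt
  have d1 : (dV E' (ψY : Y → E') (f x₀)).comp (dM E E' f x₀) =
      L₁.comp (dV E (φ : X → E) x₀) := by
    have h9 := dV_comp (h := (ψY : Y → E')) (HolV.chart hys) (hf x₀)
    rw [← h9]
    exact dV_eq_chart hxs h1
  have d2 : (dV E₀ (χ : F → E₀) (q a x₀)).comp (dM E E₀ (q a) x₀) =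
      L₂.comp (dV E (φ : X → E) x₀) := by
    have h9 := dV_comp (h := (χ : F → E₀)) (HolV.chart hps) hq
    rw [← h9]
    exact dV_eq_chart hxs h2
  have hinj : Function.Injective (L₁.prod L₂) := by
    rw [injective_iff_map_eq_zero]
    intro v hv
    obtain ⟨ξ, rfl⟩ := dV_chart_surj (E := E) hxs v
    have hv1 : L₁ (dV E (φ : X → E) x₀ ξ) = 0 := (Prod.mk.inj hv).1
    have hv2 : L₂ (dV E (φ : X → E) x₀ ξ) = 0 := (Prod.mk.inj hv).2
    have e1 := congrArg (fun T : E →L[ℂ] E' => T ξ) d1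
    have e2 := congrArg (fun T : E →L[ℂ] E₀ => T ξ) d2
    simp only [ContinuousLinearMap.comp_apply] at e1 e2
    rw [hv1] at e1
    rw [hv2] at e2
    obtain ⟨A₁, hA₁⟩ := dV_chart_leftInv (E := E') hys
    obtain ⟨A₂, hA₂⟩ := dV_chart_leftInv (E := E₀) hps
    have e3 : dM E E' f x₀ ξ = 0 := by
      have := congrArg (fun T : E' →L[ℂ] E' => T (dM E E' f x₀ ξ)) hA₁
      simp only [ContinuousLinearMap.comp_apply, ContinuousLinearMap.id_apply] at this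
      rw [← this, e1, map_zero]
    have e4 : dM E E₀ (q a) x₀ ξ = 0 := by
      have := congrArg (fun T : E₀ →L[ℂ] E₀ => T (dM E E₀ (q a) x₀ ξ)) hA₂
      simp only [ContinuousLinearMap.comp_apply, ContinuousLinearMap.id_apply] at this
      rw [← this, e2, map_zero]
    rw [hI.imm a x₀ ha ξ e3 e4, map_zero]
  have hbij : Function.Bijective ((L₁.prod L₂ : E →L[ℂ] (E' × E₀)) : E →ₗ[ℂ] (E' × E₀)) := by
    refine ⟨hinj, ?_⟩
    have h3 : Function.Injective (((L₁.prod L₂ : E →L[ℂ] (E' × E₀)) : E →ₗ[ℂ] (E' × E₀)) ∘ₗ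
        (e₀.symm.toLinearEquiv : (E' × E₀) →ₗ[ℂ] E)) := hinj.comp e₀.symm.injective
    have h4 := LinearMap.surjective_of_injective h3
    intro w
    obtain ⟨v, hv⟩ := h4 w
    exact ⟨e₀.symm v, hv⟩
  let L : E ≃L[ℂ] (E' × E₀) := (LinearEquiv.ofBijective _ hbij).toContinuousLinearEquiv
  have hL : (L : E →L[ℂ] (E' × E₀)) = L₁.prod L₂ := by ext v <;> rfl
  have hGd' : HasFDerivAt G (L : E →L[ℂ] (E' × E₀)) (φ x₀) := by rw [hL]; exact hGd
  have hn : (ω : WithTop ℕ∞) ≠ 0 := by simp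
  set R := hGc.localInverse hGd' hn with hR
  have hRc : ContDiffAt ℂ ω R (G (φ x₀)) := hGc.to_localInverse hGd' hn
  have hstr : HasStrictFDerivAt G (L : E →L[ℂ] (E' × E₀)) (φ x₀) :=
    hGc.hasStrictFDerivAt' hGd' hn
  have hRr : ∀ᶠ w in 𝓝 (G (φ x₀)), G (R w) = w := hstr.eventually_right_inverse
  have hR0 : R (G (φ x₀)) = φ x₀ := hGc.localInverse_apply_image hGd' hn
  have hG0 : G (φ x₀) = (ψY (f x₀), χ (q a x₀)) := by
    simp only [hG, φ.left_inv hxs]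
  have hj : HolV E₀ (fun p => (ψY (f x₀), χ p)) (q a x₀) :=
    (contMDiffAt_const (c := ψY (f x₀))).prodMk_space (HolV.chart hps)
  have hRj : HolV E₀ (fun p => R (ψY (f x₀), χ p)) (q a x₀) :=
    HolV.comp_contDiff (G := R) (by rw [← hG0]; exact hRc) hj
  have hsymm : ContMDiffAt 𝓘(ℂ, E) 𝓘(ℂ, E) ω φ.symm (R (ψY (f x₀), χ (q a x₀))) := by
    rw [← hG0, hR0]
    exact contMDiffAt_symm_of_mem_maximalAtlas (IsManifold.chart_mem_maximalAtlas x₀)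
      (φ.map_source hxs)
  have hψh : HolM E₀ E (fun p => φ.symm (R (ψY (f x₀), χ p))) (q a x₀) :=
    ContMDiffAt.comp (q a x₀) hsymm hRj
  have hψ0 : φ.symm (R (ψY (f x₀), χ (q a x₀))) = x₀ := by
    rw [← hG0, hR0, φ.left_inv hxs]
  refine ⟨fun p => φ.symm (R (ψY (f x₀), χ p)), hψh, hψ0, ?_⟩
  have hψc : Tendsto (fun p => φ.symm (R (ψY (f x₀), χ p))) (𝓝 (q a x₀)) (𝓝 x₀) := by
    have := hψh.continuousAt.tendsto
    simp only [hψ0] at this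
    exact this
  have hjc : Tendsto (fun p => (ψY (f x₀), χ p)) (𝓝 (q a x₀)) (𝓝 (G (φ x₀))) := by
    have := (HolV.continuousAt (E := E₀) hj).tendsto
    rw [hG0]
    exact this
  filter_upwards [hjc.eventually hRr,
    hψc.eventually ((hf x₀).continuousAt.eventually (ψY.open_source.mem_nhds hys)),
    hψc.eventually (hq.continuousAt.eventually (χ.open_source.mem_nhds hps)),
    χ.open_source.mem_nhds hps] with p h3 h4 h5 h6
  have h7 : ψY (f (φ.symm (R (ψY (f x₀), χ p)))) = ψY (f x₀) := (Prod.mk.inj h3).1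
  have h8 : χ (q a (φ.symm (R (ψY (f x₀), χ p)))) = χ p := (Prod.mk.inj h3).2
  exact ⟨ψY.injOn h4 hys h7, χ.injOn h5 h6 h8⟩

/-- the relative forms of `s` and of its pull-back by the transition map agree. -/
theorem TH_transition (hf : ∀ x, HolM E E' f x) (hI : Iso E E' E₀ f S U q)
    (e₀ : E ≃L[ℂ] (E' × E₀)) {a b : ι} {x₀ : X} (ha : f x₀ ∈ U a) (hb : f x₀ ∈ U b) {g : F → F}
    (hg : ∀ x, f x = f x₀ → g (q a x) = q b x) (m : ℕ) (s : F → ℂ) :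
    TH E E' E₀ e₀ f (q b) m s x₀ = TH E E' E₀ e₀ f (q a) m (fun p => s (g p) *
      ContinuousLinearMap.det (mfderiv 𝓘(ℂ, E₀) 𝓘(ℂ, E₀) g p : E₀ →L[ℂ] E₀) ^ m) x₀ := by
  obtain ⟨ψ, hψ, hψ0, hψe⟩ := local_section hf hI e₀ ha
  set p₀ := q a x₀ with hp₀
  have hqb : HolM E E₀ (q b) x₀ := hI.hol b x₀ hb
  have hqa : HolM E E₀ (q a) x₀ := hI.hol a x₀ ha
  have hge : g =ᶠ[𝓝 p₀] q b ∘ ψ := by
    filter_upwards [hψe] with p hp
    have h1 := hg (ψ p) hp.1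
    rw [hp.2] at h1
    exact h1
  have hN : (mfderiv 𝓘(ℂ, E₀) 𝓘(ℂ, E₀) g p₀ : E₀ →L[ℂ] E₀) =
      (dM E E₀ (q b) x₀).comp (dM E₀ E ψ p₀) := by
    rw [hge.mfderiv_eq]
    have h1 := mfderiv_comp (I := 𝓘(ℂ, E₀)) (I' := 𝓘(ℂ, E)) (I'' := 𝓘(ℂ, E₀)) p₀
      (g := q b) (f := ψ) (by rw [hψ0]; exact hqb.mdifferentiableAt (by simp))
      (hψ.mdifferentiableAt (by simp))
    rw [hψ0] at h1
    exact h1
  have hA : (dM E E' f x₀).comp (dM E₀ E ψ p₀) = 0 := by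
    have h1 := mfderiv_comp (I := 𝓘(ℂ, E₀)) (I' := 𝓘(ℂ, E)) (I'' := 𝓘(ℂ, E')) p₀
      (g := f) (f := ψ) (by rw [hψ0]; exact (hf x₀).mdifferentiableAt (by simp))
      (hψ.mdifferentiableAt (by simp))
    have h2 : f ∘ ψ =ᶠ[𝓝 p₀] fun _ => f x₀ := hψe.mono fun p hp => hp.1
    rw [h2.mfderiv_eq, mfderiv_const, hψ0] at h1
    exact h1.symm
  have hP : (dM E E₀ (q a) x₀).comp (dM E₀ E ψ p₀) = ContinuousLinearMap.id ℂ E₀ := by
    have h1 := mfderiv_comp (I := 𝓘(ℂ, E₀)) (I' := 𝓘(ℂ, E)) (I'' := 𝓘(ℂ, E₀)) p₀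
      (g := q a) (f := ψ) (by rw [hψ0]; exact hqa.mdifferentiableAt (by simp))
      (hψ.mdifferentiableAt (by simp))
    have h2 : q a ∘ ψ =ᶠ[𝓝 p₀] id := hψe.mono fun p hp => hp.2
    rw [h2.mfderiv_eq, mfderiv_id, hψ0] at h1
    exact h1.symm
  set A := dM E E' f x₀ with hA'
  set P := dM E E₀ (q a) x₀ with hP'
  set Q := dM E E₀ (q b) x₀ with hQ'
  set Ψ := dM E₀ E ψ p₀ with hΨ'
  -- the inverse of `(A, P)`
  set M : (E' × E₀) →L[ℂ] (E' × E₀) := (A.prod P).comp (e₀.symm : (E' × E₀) →L[ℂ] E) with hM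
  have hMdet : M.det ≠ 0 := hI.JP_ne e₀ ha
  have hJ : JP e₀ A Q = (mfderiv 𝓘(ℂ, E₀) 𝓘(ℂ, E₀) g p₀ : E₀ →L[ℂ] E₀).det * JP e₀ A P := by
    have hsurj := hI.surj_prod e₀ ha
    have hinj : Function.Injective (A.prod P) := by
      rw [injective_iff_map_eq_zero]
      intro v hv
      exact hI.imm a x₀ ha v (Prod.mk.inj hv).1 (Prod.mk.inj hv).2
    let T : E ≃L[ℂ] (E' × E₀) :=
      (LinearEquiv.ofBijective ((A.prod P : E →L[ℂ] (E' × E₀)) : E →ₗ[ℂ] (E' × E₀))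
        ⟨hinj, hsurj⟩).toContinuousLinearEquiv
    have hT : (T : E →L[ℂ] (E' × E₀)) = A.prod P := by ext v <;> rfl
    have hTs : ∀ w, (A (T.symm w), P (T.symm w)) = w := fun w => T.apply_symm_apply w
    have h1 : (A.prod Q).comp (T.symm : (E' × E₀) →L[ℂ] E) =
        (((ContinuousLinearMap.id ℂ E').comp (ContinuousLinearMap.fst ℂ E' E₀)).prod
          (Q.comp (T.symm : (E' × E₀) →L[ℂ] E))) := by
      refine ContinuousLinearMap.ext fun w => ?_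
      have h2 : A (T.symm w) = w.1 := congrArg Prod.fst (hTs w)
      exact Prod.ext h2 rfl
    have h3 : (Q.comp (T.symm : (E' × E₀) →L[ℂ] E)).comp (ContinuousLinearMap.inr ℂ E' E₀) =
        (mfderiv 𝓘(ℂ, E₀) 𝓘(ℂ, E₀) g p₀ : E₀ →L[ℂ] E₀) := by
      rw [hN]
      refine ContinuousLinearMap.ext fun v => ?_
      have h4 : T (Ψ v) = (0, v) := by
        have h5 : A (Ψ v) = 0 := congrArg (fun R : E₀ →L[ℂ] E' => R v) hA
        have h6 : P (Ψ v) = v := congrArg (fun R : E₀ →L[ℂ] E₀ => R v) hP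
        exact Prod.ext h5 h6
      show Q (T.symm (0, v)) = Q (Ψ v)
      rw [← h4, T.symm_apply_apply]
    have h4 : (A.prod Q).comp (e₀.symm : (E' × E₀) →L[ℂ] E) =
        ((A.prod Q).comp (T.symm : (E' × E₀) →L[ℂ] E)).comp
          ((A.prod P).comp (e₀.symm : (E' × E₀) →L[ℂ] E)) := by
      refine ContinuousLinearMap.ext fun w => ?_
      have h5 : T.symm ((A.prod P) (e₀.symm w)) = e₀.symm w := T.symm_apply_apply (e₀.symm w)
      show (A.prod Q) (e₀.symm w) = (A.prod Q) (T.symm ((A.prod P) (e₀.symm w)))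
      rw [h5]
    unfold JP
    rw [h4, clm_det_comp, h1, det_block, h3, det_id', one_mul]
    rfl
  unfold TH
  rw [hJ]
  have h5 : g p₀ = q b x₀ := hg x₀ rfl
  rw [← h5]
  ring

theorem orbit_of (hf : ∀ x, HolM E E' f x) (hB : J.IsFibreBundle E E' E₀ f S U q)
    {ΔF : Set F → ℝ} (hM : J.HasFiniteMonodromy E₀ f U q ΔF) (e₀ : E ≃L[ℂ] (E' × E₀)) :
    ∀ (m : ℕ) (κ : Set F → ℕ) (s : F → ℂ), 0 < m → (∀ C, (κ C : ℝ) = m * ΔF C) →
      IsSection E₀ (fun (C : Set F) p g => IsLocalEq E₀ C g p) m κ s →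
      ∃ 𝒮 : Set (F → ℂ), 𝒮.Finite ∧ s ∈ 𝒮 ∧
      (∀ s' ∈ 𝒮, IsSection E₀ (fun (C : Set F) p g => IsLocalEq E₀ C g p) m κ s') ∧
      ∀ a b y, y ∈ U a → y ∈ U b → ∀ s' ∈ 𝒮, ∃ s'' ∈ 𝒮, ∀ x, f x = y →
        TH E E' E₀ e₀ f (q b) m s' x = TH E E' E₀ e₀ f (q a) m s'' x := by
  classical
  intro m κ s hm hκ hs
  obtain ⟨hI, -, -⟩ := iso_of hB
  obtain ⟨𝒮, hfin, hmem, hsec, hinv⟩ := hM m κ s hm hκ hs
  refine ⟨𝒮, hfin, hmem, hsec, fun a b y hya hyb s' hs' => ?_⟩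
  choose θ hθ using fun p => (hB.2 a).2.1 y hya p
  have hg : ∀ x, f x = y → q b (θ (q a x)) = q b x := by
    intro x hx
    rw [← (hθ (q a x)).2 x ⟨hx, rfl⟩]
  refine ⟨_, hinv a b y ⟨hya, hyb⟩ (fun p => q b (θ p)) hg s' hs', fun x hx => ?_⟩
  subst hx
  exact TH_transition hf hI e₀ hya hyb hg m s'

end Mono

end Vale.Agent.P281.ISO
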