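import Vale.Agent.P281.ISO.Sym
import Vale.Agent.P281.ISO.Mono

/-!
# P281: invariant pluricanonical sections of the fibre, with a boundary
-/

open scoped Manifold ContDiff Topology
open Set Filter Metric

namespace Vale.Agent.P281.ISO

open Vale.Agent.P281 Vale.Agent.P281.MF

set_option linter.unusedSectionVars false

universe u

section SymP

variable {E₀ : Type} [NormedAddCommGroup E₀] [NormedSpace ℂ E₀] [FiniteDimensional ℂ E₀]
variable {F : Type u} [TopologicalSpace F] [ChartedSpace E₀ F] [IsManifold 𝓘(ℂ, E₀) ω F]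

/-- sections with poles, in a given system of local equations. -/
theorem sec_common {κ : Set F → ℕ} {m : ℕ} {s : F → ℂ}
    (hs : IsSection E₀ (fun (C : Set F) p g => IsLocalEq E₀ C g p) m κ s) {p₀ : F}
    {T : Finset (Set F)} (hT : ∀ C, κ C ≠ 0 ↔ C ∈ T) {g : Set F → F → ℂ}
    (hg : ∀ C ∈ T, IsLocalEq E₀ C (g C) p₀) :
    ∃ a : F → ℂ, HolV E₀ a p₀ ∧ ∀ᶠ p in 𝓝 p₀, ∏ C ∈ T, g C p ≠ 0 →
      s p * ∏ C ∈ T, g C p ^ κ C = a p * jac E₀ (chartAt E₀ p₀) p ^ m := by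
  classical
  obtain ⟨T', g', a', hT', hg', ha', hev⟩ := hs p₀
  have hsub : T ⊆ T' := fun C hC => hT' C ((hT C).2 hC)
  have hex : ∀ C, ∃ u : F → ℂ, C ∈ T → HolV E₀ u p₀ ∧ ∀ᶠ p in 𝓝 p₀, g C p = g' C p * u p := by
    intro C
    by_cases hC : C ∈ T
    · obtain ⟨u, hu, -, h1⟩ := leq_unit (hg' C (hsub hC)) (hg C hC)
      exact ⟨u, fun _ => ⟨hu, h1⟩⟩
    · exact ⟨fun _ => 0, fun h => absurd h hC⟩
  choose u hu using hex
  refine ⟨fun p => a' p * ∏ C ∈ T, u C p ^ κ C,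
    HolV.mul ha' (HolV.prod fun C hC => (hu C hC).1.pow _), ?_⟩
  have h1 : ∀ᶠ p in 𝓝 p₀, ∀ C ∈ T, g C p = g' C p * u C p := by
    rw [Filter.eventually_all_finset]
    exact fun C hC => (hu C hC).2
  filter_upwards [hev, h1] with p h2 h3 h4
  have h5 : ∏ C ∈ T', g' C p ^ κ C = ∏ C ∈ T, g' C p ^ κ C := by
    refine (Finset.prod_subset hsub fun C _ hC => ?_).symm
    have h0 : κ C = 0 := by
      by_contra h0
      exact hC ((hT C).1 h0)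
    rw [h0, pow_zero]
  have h6 : ∏ C ∈ T, g C p ^ κ C = (∏ C ∈ T, g' C p ^ κ C) * ∏ C ∈ T, u C p ^ κ C := by
    rw [← Finset.prod_mul_distrib]
    exact Finset.prod_congr rfl fun C hC => by rw [h3 C hC, mul_pow]
  have h7 : ∏ C ∈ T, g' C p ^ κ C ≠ 0 := by
    refine Finset.prod_ne_zero_iff.2 fun C hC => pow_ne_zero _ fun h0 => ?_
    apply Finset.prod_ne_zero_iff.1 h4 C hC
    rw [h3 C hC, h0, zero_mul]
  have h8 := h2 (by rw [h5]; exact h7)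
  rw [h5] at h8
  rw [h6, ← mul_assoc, h8]
  ring

theorem common_eqs {κ : Set F → ℕ} (hfin : {C | κ C ≠ 0}.Finite)
    (hpr : ∀ C, κ C ≠ 0 → IsPrimeDivisor E₀ C) (p₀ : F) :
    ∃ (T : Finset (Set F)) (g : Set F → F → ℂ), (∀ C, κ C ≠ 0 ↔ C ∈ T) ∧
      ∀ C ∈ T, IsLocalEq E₀ C (g C) p₀ := by
  classical
  have hex : ∀ C, ∃ g : F → ℂ, κ C ≠ 0 → IsLocalEq E₀ C g p₀ := by
    intro C
    by_cases hC : κ C = 0
    · exact ⟨fun _ => 0, fun h => absurd hC h⟩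
    · obtain ⟨g, hg⟩ := (hpr C hC).2.1 p₀
      exact ⟨g, fun _ => hg⟩
  choose g hg using hex
  have hT : ∀ C, κ C ≠ 0 ↔ C ∈ hfin.toFinset := fun C => by
    rw [Set.Finite.mem_toFinset]; rfl
  exact ⟨hfin.toFinset, g, hT, fun C hC => hg C ((hT C).2 hC)⟩

theorem GoodX.secP {P : Type*} [Fintype P] {j : ℕ} {D : ℕ} (hD : 0 < D)
    {Ψ : (P → Fin (j + 1) → ℂ) → ℂ} (hΨ : GoodX E₀ F D Ψ) {m : ℕ} {κ : Set F → ℕ}
    (hfin : {C | κ C ≠ 0}.Finite) (hpr : ∀ C, κ C ≠ 0 → IsPrimeDivisor E₀ C)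
    {s : P → Fin (j + 1) → F → ℂ}
    (hs : ∀ σ c, IsSection E₀ (fun (C : Set F) p g => IsLocalEq E₀ C g p) m κ (s σ c)) :
    IsSection E₀ (fun (C : Set F) p g => IsLocalEq E₀ C g p) (m * D) (fun C => κ C * D)
      (fun w => Ψ (fun σ c => s σ c w)) := by
  classical
  intro p₀
  obtain ⟨T, g, hT, hg⟩ := common_eqs hfin hpr p₀
  choose A hA hAe using fun σ c => sec_common (hs σ c) hT hg
  refine ⟨T, g, fun w => Ψ (fun σ c => A σ c w), fun C hC => (hT C).1 (left_ne_zero_of_mul hC),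
    hg, hΨ.hol A p₀ hA, ?_⟩
  have h0 : ∀ᶠ p in 𝓝 p₀, ∀ σ c, ∏ C ∈ T, g C p ≠ 0 →
      s σ c p * ∏ C ∈ T, g C p ^ κ C = A σ c p * jac E₀ (chartAt E₀ p₀) p ^ m :=
    Filter.eventually_all.2 fun σ => Filter.eventually_all.2 fun c => hAe σ c
  filter_upwards [h0] with p hp hne
  have hne' : ∏ C ∈ T, g C p ≠ 0 := by
    refine Finset.prod_ne_zero_iff.2 fun C hC h1 => ?_
    apply Finset.prod_ne_zero_iff.1 hne C hC
    rw [h1]
    exact zero_pow (Nat.mul_ne_zero ((hT C).2 hC) hD.ne')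
  have h1 : (fun σ c => s σ c p * ∏ C ∈ T, g C p ^ κ C) =
      fun σ c => A σ c p * jac E₀ (chartAt E₀ p₀) p ^ m := by
    funext σ c; exact hp σ c hne'
  have h2 : ∏ C ∈ T, g C p ^ (κ C * D) = (∏ C ∈ T, g C p ^ κ C) ^ D := by
    rw [← Finset.prod_pow]
    exact Finset.prod_congr rfl fun C _ => by rw [pow_mul]
  rw [h2, ← hΨ.hom (fun σ c => s σ c p), h1, hΨ.hom (fun σ c => A σ c p), pow_mul]

theorem det_secP {m : ℕ} {κ : Set F → ℕ}
    (hfin : {C | κ C ≠ 0}.Finite) (hpr : ∀ C, κ C ≠ 0 → IsPrimeDivisor E₀ C)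
    {a b c d : F → ℂ} (ha : IsSection E₀ (fun (C : Set F) p g => IsLocalEq E₀ C g p) m κ a)
    (hb : IsSection E₀ (fun (C : Set F) p g => IsLocalEq E₀ C g p) m κ b)
    (hc : IsSection E₀ (fun (C : Set F) p g => IsLocalEq E₀ C g p) m κ c)
    (hd : IsSection E₀ (fun (C : Set F) p g => IsLocalEq E₀ C g p) m κ d) :
    IsSection E₀ (fun (C : Set F) p g => IsLocalEq E₀ C g p) (m * 2) (fun C => κ C * 2)
      (fun w => a w * b w - c w * d w) := by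
  classical
  intro p₀
  obtain ⟨T, g, hT, hg⟩ := common_eqs hfin hpr p₀
  obtain ⟨a', ha', hae⟩ := sec_common ha hT hg
  obtain ⟨b', hb', hbe⟩ := sec_common hb hT hg
  obtain ⟨c', hc', hce⟩ := sec_common hc hT hg
  obtain ⟨d', hd', hde⟩ := sec_common hd hT hg
  have h1 : HolV E₀ (fun w => a' w * b' w + (-1) * (c' w * d' w)) p₀ :=
    (ha'.mul hb').add ((HolV.const _ p₀).mul (hc'.mul hd'))
  refine ⟨T, g, _, fun C hC => (hT C).1 (left_ne_zero_of_mul hC), hg, h1, ?_⟩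
  filter_upwards [hae, hbe, hce, hde] with p h3 h4 h5 h6 hne
  have hne' : ∏ C ∈ T, g C p ≠ 0 := by
    refine Finset.prod_ne_zero_iff.2 fun C hC h1 => ?_
    apply Finset.prod_ne_zero_iff.1 hne C hC
    rw [h1]
    exact zero_pow (Nat.mul_ne_zero ((hT C).2 hC) (by norm_num))
  have h2 : ∏ C ∈ T, g C p ^ (κ C * 2) = (∏ C ∈ T, g C p ^ κ C) ^ 2 := by
    rw [← Finset.prod_pow]
    exact Finset.prod_congr rfl fun C _ => by rw [pow_mul]
  rw [h2]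
  have e3 := h3 hne'
  have e4 := h4 hne'
  have e5 := h5 hne'
  have e6 := h6 hne'
  rw [pow_mul]
  set Q := ∏ C ∈ T, g C p ^ κ C with hQ
  set J := jac E₀ (chartAt E₀ p₀) p ^ m with hJ
  calc (a p * b p - c p * d p) * Q ^ 2 = (a p * Q) * (b p * Q) - (c p * Q) * (d p * Q) := by ring
    _ = (a' p * b' p + (-1) * (c' p * d' p)) * J ^ 2 := by
      rw [e3, e4, e5, e6]; ring

/-- near a point off the boundary. -/
def SecAt (m : ℕ) (s : F → ℂ) (p : F) : Prop :=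
  ∃ a : F → ℂ, HolV E₀ a p ∧ ∀ᶠ w in 𝓝 p, s w = a w * jac E₀ (chartAt E₀ p) w ^ m

theorem secAt_of {κ : Set F → ℕ} {m : ℕ} {s : F → ℂ}
    (hpr : ∀ C, κ C ≠ 0 → IsPrimeDivisor E₀ C)
    (hs : IsSection E₀ (fun (C : Set F) p g => IsLocalEq E₀ C g p) m κ s) {p : F}
    (hp : ∀ C, κ C ≠ 0 → p ∉ C) : SecAt (E₀ := E₀) m s p :=
  section_local hs fun C hC => by
    obtain ⟨g, hg⟩ := (hpr C hC).2.1 p
    exact ⟨g, hg, fun h0 => hp C hC (hg.mem_iff.2 h0)⟩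

theorem SecAt.ev_ne {m : ℕ} {s : F → ℂ} {p : F} (hs : SecAt (E₀ := E₀) m s p) (h0 : s p ≠ 0) :
    ∀ᶠ w in 𝓝 p, s w ≠ 0 := by
  obtain ⟨a, ha, hev⟩ := hs
  have h1 : a p ≠ 0 := by
    intro h
    apply h0
    rw [hev.self_of_nhds, h, zero_mul]
  filter_upwards [hev, (HolV.continuousAt (E := E₀) ha).eventually_ne h1,
    jac_ne_ev (E₀ := E₀) p m] with w h2 h3 h4
  rw [h2]
  exact mul_ne_zero h3 h4

theorem SecAt.div_holV {m : ℕ} {s t : F → ℂ} {p : F} (hs : SecAt (E₀ := E₀) m s p)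
    (ht : SecAt (E₀ := E₀) m t p) (h0 : t p ≠ 0) : HolV E₀ (fun w => s w / t w) p := by
  obtain ⟨a, ha, hae⟩ := hs
  obtain ⟨b, hb, hbe⟩ := ht
  have hb0 : b p ≠ 0 := by
    intro h
    have := hbe.self_of_nhds
    rw [h, zero_mul] at this
    exact h0 this
  refine (ha.div hb hb0).congr ?_
  filter_upwards [hae, hbe, jac_ne_ev (E₀ := E₀) p m] with w h1 h2 h3
  rw [h1, h2, mul_div_mul_right _ _ h3]

theorem isOpen_off {κ : Set F → ℕ} (hfin : {C | κ C ≠ 0}.Finite)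
    (hpr : ∀ C, κ C ≠ 0 → IsPrimeDivisor E₀ C) : IsOpen {p : F | ∀ C, κ C ≠ 0 → p ∉ C} ∧
      Dense {p : F | ∀ C, κ C ≠ 0 → p ∉ C} :=
  dense_compl_finite hfin (fun C hC => (hpr C hC).1) (fun C hC => by
    rw [dense_iff_inter_open]
    intro U hU hUne
    obtain ⟨x, hxU, hxD⟩ := IsLocalEq.exists_notMem (hpr C hC).2.1 hU hUne
    exact ⟨x, hxU, hxD⟩)

theorem open_dense_ne [PreconnectedSpace F] {m : ℕ} {κ : Set F → ℕ}
    (hfin : {C | κ C ≠ 0}.Finite) (hpr : ∀ C, κ C ≠ 0 → IsPrimeDivisor E₀ C) {s : F → ℂ}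
    (hs : IsSection E₀ (fun (C : Set F) p g => IsLocalEq E₀ C g p) m κ s)
    (h0 : ∃ p, (∀ C, κ C ≠ 0 → p ∉ C) ∧ s p ≠ 0) :
    IsOpen {p | (∀ C, κ C ≠ 0 → p ∉ C) ∧ s p ≠ 0} ∧
      Dense {p | (∀ C, κ C ≠ 0 → p ∉ C) ∧ s p ≠ 0} := by
  classical
  refine ⟨?_, ?_⟩
  · rw [isOpen_iff_mem_nhds]
    intro p hp
    filter_upwards [(isOpen_off hfin hpr).1.mem_nhds hp.1, (secAt_of hpr hs hp.1).ev_ne hp.2]
      with w h1 h2 using ⟨h1, h2⟩
  · obtain ⟨p, hp⟩ := h0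
    refine dense_of_local (E := E₀) ⟨p, hp⟩ fun x => ?_
    obtain ⟨T, g, hT, hg⟩ := common_eqs hfin hpr x
    obtain ⟨a, ha, hev⟩ := sec_common hs hT hg
    have hge : ∀ᶠ z in 𝓝 x, ∀ C ∈ T, IsLocalEq E₀ C (g C) z := by
      rw [Filter.eventually_all_finset]
      exact fun C hC => (hg C hC).eventually
    refine ⟨fun z => a z * ∏ C ∈ T, g C z,
      ha.mul (HolV.prod fun C hC => (hg C hC).holAt), ?_⟩
    filter_upwards [hev, hge, jac_ne_ev (E₀ := E₀) x m] with z h1 h2 h3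
    have h4 : (∀ C, κ C ≠ 0 → z ∉ C) ↔ ∏ C ∈ T, g C z ≠ 0 := by
      rw [Finset.prod_ne_zero_iff]
      constructor
      · intro h C hC h5
        exact h C ((hT C).2 hC) ((h2 C hC).mem_iff.2 h5)
      · intro h C hC h5
        exact h C ((hT C).1 hC) ((h2 C ((hT C).1 hC)).mem_iff.1 h5)
    constructor
    · rintro ⟨h5, h6⟩
      have h7 := h4.1 h5
      refine mul_ne_zero ?_ h7
      intro h8
      have h9 := h1 h7
      rw [h8, zero_mul] at h9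
      have h10 : ∏ C ∈ T, g C z ^ κ C ≠ 0 := by
        refine Finset.prod_ne_zero_iff.2 fun C hC => pow_ne_zero _ ?_
        exact Finset.prod_ne_zero_iff.1 h7 C hC
      exact (mul_ne_zero h6 h10) h9
    · intro h5
      have h7 : ∏ C ∈ T, g C z ≠ 0 := right_ne_zero_of_mul h5
      refine ⟨h4.2 h7, fun h8 => ?_⟩
      have h9 := h1 h7
      rw [h8, zero_mul] at h9
      exact (mul_ne_zero (left_ne_zero_of_mul h5) h3) h9.symm

theorem rank_lemma_P [PreconnectedSpace F] {P : Type*} [Fintype P] {j m : ℕ} {κ : Set F → ℕ}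
    (hfin : {C | κ C ≠ 0}.Finite) (hpr : ∀ C, κ C ≠ 0 → IsPrimeDivisor E₀ C)
    {s : P → Fin (j + 1) → F → ℂ}
    (hs : ∀ σ c, IsSection E₀ (fun (C : Set F) p g => IsLocalEq E₀ C g p) m κ (s σ c))
    (hs0 : ∀ σ, ∃ w, (∀ C, κ C ≠ 0 → w ∉ C) ∧ s σ 0 w ≠ 0)
    (o : P) {z : F} (hzΩ : ∀ C, κ C ≠ 0 → z ∉ C) (hz : s o 0 z ≠ 0)
    (hli : LinearIndependent ℂ (fun b : Fin j => dif E₀ (fun w => s o b.succ w / s o 0 w) z)) :
    ∃ (D : ℕ) (Ψ : Fin (j + 1) → (P → Fin (j + 1) → ℂ) → ℂ) (p : F), 0 < D ∧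
      (∀ b, GoodX E₀ F D (Ψ b)) ∧ (∀ C, κ C ≠ 0 → p ∉ C) ∧ Ψ 0 (fun σ c => s σ c p) ≠ 0 ∧
      LinearIndependent ℂ (fun b : Fin j => dif E₀ (fun w => Ψ b.succ (fun σ c => s σ c w) /
        Ψ 0 (fun σ c => s σ c w)) p) := by
  classical
  -- the sections which must not vanish at the point
  set 𝓗 : Set (F → ℂ) := {h | (∃ w, (∀ C, κ C ≠ 0 → w ∉ C) ∧ h w ≠ 0) ∧ ((∃ σ, h = s σ 0) ∨
    ∃ σ c, h = fun w => s σ c w * s o 0 w - s o c w * s σ 0 w)} with h𝓗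
  have hfin𝓗 : 𝓗.Finite := by
    refine ((Set.finite_range fun σ => s σ 0).union (Set.finite_range
      fun x : P × Fin (j + 1) => fun w => s x.1 x.2 w * s o 0 w - s o x.2 w * s x.1 0 w)).subset ?_
    rintro h ⟨-, ⟨σ, rfl⟩ | ⟨σ, c, rfl⟩⟩
    · exact Or.inl ⟨σ, rfl⟩
    · exact Or.inr ⟨(σ, c), rfl⟩
  have hκ2 : ∀ C, κ C * 2 ≠ 0 ↔ κ C ≠ 0 := fun C => by omega
  have hod : ∀ h ∈ 𝓗, IsOpen {p | (∀ C, κ C ≠ 0 → p ∉ C) ∧ h p ≠ 0} ∧
      Dense {p | (∀ C, κ C ≠ 0 → p ∉ C) ∧ h p ≠ 0} := by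
    rintro h ⟨hne, ⟨σ, rfl⟩ | ⟨σ, c, rfl⟩⟩
    · exact open_dense_ne hfin hpr (hs σ 0) hne
    · have h1 := open_dense_ne (κ := fun C => κ C * 2) (by simpa only [hκ2] using hfin)
        (fun C hC => hpr C ((hκ2 C).1 hC))
        (det_secP hfin hpr (hs σ c) (hs o 0) (hs o c) (hs σ 0)) (by simpa only [hκ2] using hne)
      simpa only [hκ2] using h1
  have hd := dense_compl_finite (X := F)
    (T := (fun h : F → ℂ => {p | (∀ C, κ C ≠ 0 → p ∉ C) ∧ h p ≠ 0}ᶜ) '' 𝓗)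
    (hfin𝓗.image _)
    (by
      rintro _ ⟨h, hh, rfl⟩
      exact (hod h hh).1.isClosed_compl)
    (by
      rintro _ ⟨h, hh, rfl⟩
      show Dense ({p | (∀ C, κ C ≠ 0 → p ∉ C) ∧ h p ≠ 0}ᶜ)ᶜ
      rw [compl_compl]
      exact (hod h hh).2)
  have hzS : ∀ σ c, SecAt (E₀ := E₀) m (s σ c) z := fun σ c => secAt_of hpr (hs σ c) hzΩ
  have hz1 : ∀ᶠ w in 𝓝 z, LinearIndependent ℂ
      (fun b : Fin j => dif E₀ (fun w => s o b.succ w / s o 0 w) w) :=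
    linearIndependent_dif_eventually (fun b => (hzS o b.succ).div_holV (hzS o 0) hz) hli
  obtain ⟨O, hO1, hO2, hO3⟩ := eventually_nhds_iff.1 hz1
  obtain ⟨p, hpO, hp⟩ := hd.2.inter_open_nonempty O hO2 ⟨z, hO3⟩
  have hpl := hO1 p hpO
  have hpp : ∀ h ∈ 𝓗, (∀ C, κ C ≠ 0 → p ∉ C) ∧ h p ≠ 0 := by
    intro h hh
    have h1 := hp _ ⟨h, hh, rfl⟩
    exact not_not.1 h1
  have hp' : ∀ h ∈ 𝓗, h p ≠ 0 := fun h hh => (hpp h hh).2
  have hpΩ : ∀ C, κ C ≠ 0 → p ∉ C := (hpp (s o 0) ⟨hs0 o, Or.inl ⟨o, rfl⟩⟩).1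
  have hp0 : ∀ σ, s σ 0 p ≠ 0 := fun σ => hp' _ ⟨hs0 σ, Or.inl ⟨σ, rfl⟩⟩
  have hpS : ∀ σ c, SecAt (E₀ := E₀) m (s σ c) p := fun σ c => secAt_of hpr (hs σ c) hpΩ
  -- ratios
  set u : P → Fin (j + 1) → F → ℂ := fun σ c w => s σ c w / s σ 0 w with hu
  have huh : ∀ σ c, HolV E₀ (u σ c) p := fun σ c => (hpS σ c).div_holV (hpS σ 0) (hp0 σ)
  have hp0ev : ∀ᶠ w in 𝓝 p, ∀ σ, s σ 0 w ≠ 0 := Filter.eventually_all.2 fun σ =>
    (hpS σ 0).ev_ne (hp0 σ)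
  have hu0 : ∀ σ, u σ 0 =ᶠ[𝓝 p] fun _ => 1 := by
    intro σ
    filter_upwards [hp0ev] with w hw
    exact div_self (hw σ)
  have hu0p : ∀ σ, u σ 0 p = 1 := fun σ => div_self (hp0 σ)
  set bad : Finset P := Finset.univ.filter fun σ => ∃ c, u σ c p ≠ u o c p with hbad
  have hgood : ∀ σ, σ ∉ bad → ∀ c, u σ c =ᶠ[𝓝 p] u o c := by
    intro σ hσ c
    have h1 : u σ c p = u o c p := by
      by_contra hcon
      exact hσ (Finset.mem_filter.2 ⟨Finset.mem_univ _, c, hcon⟩)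
    have h2 : s σ c p * s o 0 p - s o c p * s σ 0 p = 0 := by
      rw [hu] at h1
      have h3 := (div_eq_div_iff (hp0 σ) (hp0 o)).1 h1
      rw [h3, sub_self]
    have h3 : ∀ w, (∀ C, κ C ≠ 0 → w ∉ C) → s σ c w * s o 0 w - s o c w * s σ 0 w = 0 := by
      by_contra hcon
      push Not at hcon
      obtain ⟨w, hw1, hw2⟩ := hcon
      exact hp' _ ⟨⟨w, hw1, hw2⟩, Or.inr ⟨σ, c, rfl⟩⟩ h2
    filter_upwards [hp0ev, (isOpen_off hfin hpr).1.mem_nhds hpΩ] with w hw hwΩ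
    exact (div_eq_div_iff (hw σ) (hw o)).2 (sub_eq_zero.1 (h3 w hwΩ))
  have hbex : ∀ σ, ∃ c, σ ∈ bad → u σ c p ≠ u o c p := by
    intro σ
    by_cases h : σ ∈ bad
    · obtain ⟨c, hc⟩ := (Finset.mem_filter.1 h).2
      exact ⟨c, fun _ => hc⟩
    · exact ⟨0, fun h' => absurd h' h⟩
  choose i hi using hbex
  set ρ : P → ℂ := fun τ => u τ (i τ) p with hρ
  set κ' : P → ℂ := fun τ => (u o (i τ) p - u τ (i τ) p)⁻¹ with hκ'
  set N : ℕ := 2 * bad.card + 1 with hN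
  set H : Fin j → (Fin (j + 1) → ℂ) → ℂ := fun b => HB bad i ρ κ' b.succ (u o b.succ p) with hH
  refine ⟨N * Fintype.card P, Fin.cons (fun V => (∏ τ, V τ 0) ^ N) (fun b => EX N (H b)), p,
    Nat.mul_pos (by omega) (Fintype.card_pos_iff.2 ⟨o⟩), ?_, hpΩ, ?_, ?_⟩
  · intro b
    refine Fin.cases ?_ (fun b => ?_) b
    · exact goodX_prod N
    · exact goodX_EX bad i ρ κ' b.succ (u o b.succ p)
  · show (∏ τ, s τ 0 p) ^ N ≠ 0
    exact pow_ne_zero _ (Finset.prod_ne_zero_iff.2 fun τ _ => hp0 τ)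
  · -- the ratio
    have hrat : ∀ b : Fin j, (fun w => EX N (H b) (fun σ c => s σ c w) /
        (∏ τ, s τ 0 w) ^ N) =ᶠ[𝓝 p] fun w => ∑ σ, H b (fun c => u σ c w) := by
      intro b
      filter_upwards [hp0ev] with w hw
      exact EX_div (HB_hom bad i ρ κ' b.succ (u o b.succ p)) (fun σ c => s σ c w) hw
    have hfac : ∀ σ τ, HolV E₀ (fun w => (u σ (i τ) w - ρ τ * u σ 0 w) * κ' τ) p := by
      intro σ τ
      have h1 : HolV E₀ (fun w => (u σ (i τ) w + (-ρ τ) * u σ 0 w) * κ' τ) p :=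
        ((huh σ (i τ)).add ((HolV.const _ p).mul (huh σ 0))).mul (HolV.const _ p)
      refine h1.congr (Eventually.of_forall fun w => ?_)
      show _ = _
      ring
    have hlin : ∀ σ (b : Fin j), HolV E₀ (fun w => u σ b.succ w - u o b.succ p * u σ 0 w) p := by
      intro σ b
      have h1 : HolV E₀ (fun w => u σ b.succ w + (-u o b.succ p) * u σ 0 w) p :=
        (huh σ b.succ).add ((HolV.const _ p).mul (huh σ 0))
      refine h1.congr (Eventually.of_forall fun w => ?_)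
      show _ = _
      ring
    have hHh : ∀ σ (b : Fin j), HolV E₀ (fun w => H b (fun c => u σ c w)) p := fun σ b =>
      (hlin σ b).mul (HolV.prod fun τ _ => (hfac σ τ).pow 2)
    have hdbad : ∀ σ ∈ bad, ∀ b : Fin j, dif E₀ (fun w => H b (fun c => u σ c w)) p = 0 := by
      intro σ hσ b
      have h1 : (fun w => H b (fun c => u σ c w)) = fun w =>
          ((u σ (i σ) w - ρ σ * u σ 0 w) * κ' σ) * (((u σ (i σ) w - ρ σ * u σ 0 w) * κ' σ) *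
            ((u σ b.succ w - u o b.succ p * u σ 0 w) *
              ∏ τ ∈ bad.erase σ, ((u σ (i τ) w - ρ τ * u σ 0 w) * κ' τ) ^ 2)) := by
        funext w
        show (u σ b.succ w - u o b.succ p * u σ 0 w) *
          ∏ τ ∈ bad, ((u σ (i τ) w - ρ τ * u σ 0 w) * κ' τ) ^ 2 = _
        rw [← Finset.mul_prod_erase bad _ hσ]
        ring
      have h2 : (u σ (i σ) p - ρ σ * u σ 0 p) * κ' σ = 0 := by
        rw [hu0p, mul_one, sub_self, zero_mul]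
      rw [h1, dif_mul (hfac σ σ) ((hfac σ σ).mul ((hlin σ b).mul
        (HolV.prod fun τ _ => (hfac σ τ).pow 2))) h2, h2, zero_mul]
      exact zero_smul ℂ (dif E₀ (fun w => (u σ (i σ) w - ρ σ * u σ 0 w) * κ' σ) p)
    have hdgood : ∀ σ, σ ∉ bad → ∀ b : Fin j, dif E₀ (fun w => H b (fun c => u σ c w)) p =
        dif E₀ (u o b.succ) p := by
      intro σ hσ b
      have h1 : (fun w => H b (fun c => u σ c w)) =ᶠ[𝓝 p] fun w =>
          (u o b.succ w - u o b.succ p * u o 0 w) *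
            ∏ τ ∈ bad, ((u o (i τ) w - ρ τ * u o 0 w) * κ' τ) ^ 2 := by
        have h2 : ∀ᶠ w in 𝓝 p, ∀ c, u σ c w = u o c w :=
          Filter.eventually_all.2 fun c => hgood σ hσ c
        filter_upwards [h2] with w hw
        show (u σ b.succ w - u o b.succ p * u σ 0 w) *
          ∏ τ ∈ bad, ((u σ (i τ) w - ρ τ * u σ 0 w) * κ' τ) ^ 2 = _
        rw [hw b.succ, hw 0]
        congr 1
        exact Finset.prod_congr rfl fun τ _ => by rw [hw (i τ)]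
      have h3 : u o b.succ p - u o b.succ p * u o 0 p = 0 := by rw [hu0p, mul_one, sub_self]
      have h4 : ∏ τ ∈ bad, ((u o (i τ) p - ρ τ * u o 0 p) * κ' τ) ^ 2 = 1 := by
        refine Finset.prod_eq_one fun τ hτ => ?_
        have h5 : u o (i τ) p - u τ (i τ) p ≠ 0 := sub_ne_zero.2 (hi τ hτ).symm
        rw [hu0p, mul_one]
        show ((u o (i τ) p - u τ (i τ) p) * (u o (i τ) p - u τ (i τ) p)⁻¹) ^ 2 = 1
        rw [mul_inv_cancel₀ h5, one_pow]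
      have h5 : dif E₀ (fun w => H b (fun c => u σ c w)) p = dif E₀ (fun w =>
          (u o b.succ w - u o b.succ p * u o 0 w) *
            ∏ τ ∈ bad, ((u o (i τ) w - ρ τ * u o 0 w) * κ' τ) ^ 2) p := dV_congr h1
      have h8 : (1 : ℂ) • dif E₀ (fun w => u o b.succ w - u o b.succ p * u o 0 w) p =
          dif E₀ (fun w => u o b.succ w - u o b.succ p * u o 0 w) p := one_smul ℂ _
      rw [h5, dif_mul (hlin o b) (HolV.prod fun τ _ => (hfac o τ).pow 2) h3, h4, h8]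
      have h6 : (fun w => u o b.succ w - u o b.succ p * u o 0 w) =ᶠ[𝓝 p]
          fun w => u o b.succ w + (-u o b.succ p) := by
        filter_upwards [hu0 o] with w hw
        rw [hw]; ring
      have h7 : dif E₀ (fun w => u o b.succ w - u o b.succ p * u o 0 w) p =
          dif E₀ (fun w => u o b.succ w + (-u o b.succ p)) p := dV_congr h6
      rw [h7, dif_add (huh o b.succ) (HolV.const _ p), dif_const, add_zero]
    have hfun : (fun b : Fin j => dif E₀ (fun w =>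
        (Fin.cons (fun V : P → Fin (j + 1) → ℂ => (∏ τ, V τ 0) ^ N)
          (fun b => EX N (H b)) : Fin (j + 1) → (P → Fin (j + 1) → ℂ) → ℂ) b.succ
            (fun σ c => s σ c w) /
        (Fin.cons (fun V : P → Fin (j + 1) → ℂ => (∏ τ, V τ 0) ^ N)
          (fun b => EX N (H b)) : Fin (j + 1) → (P → Fin (j + 1) → ℂ) → ℂ) 0
            (fun σ c => s σ c w)) p) =
        fun b : Fin j => (((Finset.univ \ bad).card : ℕ) : ℂ) •
          dif E₀ (fun w => s o b.succ w / s o 0 w) p := by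
      funext b
      have h1 : dif E₀ (fun w => EX N (H b) (fun σ c => s σ c w) /
          (∏ τ, s τ 0 w) ^ N) p = dif E₀ (fun w => ∑ σ, H b (fun c => u σ c w)) p :=
        dV_congr (hrat b)
      refine Eq.trans h1 ?_
      rw [dif_sum Finset.univ fun σ _ => hHh σ b, ← Finset.sum_sdiff (Finset.subset_univ bad),
        Finset.sum_eq_zero fun σ hσ => hdbad σ hσ b, add_zero,
        Finset.sum_congr rfl fun σ hσ => hdgood σ (Finset.mem_sdiff.1 hσ).2 b,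
        Finset.sum_const, ← Nat.cast_smul_eq_nsmul ℂ]
    rw [hfun]
    have ho : o ∉ bad := by
      intro h
      obtain ⟨c, hc⟩ := (Finset.mem_filter.1 h).2
      exact hc rfl
    have hcard : (((Finset.univ \ bad).card : ℕ) : ℂ) ≠ 0 := by
      have h1 : 0 < (Finset.univ \ bad).card :=
        Finset.card_pos.2 ⟨o, Finset.mem_sdiff.2 ⟨Finset.mem_univ _, ho⟩⟩
      exact_mod_cast h1.ne'
    exact hpl.units_smul (fun _ => Units.mk0 _ hcard)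

end SymP

theorem exists_invariants_P {E E' E₀ : Type} [NormedAddCommGroup E] [NormedSpace ℂ E]
    [FiniteDimensional ℂ E] [NormedAddCommGroup E'] [NormedSpace ℂ E'] [FiniteDimensional ℂ E']
    [NormedAddCommGroup E₀] [NormedSpace ℂ E₀] [FiniteDimensional ℂ E₀]
    {X Y F : Type u} [TopologicalSpace X] [ChartedSpace E X] [IsManifold 𝓘(ℂ, E) ω X]
    [TopologicalSpace Y] [ChartedSpace E' Y] [IsManifold 𝓘(ℂ, E') ω Y]
    [TopologicalSpace F] [ChartedSpace E₀ F] [IsManifold 𝓘(ℂ, E₀) ω F] [PreconnectedSpace F]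
    {f : X → Y} (hf : ∀ x, HolM E E' f x) {S : Set Y} {ι : Type u} {U : ι → Set Y}
    {q : ι → X → F} (hI : Iso E E' E₀ f S U q) (e₀ : E ≃L[ℂ] (E' × E₀)) {Δ : Set F → ℝ}
    (hfinΔ : {C | Δ C ≠ 0}.Finite) (hpr : ∀ C, Δ C ≠ 0 → IsPrimeDivisor E₀ C)
    (hfin : ∀ (m : ℕ) (κ : Set F → ℕ) (s : F → ℂ), 0 < m → (∀ C, (κ C : ℝ) = m * Δ C) →
      IsSection E₀ (fun (C : Set F) p g => IsLocalEq E₀ C g p) m κ s →
      ∃ 𝒮 : Set (F → ℂ), 𝒮.Finite ∧ s ∈ 𝒮 ∧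
      (∀ s' ∈ 𝒮, IsSection E₀ (fun (C : Set F) p g => IsLocalEq E₀ C g p) m κ s') ∧
      ∀ a b y, y ∈ U a → y ∈ U b → ∀ s' ∈ 𝒮, ∃ s'' ∈ 𝒮, ∀ x, f x = y →
        TH E E' E₀ e₀ f (q b) m s' x = TH E E' E₀ e₀ f (q a) m s'' x)
    {j₁ : ℕ} (h : KodGE E₀ (fun (C : Set F) p g => IsLocalEq E₀ C g p) Δ j₁) :
    ∃ (m : ℕ) (κ : Set F → ℕ) (s : Fin (j₁ + 1) → F → ℂ) (p : F), 0 < m ∧
      (∀ C, (κ C : ℝ) = m * Δ C) ∧
      (∀ b, IsSection E₀ (fun (C : Set F) p g => IsLocalEq E₀ C g p) m κ (s b)) ∧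
      (∀ b, Inv E E' E₀ e₀ f U q m (s b)) ∧ (∀ C, κ C ≠ 0 → p ∉ C) ∧ s 0 p ≠ 0 ∧
      LinearIndependent ℂ (fun b : Fin j₁ => dif E₀ (fun w => s b.succ w / s 0 w) p) := by
  classical
  obtain ⟨m, κ, s, z, hm, hκ, hs, hzC, hz, hli⟩ := h
  have hκΔ : ∀ C, κ C ≠ 0 → Δ C ≠ 0 := by
    intro C hC h0
    have h1 := hκ C
    rw [h0, mul_zero] at h1
    exact hC (by exact_mod_cast h1)
  have hκfin : {C | κ C ≠ 0}.Finite := hfinΔ.subset fun C hC => hκΔ C hC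
  have hκpr : ∀ C, κ C ≠ 0 → IsPrimeDivisor E₀ C := fun C hC => hpr C (hκΔ C hC)
  have hzΩ : ∀ C, κ C ≠ 0 → z ∉ C := by
    intro C hC hzC'
    obtain ⟨g, hg, hg0⟩ := hzC C hC
    exact hg0 (hg.mem_iff.1 hzC')
  obtain ⟨hΩo, hΩd⟩ := isOpen_off hκfin hκpr
  choose 𝒮 h𝒮fin h𝒮mem h𝒮sec h𝒮tr using fun b => hfin m κ (s b) hm hκ (hs b)
  have hPfin : Finite {σ : Fin (j₁ + 1) → F → ℂ // (∀ c, σ c ∈ 𝒮 c) ∧
      ∃ w, (∀ C, κ C ≠ 0 → w ∉ C) ∧ σ 0 w ≠ 0} :=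
    ((Set.Finite.pi' h𝒮fin).subset (fun σ hσ => hσ.1) :
      {σ : Fin (j₁ + 1) → F → ℂ | (∀ c, σ c ∈ 𝒮 c) ∧
        ∃ w, (∀ C, κ C ≠ 0 → w ∉ C) ∧ σ 0 w ≠ 0}.Finite)
  set P : Type u := {σ : Fin (j₁ + 1) → F → ℂ // (∀ c, σ c ∈ 𝒮 c) ∧
    ∃ w, (∀ C, κ C ≠ 0 → w ∉ C) ∧ σ 0 w ≠ 0} with hP
  have : Finite P := hPfin
  have : Fintype P := Fintype.ofFinite P
  have hT : ∀ a b x, f x ∈ U a → f x ∈ U b → ∃ T : P ≃ P, ∀ (σ : P) (c : Fin (j₁ + 1)),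
      TH E E' E₀ e₀ f (q b) m (σ.1 c) x = TH E E' E₀ e₀ f (q a) m ((T σ).1 c) x := by
    intro a b x ha hb
    have h1 : ∀ σ : P, ∃ σ' : P, ∀ c x', f x' = f x →
        TH E E' E₀ e₀ f (q b) m (σ.1 c) x' = TH E E' E₀ e₀ f (q a) m (σ'.1 c) x' := by
      intro σ
      choose t ht1 ht2 using fun c => h𝒮tr c a b (f x) ha hb (σ.1 c) (σ.2.1 c)
      refine ⟨⟨t, ht1, ?_⟩, fun c x' hx' => ht2 c x' hx'⟩
      obtain ⟨w, hwΩ, hw⟩ := σ.2.2
      obtain ⟨x', hx', hqx'⟩ := hI.surj b (f x) hb w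
      have hax' : f x' ∈ U a := by rw [hx']; exact ha
      have hbx' : f x' ∈ U b := by rw [hx']; exact hb
      obtain ⟨ψ, hψ, hψ0, hψe⟩ := local_section hf hI e₀ hax'
      have hc : ContinuousAt (fun p => q b (ψ p)) (q a x') := by
        have h2 : ContinuousAt (q b) (ψ (q a x')) := by
          rw [hψ0]
          exact (hI.hol b x' hbx').continuousAt
        exact ContinuousAt.comp (g := q b) (f := ψ) h2 hψ.continuousAt
      have hne : ∀ᶠ p in 𝓝 (q a x'), σ.1 0 (q b (ψ p)) ≠ 0 := by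
        have h2 := (secAt_of hκpr (h𝒮sec 0 (σ.1 0) (σ.2.1 0)) hwΩ).ev_ne hw
        have h3 : Tendsto (fun p => q b (ψ p)) (𝓝 (q a x')) (𝓝 w) := by
          have h4 := hc.tendsto
          simp only [hψ0] at h4
          rw [hqx'] at h4
          exact h4
        exact h3.eventually h2
      obtain ⟨O, hO1, hO2, hO3⟩ := eventually_nhds_iff.1 (hne.and hψe)
      obtain ⟨p, hpO, hpΩ⟩ := hΩd.inter_open_nonempty O hO2 ⟨_, hO3⟩
      obtain ⟨hp1, hp2, hp3⟩ := hO1 p hpO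
      have hfp : f (ψ p) = f x := hp2.trans hx'
      refine ⟨p, hpΩ, fun h0 => ?_⟩
      have h5 := ht2 0 (ψ p) hfp
      unfold TH at h5
      rw [hp3, h0, zero_mul] at h5
      have hbx : f (ψ p) ∈ U b := by rw [hfp]; exact hb
      exact mul_ne_zero hp1 (pow_ne_zero _ (hI.JP_ne e₀ hbx)) h5
    choose T hT using h1
    have hinj : Function.Injective T := by
      intro σ σ' h
      refine Subtype.ext (funext fun c => funext fun w => ?_)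
      obtain ⟨x', hx', hqx'⟩ := hI.surj b (f x) hb w
      have h3 := hT σ c x' hx'
      have h4 := hT σ' c x' hx'
      rw [h] at h3
      have h5 := h3.trans h4.symm
      unfold TH at h5
      rw [hqx'] at h5
      have hbx : f x' ∈ U b := by rw [hx']; exact hb
      exact mul_right_cancel₀ (pow_ne_zero _ (hI.JP_ne e₀ hbx)) h5
    exact ⟨Equiv.ofBijective T (Finite.injective_iff_bijective.1 hinj),
      fun σ c => hT σ c x rfl⟩
  have hsec : ∀ (σ : P) c, IsSection E₀ (fun (C : Set F) p g => IsLocalEq E₀ C g p) m κ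
      (σ.1 c) := fun σ c => h𝒮sec c (σ.1 c) (σ.2.1 c)
  obtain ⟨D, Ψ, p, hD, hΨ, hpΩ, h0, hl⟩ := rank_lemma_P (E₀ := E₀) (P := P) hκfin hκpr
    (s := fun σ c => σ.1 c) hsec (fun σ => σ.2.2) ⟨s, h𝒮mem, z, hzΩ, hz⟩ hzΩ hz hli
  refine ⟨m * D, fun C => κ C * D, fun b w => Ψ b (fun σ c => σ.1 c w), p, Nat.mul_pos hm hD,
    fun C => ?_, fun b => (hΨ b).secP hD hκfin hκpr hsec, fun b => (hΨ b).inv' e₀ f hT,
    fun C hC => hpΩ C (left_ne_zero_of_mul hC), h0, hl⟩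
  push_cast
  rw [hκ C]
  ring

end Vale.Agent.P281.ISO
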