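import Vale.Agent.P281.ISO.LiftQ
import Vale.Agent.P281.ISO.RankP
import Vale.Agent.P281.ISO.FibreBoundP
import Vale.Agent.P281.ISO.SymP515

open scoped Manifold ContDiff Topology
open Set Filter Metric Asymptotics

namespace Vale.Agent.P281.ISO

open Vale.Agent.P281 Vale.Agent.P281.MF

set_option linter.unusedSectionVars false

universe u

section Core

variable {E E' E₀ : Type} [NormedAddCommGroup E] [NormedSpace ℂ E] [FiniteDimensional ℂ E]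
  [NormedAddCommGroup E'] [NormedSpace ℂ E'] [FiniteDimensional ℂ E']
  [NormedAddCommGroup E₀] [NormedSpace ℂ E₀] [FiniteDimensional ℂ E₀]
variable {X Y F : Type u} [TopologicalSpace X] [ChartedSpace E X] [IsManifold 𝓘(ℂ, E) ω X]
  [TopologicalSpace Y] [ChartedSpace E' Y] [IsManifold 𝓘(ℂ, E') ω Y]
  [TopologicalSpace F] [ChartedSpace E₀ F] [IsManifold 𝓘(ℂ, E₀) ω F]

variable {f : X → Y} {S : Set Y} {ι : Type u} {U : ι → Set Y} {q : ι → X → F}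

/-- common denominators -/
theorem exists_denominator₂ {Δ : Set X → ℝ} (h : IsSNCBoundary E Δ) {ΔF : Set F → ℝ}
    (hF : IsSNCBoundary E₀ ΔF) : ∃ d : ℕ, 0 < d ∧ (∃ K : Set X → ℕ, ∀ D, (K D : ℝ) = d * Δ D) ∧
      ∃ KF : Set F → ℕ, ∀ C, (KF C : ℝ) = d * ΔF C := by
  obtain ⟨d₁, hd₁, K, hK, -⟩ := exists_denominator h
  obtain ⟨d₂, hd₂, KF, hKF, -⟩ := exists_denominator hF
  refine ⟨d₁ * d₂, Nat.mul_pos hd₁ hd₂, ⟨fun D => d₂ * K D, fun D => ?_⟩,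
    fun C => d₁ * KF C, fun C => ?_⟩
  · push_cast
    rw [hK]; ring
  · push_cast
    rw [hKF]; ring

/-- the main theorem for locally trivial pairs, with an abstract orbifold base `B`. -/
theorem coreQ [Nonempty X] [CompactSpace F] [PreconnectedSpace F] (hf : ∀ x, HolM E E' f x)
    (hS : IsClosed S)
    (hSd : Dense Sᶜ) (hI : Iso E E' E₀ f S U q) (hUS : ∀ a, ∀ y ∈ U a, y ∉ S)
    (e₀ : E ≃L[ℂ] (E' × E₀))
    (hthin : ∀ x, ∃ h : X → ℂ, HolV E h x ∧ (¬ ∀ᶠ z in 𝓝 x, h z = 0) ∧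
      ∀ᶠ z in 𝓝 x, (f z ∈ S → h z = 0) ∧ (h z = 0 → z ∈ closure {z | h z = 0 ∧ Good E E' f S z}))
    {ΔF : Set F → ℝ} (hsncF : IsSNCBoundary E₀ ΔF) (hlt : ∀ C, ΔF C < 1)
    (horb : ∀ (m : ℕ) (κ : Set F → ℕ) (s : F → ℂ), 0 < m → (∀ C, (κ C : ℝ) = m * ΔF C) →
      IsSection E₀ (fun (C : Set F) p g => IsLocalEq E₀ C g p) m κ s →
      ∃ 𝒮 : Set (F → ℂ), 𝒮.Finite ∧ s ∈ 𝒮 ∧
      (∀ s' ∈ 𝒮, IsSection E₀ (fun (C : Set F) p g => IsLocalEq E₀ C g p) m κ s') ∧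
      ∀ a b y, y ∈ U a → y ∈ U b → ∀ s' ∈ 𝒮, ∃ s'' ∈ 𝒮, ∀ x, f x = y →
        TH E E' E₀ e₀ f (q b) m s' x = TH E E' E₀ e₀ f (q a) m s'' x)
    {Δ : Set X → ℝ} (hsnc : IsSNCBoundary E Δ)
    (hloc : ∀ a x, f x ∈ U a → ∃ φ : Set F → Set X, InjOn φ {C | ΔF C ≠ 0 ∧ q a x ∈ C} ∧
      ∀ C, ΔF C ≠ 0 → q a x ∈ C → ΔF C ≤ Δ (φ C) ∧
        ∃ g, IsLocalEq E₀ C g (q a x) ∧ IsLocalEq E (φ C) (fun z => g (q a z)) x)
    {B : Set Y → ℝ} (hB : ∀ G, B G ≠ 0 → IsPrimeDivisor E' G ∧ G ⊆ S)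
    (hBD : ∀ (D : Set X) (G : Set Y) (κ : ℕ), IsPrimeDivisor E D → IsPrimeDivisor E' G →
      closure (f '' D) = G → 0 < κ → (∃ z ∈ D, ∃ e g w, IsLocalEq E D e z ∧
        IsLocalEq E' G g (f z) ∧ HolAt E w z ∧ w z ≠ 0 ∧ ∀ᶠ x in 𝓝 z, g (f x) = e x ^ κ * w x) →
      (κ : ℝ) * B G ≤ κ - 1 + Δ D)
    {j₁ j₂ : ℕ} (h₁ : KodGE E₀ (fun (C : Set F) p g => IsLocalEq E₀ C g p) ΔF j₁)
    (h₂ : KodGE E' (fun (G : Set Y) z g => IsLocalEq E' G g z) B j₂) :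
    KodGE E (fun (D : Set X) z g => IsLocalEq E D g z) Δ (j₁ + j₂) := by
  classical
  obtain ⟨m₁, κ₁, s, p, hm₁, hκ₁, hs, hsi, hp', hp, hli⟩ := exists_invariants_P hf hI e₀
    hsncF.finite hsncF.prime horb h₁
  obtain ⟨d, hd, ⟨K₀, hK₀⟩, KF, hKF⟩ := exists_denominator₂ hsnc hsncF
  refine kodGE_iso_P hf hS hSd hI e₀ hsnc.finite hsnc.prime (fun G hG => (hB G hG).1) hd hK₀
    hsncF.finite hsncF.prime hKF ?_ hm₁ hκ₁ hs hsi hp' hp hli h₂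
  intro m k t s hm hk ht hs hinv
  have hKD : ∀ D, m * K₀ D ≠ 0 → Δ D ≠ 0 := by
    intro D hD h0
    apply hD
    have h1 := hK₀ D
    rw [h0, mul_zero] at h1
    have h2 : K₀ D = 0 := by exact_mod_cast h1
    rw [h2]; simp
  have hKF0 : ∀ C, m * KF C ≠ 0 ↔ ΔF C ≠ 0 := by
    intro C
    have h1 := hKF C
    constructor
    · intro hC h0
      apply hC
      rw [h0, mul_zero] at h1
      have h2 : KF C = 0 := by exact_mod_cast h1
      rw [h2]; simp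
    · intro hC h0
      apply hC
      rcases Nat.mul_eq_zero.1 h0 with h2 | h2
      · omega
      · rw [h2] at h1
        have h3 : (d : ℝ) ≠ 0 := by exact_mod_cast hd.ne'
        have h4 : (d : ℝ) * ΔF C = 0 := by rw [← h1]; simp
        exact (mul_eq_zero.1 h4).resolve_left h3
  have hkB : ∀ G, k G ≠ 0 → B G ≠ 0 := by
    intro G hG h0
    have h1 := hk G
    rw [h0, mul_zero] at h1
    exact hG (by exact_mod_cast h1)
  have hκF : ∀ C, ((m * KF C : ℕ) : ℝ) = (m * d : ℕ) * ΔF C := by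
    intro C
    push_cast
    rw [hKF]; ring
  obtain ⟨σ, hσ, hσe⟩ := liftQ hf hS hI hUS e₀ hthin (κF := fun C => m * KF C) hs hinv
    (fun x₀ y y₀ hx₀ hy₀ e w g κ hκ he he0 hde hg hg0 hdg hw hw0 heq hsub hav =>
      rel_bound_P hf hI e₀ (Nat.mul_pos hm hd) (Δ := ΔF) hs
        (fun r hr => fibre_bound_klt hsncF hlt (Nat.mul_pos hm hd) hκF hs r hr)
        (hav.mono fun z hz a ha C hC => hz a ha C ((hKF0 C).2 hC))
        hx₀ hy₀ hκ he he0 hde hg hg0 hdg hw hw0 heq hsub)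
    (K := fun D => m * K₀ D) (hsnc.finite.subset fun D hD => hKD D hD)
    (fun D hD => hsnc.prime D (hKD D hD)) (fun a x hx => by
      obtain ⟨φ, hφi, hφ⟩ := hloc a x hx
      have hsub : {C | m * KF C ≠ 0 ∧ q a x ∈ C} ⊆ {C | ΔF C ≠ 0 ∧ q a x ∈ C} := by
        rintro C ⟨h1, h2⟩
        exact ⟨(hKF0 C).1 h1, h2⟩
      refine ⟨φ, hφi.mono hsub, fun C hC hqC => ?_⟩
      obtain ⟨h1, h2⟩ := hφ C ((hKF0 C).1 hC) hqC
      refine ⟨?_, h2⟩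
      have h3 : ((m * KF C : ℕ) : ℝ) ≤ ((m * K₀ (φ C) : ℕ) : ℝ) := by
        push_cast
        rw [hK₀, hKF]
        gcongr
      exact_mod_cast h3)
    (fun G hG => (hB G (hkB G hG)).1)
    (fun G hG => (hB G (hkB G hG)).2) (by
      intro D G κ hD hG hDG hκ hwit
      have h1 := hBD D G κ hD hG hDG hκ hwit
      have h3 : ((κ * k G : ℕ) : ℝ) ≤ (((m * d) * (κ - 1) + m * K₀ D : ℕ) : ℝ) := by
        push_cast [Nat.cast_sub (show 1 ≤ κ from hκ)]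
        rw [hk G, hK₀]
        push_cast
        have h4 : (0 : ℝ) ≤ m * d := by positivity
        calc (κ : ℝ) * (m * d * B G) = m * d * (κ * B G) := by ring
          _ ≤ m * d * (κ - 1 + Δ D) := by gcongr
          _ = m * d * (κ - 1) + m * (d * Δ D) := by ring
      exact_mod_cast h3) ht
  exact ⟨σ, hσ, fun a x hx _ _ _ => hσe a x hx⟩

end Core

end Vale.Agent.P281.ISO
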