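import Vale.Agent.P281.J

namespace Vale.Agent.P281.J

open scoped Manifold ContDiff Topology ENNReal
open Set

universe u

section

variable (E E' E₀ : Type) [NormedAddCommGroup E] [NormedSpace ℂ E]
  [NormedAddCommGroup E'] [NormedSpace ℂ E'] [NormedAddCommGroup E₀] [NormedSpace ℂ E₀]
variable {X Y F : Type u} [TopologicalSpace X] [ChartedSpace E X]
  [TopologicalSpace Y] [ChartedSpace E' Y] [TopologicalSpace F] [ChartedSpace E₀ F]

/-- Over `Y ∖ S` the map `f : X → Y` is a holomorphic fibre bundle with fibre `F`: the open sets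
`U a` cover `Y ∖ S`, and `(f, q a) : f⁻¹(U a) → U a × F` is bijective and holomorphic, with
injective differentials. -/
def IsFibreBundle (f : X → Y) (S : Set Y) {ι : Type u} (U : ι → Set Y) (q : ι → X → F) : Prop :=
  (∀ y, y ∉ S ↔ ∃ a, y ∈ U a) ∧
  ∀ a, IsOpen (U a) ∧ (∀ y ∈ U a, ∀ p, ∃! x, f x = y ∧ q a x = p) ∧
    ∀ x, f x ∈ U a → ContMDiffAt 𝓘(ℂ, E) 𝓘(ℂ, E₀) ω (q a) x ∧ ∀ ξ : E,
      mfderiv 𝓘(ℂ, E) 𝓘(ℂ, E') f x ξ = 0 → mfderiv 𝓘(ℂ, E) 𝓘(ℂ, E₀) (q a) x ξ = 0 → ξ = 0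

/-- Over `Y ∖ S` the pair `(X, Δ)` is locally the product of `Y` and the pair `(F, Δ_F)`: near every
point `x` of `f⁻¹(U a)`, the components of `Δ` are the pull-backs by `q a` of the components of
`Δ_F`, with the same coefficients. -/
def IsPairBundle (f : X → Y) {ι : Type u} (U : ι → Set Y) (q : ι → X → F) (Δ : Set X → ℝ)
    (ΔF : Set F → ℝ) : Prop :=
  ∀ a x, f x ∈ U a → ∃ φ : Set F → Set X,
    BijOn φ {C | ΔF C ≠ 0 ∧ q a x ∈ C} {D | Δ D ≠ 0 ∧ x ∈ D} ∧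
    ∀ C, ΔF C ≠ 0 → q a x ∈ C → Δ (φ C) = ΔF C ∧
      ∃ g, IsLocalEq E₀ C g (q a x) ∧ IsLocalEq E (φ C) (fun z => g (q a z)) x

/-- The monodromy of the bundle acts on the sections of `m (K_F + Δ_F)` through finite groups: for
`m > 0` with `m Δ_F` integral, every section `s` of `m (K_F + Δ_F)` lies in a finite set `𝒮` of
sections of `m (K_F + Δ_F)` which contains, with `s'`, the pull-backs `g^* s'` under all the
transition maps `g : F → F` of the bundle. -/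
def HasFiniteMonodromy (f : X → Y) {ι : Type u} (U : ι → Set Y) (q : ι → X → F)
    (ΔF : Set F → ℝ) : Prop :=
  ∀ (m : ℕ) (k : Set F → ℕ) (s : F → ℂ), 0 < m → (∀ C, k C = m * ΔF C) →
    IsSection E₀ (fun (C : Set F) p g => IsLocalEq E₀ C g p) m k s →
    ∃ 𝒮 : Set (F → ℂ), 𝒮.Finite ∧ s ∈ 𝒮 ∧
      (∀ s' ∈ 𝒮, IsSection E₀ (fun (C : Set F) p g => IsLocalEq E₀ C g p) m k s') ∧
      ∀ a b, ∀ y ∈ U a ∩ U b, ∀ g : F → F, (∀ x, f x = y → g (q a x) = q b x) →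
        ∀ s' ∈ 𝒮, (fun p => s' (g p) *
          ContinuousLinearMap.det (mfderiv 𝓘(ℂ, E₀) 𝓘(ℂ, E₀) g p : E₀ →L[ℂ] E₀) ^ m) ∈ 𝒮

/-- `z` is a good point: either `f z ∉ S`, or, near `z`, the set `f⁻¹(S)` is a prime divisor `D`,
smooth at `z`, over the prime divisor `G = f(D)`, smooth at `f z`, such that `f^* G = κ D` near `z`
for some `κ` and `f : D → G` is submersive near `z`. -/
def IsGood (f : X → Y) (S : Set Y) (z : X) : Prop :=
  f z ∉ S ∨ ∃ (D : Set X) (G : Set Y) (e : X → ℂ) (g : Y → ℂ) (w : X → ℂ) (κ : ℕ), IsPrime E D ∧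
    IsPrime E' G ∧ closure (f '' D) = G ∧ z ∈ D ∧ IsLocalEq E D e z ∧ dif E e z ≠ 0 ∧
    IsLocalEq E' G g (f z) ∧ dif E' g (f z) ≠ 0 ∧ HolAt E w z ∧ w z ≠ 0 ∧
    ∀ᶠ x in 𝓝 z, g (f x) = e x ^ κ * w x ∧ (f x ∈ S ↔ x ∈ D) ∧
      (x ∈ D → ∀ η : E', dif E' g (f x) η = 0 →
        ∃ ξ : E, dif E e x ξ = 0 ∧ mfderiv 𝓘(ℂ, E) 𝓘(ℂ, E') f x ξ = η)

/-- `f⁻¹(S)` is thin, and no divisor in it has an image of codimension `≥ 2`: locally, it is
contained in a hypersurface `{h = 0}` whose good points are dense. -/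
def IsThin (f : X → Y) (S : Set Y) : Prop :=
  ∀ x, ∃ h : X → ℂ, HolAt E h x ∧ (¬ ∀ᶠ z in 𝓝 x, h z = 0) ∧
    ∀ᶠ z in 𝓝 x, (f z ∈ S → h z = 0) ∧
      (h z = 0 → z ∈ closure {z | h z = 0 ∧ IsGood E E' f S z})

/-- `j : Z → X` is (biholomorphic onto) the inclusion of an open set whose complement has
codimension `≥ 2`: locally, the complement is contained in a hypersurface `{h = 0}` with
`{h = 0} ∩ j(Z)` dense in `{h = 0}`. -/
def IsBigOpen {Z : Type u} [TopologicalSpace Z] [ChartedSpace E Z] (j : Z → X) : Prop :=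
  ContMDiff 𝓘(ℂ, E) 𝓘(ℂ, E) ω j ∧ Topology.IsOpenEmbedding j ∧
    (∀ z, Function.Injective (mfderiv 𝓘(ℂ, E) 𝓘(ℂ, E) j z)) ∧
    ∀ x, ∃ h : X → ℂ, HolAt E h x ∧ (¬ ∀ᶠ z in 𝓝 x, h z = 0) ∧
      ∀ᶠ z in 𝓝 x, (z ∉ range j → h z = 0) ∧
        (h z = 0 → z ∈ closure {z | h z = 0 ∧ z ∈ range j})

open Classical in
/-- The orbifold base `B(f, Δ)` of a fibration `f : X → Y` on a possibly non compact `X`: as
`orbBase`, but the infimum runs over the prime divisors `D` of `X` such that `f(D)` is dense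
in `G`. -/
noncomputable def orbBase' (f : X → Y) (Δ : Set X → ℝ) (G : Set Y) : ℝ :=
  if IsPrime E' G then (1 - (⨅ (D : Set X) (_ : IsPrime E D ∧ closure (f '' D) = G),
    ((sInf {k : ℕ | ∃ x ∈ D, ∃ e g w, IsLocalEq E D e x ∧ IsLocalEq E' G g (f x) ∧ HolAt E w x ∧
      w x ≠ 0 ∧ ∀ᶠ z in 𝓝 x, g (f z) = e z ^ k * w z} : ℕ) : ℝ≥0∞) *
    (1 - ENNReal.ofReal (Δ D))⁻¹)⁻¹).toReal else 0

end

end Vale.Agent.P281.J
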