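import Vale.Agent.P281.ISO.Defs

namespace Vale.Agent.P281.J

open scoped Manifold ContDiff Topology ENNReal
open Set

universe u

section

variable (E E' E₀ : Type) [NormedAddCommGroup E] [NormedSpace ℂ E]
  [NormedAddCommGroup E'] [NormedSpace ℂ E'] [NormedAddCommGroup E₀] [NormedSpace ℂ E₀]
variable {X Y F : Type u} [TopologicalSpace X] [ChartedSpace E X]
  [TopologicalSpace Y] [ChartedSpace E' Y] [TopologicalSpace F] [ChartedSpace E₀ F]

/-- The prime divisor `D` dominates the prime divisor `G`: `f(D)` is dense in `G` and, at some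
smooth point of `D` over a smooth point of `G`, the differential of `f : D → G` is surjective. -/
def Dominates (f : X → Y) (D : Set X) (G : Set Y) : Prop :=
  IsPrime E D ∧ closure (f '' D) = G ∧ ∃ z ∈ D, ∃ e g, IsLocalEq E D e z ∧ dif E e z ≠ 0 ∧
    IsLocalEq E' G g (f z) ∧ dif E' g (f z) ≠ 0 ∧ ∀ η : E', dif E' g (f z) η = 0 →
      ∃ ξ : E, dif E e z ξ = 0 ∧ mfderiv 𝓘(ℂ, E) 𝓘(ℂ, E') f z ξ = η

/-- `𝒢` is a finite set of prime divisors of `Y` and the preimage of their union is a finite union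
of prime divisors, each of which dominates one of the divisors of `𝒢`. -/
def IsDivisorial (f : X → Y) (𝒢 : Set (Set Y)) : Prop :=
  𝒢.Finite ∧ (∀ G ∈ 𝒢, IsPrime E' G) ∧ ∃ 𝒟 : Set (Set X), 𝒟.Finite ∧ f ⁻¹' (⋃₀ 𝒢) = ⋃₀ 𝒟 ∧
    ∀ D ∈ 𝒟, ∃ G ∈ 𝒢, Dominates E E' f D G

/-- `q^* Δ_F ≤ Δ` over `Y ∖ S`: near every point `x` of `f⁻¹(U a)`, the pull-backs by `q a` of the
components `C` of `Δ_F` through `q a x` are distinct components of `Δ`, with coefficients at least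
those of `Δ_F`. -/
def IsSubPair (f : X → Y) {ι : Type u} (U : ι → Set Y) (q : ι → X → F) (Δ : Set X → ℝ)
    (ΔF : Set F → ℝ) : Prop :=
  ∀ a x, f x ∈ U a → ∃ φ : Set F → Set X, InjOn φ {C | ΔF C ≠ 0 ∧ q a x ∈ C} ∧
    ∀ C, ΔF C ≠ 0 → q a x ∈ C → ΔF C ≤ Δ (φ C) ∧
      ∃ g, IsLocalEq E₀ C g (q a x) ∧ IsLocalEq E (φ C) (fun z => g (q a z)) x

/-- `Δ' = Δ|_Z` for the open subset `j : Z → X` of `X`. -/
def IsRestriction {Z : Type u} (j : Z → X) (Δ : Set X → ℝ) (Δ' : Set Z → ℝ) : Prop :=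
  (∀ D, Δ D ≠ 0 → Δ' (j ⁻¹' D) = Δ D) ∧ ∀ D', Δ' D' ≠ 0 → ∃ D, Δ D ≠ 0 ∧ D' = j ⁻¹' D

end

end Vale.Agent.P281.J
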