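import Vale.Agent.P281.ISO.Nat
import Vale.Agent.P281.ISO.FibreBoundP
import Vale.Agent.P281.MF.SecExt

/-! P281: sections on an open set whose complement has codimension `≥ 2` -/

open scoped Manifold ContDiff Topology
open Set Filter Metric

namespace Vale.Agent.P281.ISO

open Vale.Agent.P281 Vale.Agent.P281.MF

set_option linter.unusedSectionVars false

universe u

section Emb

variable {E : Type} [NormedAddCommGroup E] [NormedSpace ℂ E] [FiniteDimensional ℂ E]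
variable {X Z : Type u} [TopologicalSpace X] [ChartedSpace E X] [IsManifold 𝓘(ℂ, E) ω X]
  [TopologicalSpace Z] [ChartedSpace E Z] [IsManifold 𝓘(ℂ, E) ω Z]
variable {V : Type*} [NormedAddCommGroup V] [NormedSpace ℂ V]

theorem det_ne_of_inj {A : E →L[ℂ] E} (hA : Function.Injective A) : A.det ≠ 0 := by
  have h2 : LinearMap.ker (A : E →ₗ[ℂ] E) = ⊥ := LinearMap.ker_eq_bot.2 hA
  have h3 := (LinearMap.isUnit_iff_ker_eq_bot _).2 h2
  exact (LinearMap.isUnit_det _ h3).ne_zero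

/-- a function is holomorphic at `j z` if its pull-back is holomorphic at `z` -/
theorem holV_of_comp {j : Z → X} {z : Z} (hj : HolM E E j z)
    (hj₂ : Function.Injective (dM E E j z)) {h₀ : X → V} (h : HolV E (fun w => h₀ (j w)) z) :
    HolV E h₀ (j z) := by
  have : CompleteSpace E := FiniteDimensional.complete ℂ E
  have hn : (ω : WithTop ℕ∞) ≠ 0 := by simp
  set φ := chartAt E (j z) with hφ
  set ψ := chartAt E z with hψ
  have hz : z ∈ ψ.source := mem_chart_source E z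
  have hjz : j z ∈ φ.source := mem_chart_source E (j z)
  have hφj : HolV E (fun w => φ (j w)) z := HolV.comp (HolV.chart hjz) hj
  set J : E → E := (fun w => φ (j w)) ∘ ψ.symm with hJ
  have hJc : ContDiffAt ℂ ω J (ψ z) := hφj.rep hz
  have hJ0 : J (ψ z) = φ (j z) := by
    show φ (j (ψ.symm (ψ z))) = φ (j z)
    rw [ψ.left_inv hz]
  have d1 : dV E (fun w => φ (j w)) z = (fderiv ℂ J (ψ z)).comp (dV E (ψ : Z → E) z) :=
    dV_eq_chart hz hφj
  have d2 : dV E (fun w => φ (j w)) z = (dV E (φ : X → E) (j z)).comp (dM E E j z) :=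
    dV_comp (HolV.chart hjz) hj
  have hdet : (fderiv ℂ J (ψ z)).det ≠ 0 := by
    intro h0
    have h1 := congrArg ContinuousLinearMap.det (d1.symm.trans d2)
    rw [clm_det_comp, clm_det_comp, h0, zero_mul] at h1
    exact (mul_ne_zero (jac_chart_ne_zero hjz) (det_ne_of_inj hj₂)) h1.symm
  obtain ⟨L, hL⟩ : ∃ L : E ≃L[ℂ] E, (L : E →L[ℂ] E) = fderiv ℂ J (ψ z) := by
    refine ⟨(LinearMap.equivOfDetNeZero ((fderiv ℂ J (ψ z) : E →L[ℂ] E) : E →ₗ[ℂ] E)
      hdet).toContinuousLinearEquiv, ?_⟩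
    ext v
    rfl
  have hJd : HasFDerivAt J (L : E →L[ℂ] E) (ψ z) := by
    rw [hL]
    exact (hJc.differentiableAt hn).hasFDerivAt
  set R := hJc.localInverse hJd hn with hR
  have hRc : ContDiffAt ℂ ω R (J (ψ z)) := hJc.to_localInverse hJd hn
  have hstr : HasStrictFDerivAt J (L : E →L[ℂ] E) (ψ z) := hJc.hasStrictFDerivAt' hJd hn
  have hleft : ∀ᶠ c in 𝓝 (ψ z), R (J c) = c := hstr.eventually_left_inverse
  have hright : ∀ᶠ p in 𝓝 (J (ψ z)), J (R p) = p := hstr.eventually_right_inverse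
  have hR0 : R (J (ψ z)) = ψ z := hleft.self_of_nhds
  have hRt : Tendsto R (𝓝 (J (ψ z))) (𝓝 (ψ z)) := by
    have := hRc.continuousAt.tendsto
    rwa [hR0] at this
  have hgo : Tendsto (fun p => j (ψ.symm (R p))) (𝓝 (J (ψ z))) (𝓝 (j z)) := by
    have h1 : Tendsto ψ.symm (𝓝 (ψ z)) (𝓝 z) := by
      have := (ψ.continuousAt_symm (ψ.map_source hz)).tendsto
      rwa [ψ.left_inv hz] at this
    have h2 : ContinuousAt j z := ContMDiffAt.continuousAt hj
    exact h2.tendsto.comp (h1.comp hRt)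
  refine HolV.of_rep hjz ?_
  rw [← hJ0]
  have h3 : ContDiffAt ℂ ω ((fun w => h₀ (j w)) ∘ ψ.symm) (R (J (ψ z))) := by
    rw [hR0]
    exact h.rep hz
  refine (h3.comp (J (ψ z)) hRc).congr_of_eventuallyEq ?_
  filter_upwards [hright, hgo.eventually (φ.open_source.mem_nhds hjz)] with p hp hps
  show h₀ (φ.symm p) = h₀ (j (ψ.symm (R p)))
  have h4 : φ (j (ψ.symm (R p))) = p := hp
  rw [← h4, φ.left_inv hps]
  congr 3
  rw [h4]

/-- comparison of the frames -/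
theorem emb_jac {j : Z → X} (hj : ∀ z, HolM E E j z) (hj₂ : ∀ z, Function.Injective (dM E E j z))
    {x₀ : X} {z : Z} (hz : j z ∈ (chartAt E x₀).source) : ∃ δ : Z → ℂ, HolV E δ z ∧
      ∀ᶠ w in 𝓝 z, δ w ≠ 0 ∧ (dM E E j w).det * jac E (chartAt E x₀) (j w) =
        δ w * jac E (chartAt E z) w := by
  set φ := chartAt E x₀ with hφ
  set ψ := chartAt E z with hψ
  have hzs : z ∈ ψ.source := mem_chart_source E z
  have hφj : HolV E (fun w => φ (j w)) z := HolV.comp (HolV.chart hz) (hj z)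
  set J : E → E := (fun w => φ (j w)) ∘ ψ.symm with hJ
  have hJc : ContDiffAt ℂ ω J (ψ z) := hφj.rep hzs
  have hδ : HolV E (fun w => (fderiv ℂ J (ψ w)).det) z := by
    have h1 : ContDiffAt ℂ ω (fun c => (fderiv ℂ J c).det) (ψ z) :=
      contDiff_det.contDiffAt.comp (ψ z) (hJc.fderiv_right (m := ω) (by simp))
    exact HolV.comp_contDiff (G := fun c => (fderiv ℂ J c).det) h1 (HolV.chart hzs)
  refine ⟨_, hδ, ?_⟩
  have hjc : ContinuousAt j z := ContMDiffAt.continuousAt (hj z)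
  filter_upwards [ψ.open_source.mem_nhds hzs, hjc.eventually (φ.open_source.mem_nhds hz)] with
    w hw hjw
  have d1 : dV E (fun w => φ (j w)) w = (fderiv ℂ J (ψ w)).comp (dV E (ψ : Z → E) w) :=
    dV_eq_chart hw (HolV.comp (HolV.chart hjw) (hj w))
  have d2 : dV E (fun w => φ (j w)) w = (dV E (φ : X → E) (j w)).comp (dM E E j w) :=
    dV_comp (HolV.chart hjw) (hj w)
  have h1 := congrArg ContinuousLinearMap.det (d1.symm.trans d2)
  rw [clm_det_comp, clm_det_comp] at h1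
  refine ⟨?_, ?_⟩
  · intro h0
    rw [h0, zero_mul] at h1
    exact (mul_ne_zero (jac_chart_ne_zero hjw) (det_ne_of_inj (hj₂ w))) h1.symm
  · rw [mul_comm (dM E E j w).det]
    exact h1.symm

/-- local form of the transported section -/
theorem emb_local {j : Z → X} (hj : ∀ z, HolM E E j z)
    (hj₂ : ∀ z, Function.Injective (dM E E j z)) {m : ℕ} {k' : Set Z → ℕ} {k : Set X → ℕ}
    {s : Z → ℂ} (hs : IsSection E (fun (D : Set Z) z g => IsLocalEq E D g z) m k' s)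
    {T : Finset (Set X)} {g : Set X → X → ℂ} {x₀ : X} {z : Z} (hz : j z ∈ (chartAt E x₀).source)
    (hg : ∀ D ∈ T, IsLocalEq E D (g D) (j z)) (hk : ∀ D ∈ T, k D = k' (j ⁻¹' D))
    (hk' : ∀ D', k' D' ≠ 0 → ∃ D ∈ T, D' = j ⁻¹' D) :
    ∃ H : Z → ℂ, HolV E H z ∧ ∀ᶠ w in 𝓝 z, (∀ D ∈ T, j w ∉ D) →
      s w / (dM E E j w).det ^ m * (∏ D ∈ T, g D (j w) ^ k D) / jac E (chartAt E x₀) (j w) ^ m =
        H w := by
  classical
  obtain ⟨T', g', a', hT', hg', ha', hev⟩ := hs z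
  obtain ⟨δ, hδ, hδe⟩ := emb_jac hj hj₂ hz
  have hjc : ContinuousAt j z := ContMDiffAt.continuousAt (hj z)
  set T'' := T'.filter (fun D' => k' D' ≠ 0) with hT''
  have hch : ∀ D', ∃ D, k' D' ≠ 0 → D ∈ T ∧ D' = j ⁻¹' D := by
    intro D'
    by_cases h : k' D' = 0
    · exact ⟨∅, fun h' => absurd h h'⟩
    · obtain ⟨D, h1, h2⟩ := hk' D' h
      exact ⟨D, fun _ => ⟨h1, h2⟩⟩
  choose Dc hDc using hch
  have hu : ∀ D', ∃ u : Z → ℂ, D' ∈ T'' → HolV E u z ∧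
      ∀ᶠ w in 𝓝 z, g (Dc D') (j w) = g' D' w * u w := by
    intro D'
    by_cases hD : D' ∈ T''
    · obtain ⟨h1, h2⟩ := Finset.mem_filter.1 hD
      obtain ⟨h3, h4⟩ := hDc D' h2
      obtain ⟨u, hu1, hu2⟩ := van_div (hg' D' h1)
        (HolV.comp (hg _ h3).holAt (hj z) : HolV E (fun w => g (Dc D') (j w)) z) (by
          filter_upwards [hjc.eventually (hg _ h3).eventually] with w hw hwD
          rw [h4] at hwD
          exact hw.mem_iff.1 hwD)
      exact ⟨u, fun _ => ⟨hu1, hu2⟩⟩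
    · exact ⟨0, fun h => absurd h hD⟩
  choose u hu using hu
  have hinj : InjOn Dc (T'' : Set (Set Z)) := by
    intro D₁ h₁ D₂ h₂ h
    have e1 := (hDc D₁ (Finset.mem_filter.1 h₁).2).2
    have e2 := (hDc D₂ (Finset.mem_filter.1 h₂).2).2
    rw [e1, e2, h]
  have hsub : T''.image Dc ⊆ T := by
    intro D hD
    obtain ⟨D', hD', rfl⟩ := Finset.mem_image.1 hD
    exact (hDc D' (Finset.mem_filter.1 hD').2).1
  refine ⟨fun w => a' w * (∏ D' ∈ T'', u D' w ^ k' D') *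
    (∏ D ∈ T \ T''.image Dc, g D (j w) ^ k D) / δ w ^ m, ?_, ?_⟩
  · refine HolV.div (HolV.mul (HolV.mul ha' ?_) ?_) (HolV.pow hδ m)
      (pow_ne_zero _ hδe.self_of_nhds.1)
    · exact HolV.prod fun D' hD' => HolV.pow (hu D' hD').1 _
    · exact HolV.prod fun D hD => HolV.pow
        (HolV.comp (hg D (Finset.mem_sdiff.1 hD).1).holAt (hj z) :
          HolV E (fun w => g D (j w)) z) _
  · have e1 : ∀ᶠ w in 𝓝 z, ∀ D' ∈ T'', g (Dc D') (j w) = g' D' w * u D' w := by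
      rw [Filter.eventually_all_finset]
      exact fun D' hD' => (hu D' hD').2
    have e2 : ∀ᶠ w in 𝓝 z, ∀ D' ∈ T'', (w ∈ D' ↔ g' D' w = 0) := by
      rw [Filter.eventually_all_finset]
      intro D' hD'
      filter_upwards [(hg' D' (Finset.mem_filter.1 hD').1).eventually] with w hw
      exact hw.mem_iff
    filter_upwards [hev, hδe, e1, e2, (chartAt E z).open_source.mem_nhds (mem_chart_source E z),
      hjc.eventually ((chartAt E x₀).open_source.mem_nhds hz)] with w h1 h2 h3 h4 h5 h6 hav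
    have hP' : ∏ D' ∈ T', g' D' w ^ k' D' = ∏ D' ∈ T'', g' D' w ^ k' D' := by
      rw [hT'', Finset.prod_filter]
      refine Finset.prod_congr rfl fun D' _ => ?_
      by_cases h : k' D' = 0
      · simp [h]
      · rw [if_pos h]
    have hP'0 : ∏ D' ∈ T'', g' D' w ^ k' D' ≠ 0 := by
      refine Finset.prod_ne_zero_iff.2 fun D' hD' => pow_ne_zero _ fun h0 => ?_
      obtain ⟨h7, h8⟩ := hDc D' (Finset.mem_filter.1 hD').2
      have h9 := (h4 D' hD').2 h0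
      rw [h8] at h9
      exact hav _ h7 h9
    rw [hP'] at h1
    have h7 := h1 hP'0
    have h8 : ∏ D ∈ T, g D (j w) ^ k D = (∏ D' ∈ T'', g' D' w ^ k' D') *
        (∏ D' ∈ T'', u D' w ^ k' D') * ∏ D ∈ T \ T''.image Dc, g D (j w) ^ k D := by
      rw [← Finset.prod_sdiff hsub, Finset.prod_image hinj, ← Finset.prod_mul_distrib, mul_comm]
      congr 1
      refine Finset.prod_congr rfl fun D' hD' => ?_
      have h9 := hDc D' (Finset.mem_filter.1 hD').2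
      rw [h3 D' hD', hk _ h9.1, ← h9.2, mul_pow]
    have hj0 : jac E (chartAt E x₀) (j w) ≠ 0 := jac_chart_ne_zero h6
    have hψ0 : jac E (chartAt E z) w ≠ 0 := jac_chart_ne_zero h5
    have hd0 : (dM E E j w).det ≠ 0 := det_ne_of_inj (hj₂ w)
    have hδ0 := h2.1
    rw [h8]
    have h10 : ((dM E E j w).det * jac E (chartAt E x₀) (j w)) ^ m =
        (δ w * jac E (chartAt E z) w) ^ m := by rw [h2.2]
    rw [mul_pow, mul_pow] at h10
    rw [div_mul_eq_mul_div, div_div, h10, div_eq_div_iff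
      (mul_ne_zero (pow_ne_zero _ hδ0) (pow_ne_zero _ hψ0)) (pow_ne_zero _ hδ0)]
    linear_combination (∏ D' ∈ T'', u D' w ^ k' D') *
      (∏ D ∈ T \ T''.image Dc, g D (j w) ^ k D) * δ w ^ m * h7

/-- transport of sections -/
theorem emb_section {j : Z → X} (hj : ∀ z, HolM E E j z) (hj₁ : Topology.IsOpenEmbedding j)
    (hj₂ : ∀ z, Function.Injective (dM E E j z))
    (hthin : ∀ x, ∃ h : X → ℂ, HolV E h x ∧ (¬ ∀ᶠ z in 𝓝 x, h z = 0) ∧
      ∀ᶠ z in 𝓝 x, (z ∉ range j → h z = 0) ∧ (h z = 0 → z ∈ closure {z | h z = 0 ∧ z ∈ range j}))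
    {m : ℕ} {k : Set X → ℕ} {k' : Set Z → ℕ} {T : Finset (Set X)} (hT : ∀ D, k D ≠ 0 ↔ D ∈ T)
    (hpr : ∀ D ∈ T, IsPrimeDivisor E D) (hk : ∀ D ∈ T, k D = k' (j ⁻¹' D))
    (hk' : ∀ D', k' D' ≠ 0 → ∃ D ∈ T, D' = j ⁻¹' D) {s : Z → ℂ}
    (hs : IsSection E (fun (D : Set Z) z g => IsLocalEq E D g z) m k' s) :
    ∃ σ : X → ℂ, IsSection E (fun (D : Set X) z g => IsLocalEq E D g z) m k σ ∧
      ∀ z, σ (j z) = s z / (dM E E j z).det ^ m := by
  classical
  have hdense : Dense (range j) := by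
    intro x
    obtain ⟨h, -, hne, hev⟩ := hthin x
    rw [mem_closure_iff_frequently]
    intro hcon
    apply hne
    filter_upwards [hcon, hev] with z hz hz'
    exact hz'.1 hz
  set σ₀ : X → ℂ := fun x => if h : x ∈ range j then
    s h.choose / (dM E E j h.choose).det ^ m else 0 with hσ₀
  have hσj : ∀ z, σ₀ (j z) = s z / (dM E E j z).det ^ m := by
    intro z
    have h1 : j z ∈ range j := mem_range_self z
    have h2 : h1.choose = z := hj₁.injective h1.choose_spec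
    simp only [hσ₀]
    rw [dif_pos h1, h2]
  suffices hmain : ∀ x₀ : X, ∃ (T : Finset (Set X)) (g : Set X → X → ℂ) (Q : X → ℂ),
      (∀ D, k D ≠ 0 → D ∈ T) ∧ (∀ D ∈ T, IsLocalEq E D (g D) x₀) ∧ HolV E Q x₀ ∧
      ∀ᶠ z in 𝓝 x₀, z ∈ range j → ∏ D ∈ T, g D z ^ k D ≠ 0 →
        σ₀ z * ∏ D ∈ T, g D z ^ k D = Q z * jac E (chartAt E x₀) z ^ m by
    obtain ⟨σ, hσ1, hσ2⟩ := extend_section (E := E) (K := k) (m := m) hdense (σ := σ₀) hmain
    exact ⟨σ, hσ2, fun z => by rw [hσ1 _ (mem_range_self z), hσj]⟩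
  intro x₀
  obtain ⟨h, hh, hne, hev⟩ := hthin x₀
  have hch : ∀ D, ∃ g : X → ℂ, D ∈ T → IsLocalEq E D g x₀ := by
    intro D
    by_cases hD : D ∈ T
    · obtain ⟨e, he⟩ := (hpr D hD).2.1 x₀
      exact ⟨e, fun _ => he⟩
    · exact ⟨0, fun h => absurd h hD⟩
  choose g hg using hch
  set φ := chartAt E x₀ with hφ
  have hx : x₀ ∈ φ.source := mem_chart_source E x₀
  have hP : ∀ᶠ y in 𝓝 x₀, y ∈ φ.source ∧ ∀ D ∈ T, IsLocalEq E D (g D) y := by
    refine Filter.Eventually.and (φ.open_source.mem_nhds hx) ?_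
    rw [Filter.eventually_all_finset]
    exact fun D hD => (hg D hD).eventually
  set h₀ : X → ℂ := fun y => σ₀ y * (∏ D ∈ T, g D y ^ k D) / jac E φ y ^ m with hh₀
  have hloc : ∀ z, (j z ∈ φ.source ∧ ∀ D ∈ T, IsLocalEq E D (g D) (j z)) → ∃ H : Z → ℂ,
      HolV E H z ∧ ∀ᶠ w in 𝓝 z, (∀ D ∈ T, j w ∉ D) → h₀ (j w) = H w := by
    rintro z ⟨h1, h2⟩
    obtain ⟨H, hH, hHe⟩ := emb_local (k := k) hj hj₂ hs h1 h2 hk hk'
    refine ⟨H, hH, hHe.mono fun w hw hav => ?_⟩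
    simp only [hh₀, hσj]
    exact hw hav
  have hopen : ∀ y, (∀ D ∈ T, y ∉ D) → ∀ᶠ w in 𝓝 y, ∀ D ∈ T, w ∉ D := by
    intro y hy
    rw [Filter.eventually_all_finset]
    exact fun D hD => (hpr D hD).1.isOpen_compl.mem_nhds (hy D hD)
  have hA : ∀ z, (j z ∈ φ.source ∧ ∀ D ∈ T, IsLocalEq E D (g D) (j z)) →
      (∀ D ∈ T, j z ∉ D) → HolV E h₀ (j z) := by
    intro z hz hav
    obtain ⟨H, hH, hHe⟩ := hloc z hz
    refine holV_of_comp (hj z) (hj₂ z) (hH.congr ?_)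
    have hjc : ContinuousAt j z := ContMDiffAt.continuousAt (hj z)
    filter_upwards [hHe, hjc.eventually (hopen _ hav)] with w hw hw'
    exact hw hw'
  have hB : ∀ z, (j z ∈ φ.source ∧ ∀ D ∈ T, IsLocalEq E D (g D) (j z)) →
      ∃ C : ℝ, ∀ᶠ y in 𝓝 (j z), (∀ D ∈ T, y ∉ D) → ‖h₀ y‖ ≤ C := by
    intro z hz
    obtain ⟨H, hH, hHe⟩ := hloc z hz
    refine ⟨‖H z‖ + 1, ?_⟩
    rw [← hj₁.map_nhds_eq z, eventually_map]
    have h1 : ∀ᶠ w in 𝓝 z, ‖H w‖ < ‖H z‖ + 1 :=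
      hH.continuousAt.norm.eventually_lt_const (by simp)
    filter_upwards [hHe, h1] with w hw hw1 hav
    rw [hw hav]
    exact hw1.le
  have hDenh : HolV E (fun y => h y * ∏ D ∈ T, g D y) x₀ :=
    hh.mul (HolV.prod fun D hD => (hg D hD).holAt)
  have hDne : ¬ ∀ᶠ y in 𝓝 x₀, h y * ∏ D ∈ T, g D y = 0 :=
    not_zero_mul hh (HolV.prod fun D hD => (hg D hD).holAt) hne
      (not_zero_prod (fun D hD => (hg D hD).holAt) fun D hD => leq_not_zero (hg D hD))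
  have hDenav : ∀ y, (∀ D ∈ T, IsLocalEq E D (g D) y) → h y * ∏ D ∈ T, g D y ≠ 0 →
      ∀ D ∈ T, y ∉ D := by
    intro y hy h0 D hD hyD
    exact h0 (by rw [Finset.prod_eq_zero hD ((hy D hD).mem_iff.1 hyD), mul_zero])
  obtain ⟨Q, hQ, hQe⟩ := extendM_off (h := h₀) hDenh hDne (by
    filter_upwards [hP, hev] with y hy hy' h0
    have h1 : h y ≠ 0 := left_ne_zero_of_mul h0
    have h2 : y ∈ range j := by
      by_contra h3
      exact h1 (hy'.1 h3)
    obtain ⟨z, rfl⟩ := h2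
    exact hA z hy (hDenav _ hy.2 h0)) (by
    have key : ∀ y, y ∈ range j → (∀ᶠ y' in 𝓝 y, y' ∈ φ.source ∧
        ∀ D ∈ T, IsLocalEq E D (g D) y') → ∃ C : ℝ, ∀ᶠ w in 𝓝 y,
        h w * ∏ D ∈ T, g D w ≠ 0 → ‖h₀ w‖ ≤ C := by
      rintro _ ⟨z, rfl⟩ hy
      obtain ⟨C, hC⟩ := hB z hy.self_of_nhds
      refine ⟨C, ?_⟩
      filter_upwards [hC, hy] with w hw hw' h0
      exact hw (hDenav w hw'.2 h0)
    filter_upwards [hP.eventually_nhds, hev] with y hy hy' h0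
    by_cases hyj : y ∈ range j
    · exact subset_closure ⟨h0, key y hyj hy⟩
    · have h1 := mem_closure_iff_frequently.1 (hy'.2 (hy'.1 hyj))
      rw [mem_closure_iff_frequently]
      refine (h1.and_eventually hy.eventually_nhds).mono ?_
      rintro y₁ ⟨⟨h2, h3⟩, h4⟩
      exact ⟨by rw [h2, zero_mul], key y₁ h3 h4⟩)
  refine ⟨T, g, Q, fun D hD => (hT D).1 hD, fun D hD => hg D hD, hQ, ?_⟩
  filter_upwards [hP, hQ.eventually, hQe.eventually_nhds, ne_frequently hDenh hDne] with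
    y hy hQy hQey hfr hyj h0
  obtain ⟨z, rfl⟩ := hyj
  have hav : ∀ D ∈ T, j z ∉ D := by
    intro D hD hyD
    refine h0 (Finset.prod_eq_zero hD ?_)
    rw [(hy.2 D hD).mem_iff.1 hyD, zero_pow ((hT D).2 hD)]
  have h1 : HolV E h₀ (j z) := hA z hy hav
  have h2 : h₀ (j z) = Q (j z) := by
    by_contra hcon
    have h3 : ContinuousAt (fun y => h₀ y - Q y) (j z) := h1.continuousAt.sub hQy.continuousAt
    have h4 : ∀ᶠ y in 𝓝 (j z), h₀ y - Q y ≠ 0 := h3.eventually_ne (sub_ne_zero.2 hcon)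
    obtain ⟨w, hw1, hw2, hw3⟩ := (hfr.and_eventually (h4.and hQey)).exists
    exact hw2 (sub_eq_zero.2 (hw3 hw1))
  have h3 : jac E φ (j z) ^ m ≠ 0 := pow_ne_zero _ (jac_chart_ne_zero hy.1)
  rw [← h2]
  simp only [hh₀]
  rw [div_mul_cancel₀ _ h3]

/-- **Kodaira dimensions and open sets with complement of codimension `≥ 2`.** -/
theorem kodGE_emb {j : Z → X} (hj : ∀ z, HolM E E j z) (hj₁ : Topology.IsOpenEmbedding j)
    (hj₂ : ∀ z, Function.Injective (dM E E j z))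
    (hthin : ∀ x, ∃ h : X → ℂ, HolV E h x ∧ (¬ ∀ᶠ z in 𝓝 x, h z = 0) ∧
      ∀ᶠ z in 𝓝 x, (z ∉ range j → h z = 0) ∧ (h z = 0 → z ∈ closure {z | h z = 0 ∧ z ∈ range j}))
    {Δ : Set X → ℝ} (hfin : {D | Δ D ≠ 0}.Finite) (hpr : ∀ D, Δ D ≠ 0 → IsPrimeDivisor E D)
    {Δ' : Set Z → ℝ} (hΔ : ∀ D, Δ D ≠ 0 → Δ' (j ⁻¹' D) = Δ D)
    (hΔ' : ∀ D', Δ' D' ≠ 0 → ∃ D, Δ D ≠ 0 ∧ D' = j ⁻¹' D) {n : ℕ}
    (h : KodGE E (fun (D : Set Z) z g => IsLocalEq E D g z) Δ' n) :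
    KodGE E (fun (D : Set X) z g => IsLocalEq E D g z) Δ n := by
  classical
  obtain ⟨m, k', s, z, hm, hkΔ', hs, hz, hs0, hind⟩ := h
  set k : Set X → ℕ := fun D => if Δ D ≠ 0 then k' (j ⁻¹' D) else 0 with hkd
  have hkΔ : ∀ D, (k D : ℝ) = m * Δ D := by
    intro D
    by_cases hD : Δ D = 0
    · simp [hkd, hD]
    · simp only [hkd]
      rw [if_pos hD, hkΔ', hΔ D hD]
  have hk0 : ∀ D, k D ≠ 0 ↔ Δ D ≠ 0 := kappa_ne (F := X) hm hkΔ
  have hk0' : ∀ D', k' D' ≠ 0 ↔ Δ' D' ≠ 0 := kappa_ne (F := Z) hm hkΔ'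
  have hT : ∀ D, k D ≠ 0 ↔ D ∈ hfin.toFinset := fun D => by
    rw [hk0, hfin.mem_toFinset]
    rfl
  have hkj : ∀ D ∈ hfin.toFinset, k D = k' (j ⁻¹' D) := fun D hD => by
    simp only [hkd]
    rw [if_pos ((hk0 D).1 ((hT D).2 hD))]
  have hk'T : ∀ D', k' D' ≠ 0 → ∃ D ∈ hfin.toFinset, D' = j ⁻¹' D := by
    intro D' hD'
    obtain ⟨D, h1, h2⟩ := hΔ' D' ((hk0' D').1 hD')
    exact ⟨D, hfin.mem_toFinset.2 h1, h2⟩
  choose σ hσ hσj using fun b => emb_section (m := m) hj hj₁ hj₂ hthin hT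
    (fun D hD => hpr D ((hk0 D).1 ((hT D).2 hD))) hkj hk'T (hs b)
  have hdet : ∀ w, (dM E E j w).det ^ m ≠ 0 := fun w => pow_ne_zero _ (det_ne_of_inj (hj₂ w))
  have hav' : ∀ D', k' D' ≠ 0 → z ∉ D' := by
    intro D' hD'
    obtain ⟨g', h1, h2⟩ := hz D' hD'
    exact fun h3 => h2 (h1.mem_iff.1 h3)
  refine ⟨m, k, σ, j z, hm, hkΔ, hσ, fun D hD => ?_, ?_, ?_⟩
  · obtain ⟨g, hg⟩ := (hpr D ((hk0 D).1 hD)).2.1 (j z)
    refine ⟨g, hg, fun h0 => ?_⟩
    exact hav' (j ⁻¹' D) (by rw [← hkj D ((hT D).1 hD)]; exact hD) (hg.mem_iff.2 h0)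
  · rw [hσj]
    exact div_ne_zero hs0 (hdet z)
  · -- the quotients
    have hq : ∀ b, (fun w => σ b (j w) / σ 0 (j w)) = fun w => s b w / s 0 w := by
      intro b
      funext w
      rw [hσj, hσj, div_div_div_cancel_right₀ (hdet w)]
    have hhol : ∀ b, HolV E (fun w => s b w / s 0 w) z := by
      intro b
      obtain ⟨a₀, ha₀, hae₀⟩ := formAt_of_avoid (hs 0) hav'
      obtain ⟨a, ha, hae⟩ := formAt_of_avoid (hs b) hav'
      have h1 : a₀ z ≠ 0 := by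
        intro h0
        apply hs0
        rw [hae₀.self_of_nhds, h0, zero_mul]
      refine (HolV.div ha ha₀ h1).congr ?_
      filter_upwards [hae, hae₀, (chartAt E z).open_source.mem_nhds (mem_chart_source E z)] with
        w hw hw0 hws
      rw [hw, hw0, mul_div_mul_right _ _ (pow_ne_zero _ (jac_chart_ne_zero hws))]
    have hhol' : ∀ b, HolV E (fun y => σ b y / σ 0 y) (j z) := fun b =>
      holV_of_comp (hj z) (hj₂ z) (by rw [hq b]; exact hhol b)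
    let Λ : (E →L[ℂ] ℂ) →ₗ[ℂ] (E →L[ℂ] ℂ) :=
      { toFun := fun f => f.comp (dM E E j z)
        map_add' := fun f f' => ContinuousLinearMap.add_comp _ _ _
        map_smul' := fun c f => ContinuousLinearMap.smul_comp _ _ _ }
    refine LinearIndependent.of_comp Λ ?_
    have h2 : (Λ ∘ fun b : Fin n => dif E (fun w => σ b.succ w / σ 0 w) (j z)) =
        fun b : Fin n => dif E (fun w => s b.succ w / s 0 w) z := by
      funext b
      have h3 := dif_comp (hhol' b.succ) (hj z)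
      rw [hq b.succ] at h3
      exact h3.symm
    rw [h2]
    exact hind

end Emb

end Vale.Agent.P281.ISO
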