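import Vale.Agent.P281.MF.Div

open scoped Manifold ContDiff Topology
open Set Filter Metric

namespace Vale.Agent.P281.MF

open Vale.Agent.P281

set_option linter.unusedSectionVars false

universe u

section Off

variable {E : Type} [NormedAddCommGroup E] [NormedSpace ℂ E] [FiniteDimensional ℂ E]

/-- Riemann extension across a hypersurface, boundedness being only assumed near the points of a
dense subset. -/
theorem extend_off {h Den : E → ℂ} {x₀ : E}
    (hD : AnalyticAt ℂ Den x₀) (hne : ¬ ∀ᶠ x in 𝓝 x₀, Den x = 0)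
    (hh : ∀ᶠ x in 𝓝 x₀, Den x ≠ 0 → DifferentiableAt ℂ h x)
    (hb : ∀ᶠ x in 𝓝 x₀, Den x = 0 → x ∈ closure {y | Den y = 0 ∧
      ∃ C : ℝ, ∀ᶠ z in 𝓝 y, Den z ≠ 0 → ‖h z‖ ≤ C}) :
    ∃ Q : E → ℂ, AnalyticAt ℂ Q x₀ ∧ ∀ᶠ x in 𝓝 x₀, Den x ≠ 0 → h x = Q x := by
  set R : Set E := {y | Den y = 0 ∧ ∃ C : ℝ, ∀ᶠ z in 𝓝 y, Den z ≠ 0 → ‖h z‖ ≤ C} with hR
  obtain ⟨η, r, ρ, c, M, hr, hρ, hc, h1, h2, h3⟩ := exists_radii hD hD hne (hh.and hb)
  have hRo : ∀ x ∈ R, ∀ᶠ y in 𝓝 x, Den y = 0 → y ∈ R := by
    rintro x ⟨hx0, C, hC⟩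
    filter_upwards [eventually_eventually_nhds.2 hC] with y hy hy0
    exact ⟨hy0, C, hy⟩
  have hfin : ∀ z ∈ ball x₀ r, {t : ℂ | ‖t‖ ≤ ρ ∧ Den (z + t • η) = 0}.Finite := by
    intro z hz
    refine finite_zeros (f := fun t => Den (z + t • η)) (M := M) hρ hc ?_ (h2 z hz) ?_
    · intro t ht
      rw [mem_ball_zero_iff] at ht
      exact (DifferentiableAt.comp (g := Den) (f := fun t : ℂ => z + t • η) t
        (h1 z hz t ht).self_of_nhds.1 (by fun_prop)).differentiableWithinAt
    · have hn : ‖(ρ : ℂ)‖ = ρ := by rw [Complex.norm_real, Real.norm_of_nonneg hρ.le]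
      exact h3 z hz (ρ : ℂ) (by rw [hn]; linarith) (by rw [hn]; linarith)
  -- the Cauchy integral
  set Q : E → ℂ := fun z => (2 * Real.pi * Complex.I)⁻¹ *
    ∮ t in C(0, ρ), t⁻¹ * h (z + t • η) with hQ
  have hQd : DifferentiableOn ℂ Q (ball x₀ r) := by
    have hop : IsOpen {t : ℂ | ρ / 2 < ‖t‖ ∧ ‖t‖ < 2 * ρ} :=
      (isOpen_lt continuous_const continuous_norm).inter (isOpen_lt continuous_norm continuous_const)
    have := differentiableOn_circleIntegral (E := E) (F := ℂ) (c := 0) (R := ρ) hρ.le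
      (G := fun p : E × ℂ => p.2⁻¹ * h (p.1 + p.2 • η))
      (U := ball x₀ r) isOpen_ball hop (by
        intro t ht
        rw [mem_sphere_zero_iff_norm] at ht
        constructor <;> linarith) (by
        rintro ⟨z, t⟩ ⟨hz, ht1, ht2⟩
        simp only at hz ht1 ht2
        have hd1 := (h1 z hz t (by linarith)).self_of_nhds
        have hlin : DifferentiableAt ℂ (fun p : E × ℂ => p.1 + p.2 • η) (z, t) := by fun_prop
        have hne0 : Den (z + t • η) ≠ 0 := by
          have := h3 z hz t ht1.le ht2.le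
          intro h
          rw [h, norm_zero] at this
          linarith
        have hd2 : DifferentiableAt ℂ (fun p : E × ℂ => h (p.1 + p.2 • η)) (z, t) :=
          DifferentiableAt.comp (g := h) (f := fun p : E × ℂ => p.1 + p.2 • η) (z, t)
            (hd1.2.2.1 hne0) hlin
        have ht0 : t ≠ 0 := by
          rintro rfl
          rw [norm_zero] at ht1
          linarith
        have hd4 : DifferentiableAt ℂ (fun p : E × ℂ => p.2⁻¹) (z, t) :=
          differentiableAt_snd.inv ht0
        exact (hd4.mul hd2).differentiableWithinAt)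
    exact this.const_mul _
  have hQeq : ∀ z ∈ ball x₀ r, Den z ≠ 0 →
      (∀ t : ℂ, ‖t‖ < ρ → Den (z + t • η) = 0 → z + t • η ∈ R) → Q z = h z := by
    intro z hz hz0 hzg
    set f : ℂ → ℂ := fun t => h (z + t • η) with hf
    set S := (hfin z hz).toFinset with hS
    have hmemS : ∀ t, t ∈ S ↔ ‖t‖ ≤ ρ ∧ Den (z + t • η) = 0 := by
      intro t
      rw [hS, Set.Finite.mem_toFinset]
      rfl
    have hne' : ∀ t : ℂ, ‖t‖ < 2 * ρ → t ∉ S → Den (z + t • η) ≠ 0 := by
      intro t ht htS h
      rw [hmemS, not_and] at htS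
      by_cases h5 : ‖t‖ ≤ ρ
      · exact htS h5 h
      · have := h3 z hz t (by linarith) ht.le
        rw [h, norm_zero] at this
        linarith
    obtain ⟨g, hg1, hg2⟩ := extend_finite (U := ball (0 : ℂ) (2 * ρ)) isOpen_ball S f (by
        rintro t ⟨ht1, ht2⟩
        rw [mem_ball_zero_iff] at ht1
        have hd1 := (h1 z hz t (by linarith)).self_of_nhds
        have hlin : DifferentiableAt ℂ (fun t : ℂ => z + t • η) t := by fun_prop
        exact (DifferentiableAt.comp (g := h) (f := fun t : ℂ => z + t • η) t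
          (hd1.2.2.1 (hne' t ht1 (by simpa using ht2))) hlin).differentiableWithinAt) (by
        intro s hs _
        rw [hmemS] at hs
        have hsρ : ‖s‖ < ρ := by
          rcases hs.1.lt_or_eq with h | h
          · exact h
          · have := h3 z hz s (by linarith) (by linarith)
            rw [hs.2, norm_zero] at this
            linarith
        obtain ⟨-, C, hC⟩ := hzg s hsρ hs.2
        refine ⟨C, ?_⟩
        have h8 : ContinuousAt (fun t : ℂ => z + t • η) s := by fun_prop
        have h9 : ∀ᶠ t : ℂ in 𝓝[≠] s, t ∉ (S : Set ℂ) \ {s} :=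
          nhdsWithin_le_nhds ((S.finite_toSet.subset sdiff_subset).isClosed.isOpen_compl.mem_nhds
            (fun h => h.2 rfl))
        have h10 : ∀ᶠ t : ℂ in 𝓝[≠] s, ‖t‖ < 2 * ρ := by
          refine nhdsWithin_le_nhds ?_
          exact continuous_norm.continuousAt.eventually_lt_const (by linarith)
        filter_upwards [nhdsWithin_le_nhds (h8.eventually hC), h9, h10, self_mem_nhdsWithin]
          with t ht ht9 ht10 hts
        exact ht (hne' t ht10 fun hS => ht9 ⟨hS, hts⟩))
    have h0S : (0 : ℂ) ∉ S := by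
      rw [hmemS, zero_smul, add_zero]
      exact fun h => hz0 h.2
    have hint : (∮ t in C(0, ρ), t⁻¹ * h (z + t • η)) =
        ∮ t in C(0, ρ), (t - 0)⁻¹ • g t := by
      refine circleIntegral.integral_congr hρ.le fun t ht => ?_
      rw [mem_sphere_zero_iff_norm] at ht
      have htS : t ∉ S := by
        rw [hmemS]
        rintro ⟨-, h⟩
        have := h3 z hz t (by linarith) (by linarith)
        rw [h, norm_zero] at this
        linarith
      simp only [sub_zero, smul_eq_mul]
      rw [hg2 t htS]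
    have hdc : DiffContOnCl ℂ g (ball 0 ρ) := by
      refine DifferentiableOn.diffContOnCl (hg1.mono ?_)
      rw [closure_ball _ hρ.ne']
      exact closedBall_subset_ball (by linarith)
    have hcauchy := hdc.circleIntegral_sub_inv_smul (w := 0) (mem_ball_self hρ)
    simp only [hQ]
    rw [hint, hcauchy, hg2 0 h0S, smul_eq_mul, ← mul_assoc, inv_mul_cancel₀, one_mul]
    · simp [hf]
    · simp [Real.pi_ne_zero]
  refine ⟨Q, analyticOnNhd_of_differentiableOn isOpen_ball hQd x₀ (mem_ball_self hr), ?_⟩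
  filter_upwards [ball_mem_nhds x₀ hr] with z hz hz0
  have hz1 := (h1 z hz 0 (by simp; positivity)).self_of_nhds
  rw [zero_smul, add_zero] at hz1
  have hch : ContinuousAt h z := (hz1.2.2.1 hz0).continuousAt
  have hcQ : ContinuousAt Q z := (hQd.differentiableAt (isOpen_ball.mem_nhds hz)).continuousAt
  -- the good points are dense
  have hfr : ∃ᶠ y in 𝓝 z, h y = Q y := by
    rw [Metric.nhds_basis_ball.frequently_iff]
    intro ε hε
    obtain ⟨δ, hδ, hδs⟩ := Metric.mem_nhds_iff.1 (inter_mem (inter_mem (isOpen_ball.mem_nhds hz)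
      (ball_mem_nhds z hε)) (hz1.1.continuousAt.eventually_ne hz0))
    obtain ⟨z₁, hz₁, hgood⟩ := good_line (P := Den) (R := R) (η := η) (c := c) (M := M)
      (x₀ := z) (r := δ) hδ hρ hc
      (fun w hw t ht => (h1 w (hδs hw).1.1 t ht).mono fun y hy => hy.1)
      (fun w hw t ht => h2 w (hδs hw).1.1 t ht)
      (fun w hw t ht => h3 w (hδs hw).1.1 t (by linarith) (by linarith)) hRo (fun x hx => hx.1)
      (fun w hw t ht h0 => (h1 w (hδs hw).1.1 t (by linarith)).self_of_nhds.2.2.2 h0)
    exact ⟨z₁, (hδs hz₁).1.2, (hQeq z₁ (hδs hz₁).1.1 (hδs hz₁).2 hgood).symm⟩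
  by_contra hcon
  have h4 : ∀ᶠ y in 𝓝 z, h y ≠ Q y := by
    have h5 : ContinuousAt (fun y => h y - Q y) z := hch.sub hcQ
    filter_upwards [h5.eventually_ne (sub_ne_zero.2 hcon)] with y hy
    exact sub_ne_zero.1 hy
  exact hfr (h4.mono fun y hy => hy)

end Off

section OffM

variable {E : Type} [NormedAddCommGroup E] [NormedSpace ℂ E] [FiniteDimensional ℂ E]
variable {X : Type u} [TopologicalSpace X] [ChartedSpace E X] [IsManifold 𝓘(ℂ, E) ω X]

theorem extendM_off {h Den : X → ℂ} {x : X} (hD : HolV E Den x)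
    (hne : ¬ ∀ᶠ z in 𝓝 x, Den z = 0) (hh : ∀ᶠ z in 𝓝 x, Den z ≠ 0 → HolV E h z)
    (hb : ∀ᶠ z in 𝓝 x, Den z = 0 → z ∈ closure {y | Den y = 0 ∧
      ∃ C : ℝ, ∀ᶠ w in 𝓝 y, Den w ≠ 0 → ‖h w‖ ≤ C}) :
    ∃ Q : X → ℂ, HolV E Q x ∧ ∀ᶠ z in 𝓝 x, Den z ≠ 0 → h z = Q z := by
  set φ := chartAt E x with hφ
  have hx : x ∈ φ.source := mem_chart_source E x
  obtain ⟨Q, hQ, hQe⟩ := extend_off (E := E) (h := h ∘ φ.symm) (Den := Den ∘ φ.symm)
    (x₀ := φ x) (rep_analytic hD) (by
      intro h
      apply hne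
      filter_upwards [(tendsto_chart x).eventually h, φ.open_source.mem_nhds hx] with z hz hzs
      have : Den (φ.symm (φ z)) = 0 := hz
      rwa [φ.left_inv hzs] at this) (by
      filter_upwards [(tendsto_symm x).eventually hh, φ.open_target.mem_nhds (φ.map_source hx)]
        with w hw hwt hw0
      have h1 := (hw hw0).rep (x₀ := x) (φ.map_target hwt)
      rw [show chartAt E x (φ.symm w) = w from φ.right_inv hwt] at h1
      exact h1.differentiableAt (by simp)) (by
      filter_upwards [(tendsto_symm x).eventually hb, φ.open_target.mem_nhds (φ.map_source hx)]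
        with w hw hwt hw0
      have h1 := mem_closure_iff_frequently.1 (hw hw0)
      rw [mem_closure_iff_frequently]
      have hws : φ.symm w ∈ φ.source := φ.map_target hwt
      have h2 : Tendsto φ (𝓝 (φ.symm w)) (𝓝 w) := by
        have := (φ.continuousAt hws).tendsto
        rwa [φ.right_inv hwt] at this
      refine h2.frequently ?_
      refine (h1.and_eventually (φ.open_source.mem_nhds hws)).mono ?_
      rintro y ⟨⟨hy0, C, hC⟩, hys⟩
      refine ⟨by simp only [Function.comp_apply, φ.left_inv hys]; exact hy0, C, ?_⟩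
      have h3 : Tendsto φ.symm (𝓝 (φ y)) (𝓝 y) := by
        have := (φ.continuousAt_symm (φ.map_source hys)).tendsto
        rwa [φ.left_inv hys] at this
      exact h3.eventually hC)
  refine ⟨fun z => Q (φ z), of_analytic hQ, ?_⟩
  filter_upwards [(tendsto_chart x).eventually hQe, φ.open_source.mem_nhds hx] with z hz hzs hz0
  have h4 : Den (φ.symm (φ z)) ≠ 0 → h (φ.symm (φ z)) = Q (φ z) := hz
  rw [φ.left_inv hzs] at h4
  exact h4 hz0

end OffM

end Vale.Agent.P281.MF
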