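import Vale.Agent.P281.ISO.LiftP

open scoped Manifold ContDiff Topology
open Set Filter Metric Asymptotics

namespace Vale.Agent.P281.ISO

open Vale.Agent.P281 Vale.Agent.P281.MF

set_option linter.unusedSectionVars false

universe u

section Factor

variable {E : Type} [NormedAddCommGroup E] [NormedSpace ℂ E] [FiniteDimensional ℂ E]
variable {X : Type u} [TopologicalSpace X] [ChartedSpace E X] [IsManifold 𝓘(ℂ, E) ω X]

theorem bound_van {D : Set X} {g g' : X → ℂ} {x : X}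
    (h : IsLocalEq E D g x) (h' : HolV E g' x) (hv : ∀ᶠ z in 𝓝 x, z ∈ D → g' z = 0)
    (hd : x ∈ D → dif E g x ≠ 0) :
    ∃ C : ℝ, ∀ᶠ z in 𝓝 x, ‖g' z‖ ≤ C * ‖g z‖ := by
  by_cases hxD : x ∈ D
  · have hx : x ∈ (chartAt E x).source := mem_chart_source E x
    have hg : HolV E g x := h.holAt
    have hcont : ContinuousAt (chartAt E x).symm (chartAt E x x) :=
      (chartAt E x).continuousAt_symm ((chartAt E x).map_source hx)
    have key := flat_bound (g := g ∘ (chartAt E x).symm) (g' := g' ∘ (chartAt E x).symm)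
      (x := chartAt E x x) ((hg.rep hx).of_le (by simp)) ((h'.rep hx).of_le (by simp))
      (by
        intro h0
        apply hd hxD
        rw [dif_eq_dV, dV_eq_chart hx hg, h0]
        ext; simp only [ContinuousLinearMap.zero_comp, zero_apply])
      (by
        simp only [Function.comp_apply, (chartAt E x).left_inv hx]
        exact h.mem_iff.1 hxD)
      (by
        have hev : ∀ᶠ z in 𝓝 x, g z = 0 → g' z = 0 := by
          filter_upwards [h.eventually, hv] with z hz hz' h0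
          exact hz' (hz.mem_iff.2 h0)
        have : Tendsto (chartAt E x).symm (𝓝 (chartAt E x x)) (𝓝 x) := by
          have := hcont.tendsto
          rwa [(chartAt E x).left_inv hx] at this
        exact this.eventually hev)
    obtain ⟨C, hC⟩ := key
    refine ⟨C, ?_⟩
    have h1 := ((chartAt E x).continuousAt hx).tendsto.eventually hC
    filter_upwards [h1, (chartAt E x).open_source.mem_nhds hx] with z hz hzs
    simpa only [Function.comp_apply, (chartAt E x).left_inv hzs] using hz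
  · have hgx : g x ≠ 0 := fun h0 => hxD (h.mem_iff.2 h0)
    refine ⟨(‖g' x‖ + 1) / (‖g x‖ / 2), ?_⟩
    have h1 : ∀ᶠ z in 𝓝 x, ‖g x‖ / 2 < ‖g z‖ :=
      h.holAt.continuousAt.norm.eventually_const_lt (by
        have := norm_pos_iff.2 hgx
        linarith only [this])
    have h2 : ∀ᶠ z in 𝓝 x, ‖g' z‖ < ‖g' x‖ + 1 :=
      h'.continuousAt.norm.eventually_lt_const (by linarith)
    have hpos := norm_pos_iff.2 hgx
    filter_upwards [h1, h2] with z hz1 hz2
    rw [div_mul_eq_mul_div, le_div_iff₀ (by positivity)]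
    have h0 : 0 ≤ ‖g' x‖ := norm_nonneg _
    nlinarith only [hpos, hz1, hz2, h0]

/-- a function vanishing on `D` is divisible by the equation of `D`. -/
theorem van_div {D : Set X} {e h : X → ℂ} {x : X} (he : IsLocalEq E D e x) (hh : HolV E h x)
    (hv : ∀ᶠ z in 𝓝 x, z ∈ D → h z = 0) :
    ∃ w : X → ℂ, HolV E w x ∧ ∀ᶠ z in 𝓝 x, h z = e z * w z := by
  refine extendM hh he.holAt (leq_not_zero he) ?_
  filter_upwards [he.eventually, leq_dense_dif he, eventually_eventually_nhds.2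
    (he.eventually.and (hh.eventually.and hv)), eventually_eventually_nhds.2
    (eventually_eventually_nhds.2 hv)] with z hz hzd hze hzv hz0
  have h1 := mem_closure_iff_frequently.1 (hzd (hz.mem_iff.2 hz0))
  rw [mem_closure_iff_frequently]
  refine (h1.and_eventually (hze.and hzv)).mono ?_
  rintro y ⟨⟨hyD, hyd⟩, ⟨hye, hyh, -⟩, hyv⟩
  exact ⟨hye.mem_iff.1 hyD, bound_van hye hyh hyv fun _ => hyd⟩

/-- the order of vanishing along `D` is finite. -/
theorem ord_bounded {e h : X → ℂ} {x : X} (he : HolV E e x) (he0 : e x = 0) (hh : HolV E h x)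
    (hne : ¬ ∀ᶠ z in 𝓝 x, h z = 0) : ∃ N : ℕ, ∀ (κ : ℕ) (w : X → ℂ), HolV E w x →
      (∀ᶠ z in 𝓝 x, h z = e z ^ κ * w z) → κ ≤ N := by
  set φ := chartAt E x with hφ
  have hx : x ∈ φ.source := mem_chart_source E x
  have hA : AnalyticAt ℂ (h ∘ φ.symm) (φ x) := rep_analytic hh
  have hB : AnalyticAt ℂ (e ∘ φ.symm) (φ x) := rep_analytic he
  obtain ⟨r, hr, hball⟩ := Metric.mem_nhds_iff.1 (inter_mem hA.eventually_analyticAt
    (φ.open_target.mem_nhds (φ.map_source hx)))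
  have hne' : ∃ p ∈ ball (φ x) r, (h ∘ φ.symm) p ≠ 0 := by
    by_contra hcon
    push Not at hcon
    apply hne
    filter_upwards [(tendsto_chart x).eventually (ball_mem_nhds (φ x) hr),
      φ.open_source.mem_nhds hx] with z hz hzs
    have : h (φ.symm (φ z)) = 0 := hcon _ hz
    rwa [φ.left_inv hzs] at this
  obtain ⟨p, hp, hp0⟩ := hne'
  set ℓ : ℂ → E := fun t => φ x + t • (p - φ x) with hℓ
  have hℓa : ∀ t, AnalyticAt ℂ ℓ t := fun t =>
    (analyticAt_const.add (analyticAt_id.smul analyticAt_const))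
  have hℓ0 : ℓ 0 = φ x := by simp [hℓ]
  have hℓ1 : ℓ 1 = p := by simp [hℓ]
  have hℓc : Continuous ℓ := by
    rw [hℓ]; fun_prop
  have hconv : Convex ℝ (ℓ ⁻¹' ball (φ x) r) := by
    intro s hs t ht a b ha hb hab
    have h1 := (convex_ball (φ x) r) hs ht ha hb hab
    have h2 : ℓ (a • s + b • t) = a • ℓ s + b • ℓ t := by
      simp only [hℓ]
      set v := p - φ x with hv
      have h4 : a • (φ x + s • v) + b • (φ x + t • v) =
          (a • φ x + b • φ x) + (a • s • v + b • t • v) := by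
        rw [smul_add, smul_add]; abel
      rw [h4, ← add_smul, hab, one_smul, add_smul, smul_assoc, smul_assoc]
    show ℓ (a • s + b • t) ∈ ball (φ x) r
    rw [h2]; exact h1
  have hana : AnalyticOnNhd ℂ ((h ∘ φ.symm) ∘ ℓ) (ℓ ⁻¹' ball (φ x) r) := fun t ht =>
    AnalyticAt.comp (hball ht).1 (hℓa t)
  have h0mem : (0 : ℂ) ∈ ℓ ⁻¹' ball (φ x) r := by
    rw [mem_preimage, hℓ0]; exact mem_ball_self hr
  have h1mem : (1 : ℂ) ∈ ℓ ⁻¹' ball (φ x) r := by
    rw [mem_preimage, hℓ1]; exact hp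
  have hAℓ : AnalyticAt ℂ ((h ∘ φ.symm) ∘ ℓ) 0 := hana 0 h0mem
  have hord : analyticOrderAt ((h ∘ φ.symm) ∘ ℓ) 0 ≠ ⊤ := by
    intro htop
    rw [analyticOrderAt_eq_top] at htop
    have h2 := hana.eqOn_zero_of_preconnected_of_eventuallyEq_zero hconv.isPreconnected h0mem
      htop h1mem
    apply hp0
    have h3 : (h ∘ φ.symm) (ℓ 1) = 0 := h2
    rwa [hℓ1] at h3
  obtain ⟨N, hN⟩ := ENat.ne_top_iff_exists.1 hord
  refine ⟨N, fun κ w hw heq => ?_⟩
  have hBℓ : AnalyticAt ℂ ((e ∘ φ.symm) ∘ ℓ) 0 :=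
    AnalyticAt.comp (by rw [hℓ0]; exact hB) (hℓa 0)
  have hWℓ : AnalyticAt ℂ ((w ∘ φ.symm) ∘ ℓ) 0 :=
    AnalyticAt.comp (by rw [hℓ0]; exact rep_analytic hw) (hℓa 0)
  obtain ⟨b, hb, hbe⟩ := (natCast_le_analyticOrderAt hBℓ (n := 1)).1 (by
    rw [Nat.cast_one]
    refine Order.one_le_iff_ne_zero.2 ?_
    rw [hBℓ.analyticOrderAt_ne_zero]
    show e (φ.symm (ℓ 0)) = 0
    rw [hℓ0, φ.left_inv hx, he0])
  have h5 : (κ : ℕ∞) ≤ analyticOrderAt ((h ∘ φ.symm) ∘ ℓ) 0 := by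
    rw [natCast_le_analyticOrderAt hAℓ]
    refine ⟨fun t => b t ^ κ * ((w ∘ φ.symm) ∘ ℓ) t, (hb.pow κ).mul hWℓ, ?_⟩
    have h6 : Tendsto (φ.symm ∘ ℓ) (𝓝 0) (𝓝 x) := by
      have h7 : Tendsto ℓ (𝓝 0) (𝓝 (φ x)) := by
        have := hℓc.tendsto 0
        rwa [hℓ0] at this
      exact (tendsto_symm x).comp h7
    filter_upwards [h6.eventually heq, hbe] with t h8 h9
    have h10 : h (φ.symm (ℓ t)) = e (φ.symm (ℓ t)) ^ κ * w (φ.symm (ℓ t)) := h8
    have h11 : e (φ.symm (ℓ t)) = (t - 0) ^ 1 • b t := h9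
    show h (φ.symm (ℓ t)) = (t - 0) ^ κ • (b t ^ κ * w (φ.symm (ℓ t)))
    rw [h10, h11]
    simp only [smul_eq_mul]
    ring
  rw [← hN] at h5
  exact_mod_cast h5

/-- `h = e ^ κ * w` with `w` not identically zero on `D`. -/
theorem factor {D : Set X} {e h : X → ℂ} {x : X} (hxD : x ∈ D) (he : IsLocalEq E D e x)
    (hh : HolV E h x) (hne : ¬ ∀ᶠ z in 𝓝 x, h z = 0) :
    ∃ (κ : ℕ) (w : X → ℂ), HolV E w x ∧ (∀ᶠ z in 𝓝 x, h z = e z ^ κ * w z) ∧
      ∃ᶠ z in 𝓝 x, z ∈ D ∧ w z ≠ 0 := by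
  classical
  obtain ⟨N, hN⟩ := ord_bounded he.holAt (he.mem_iff.1 hxD) hh hne
  set P : ℕ → Prop := fun κ => ∃ w : X → ℂ, HolV E w x ∧ ∀ᶠ z in 𝓝 x, h z = e z ^ κ * w z with hP
  have h0 : P 0 := ⟨h, hh, Eventually.of_forall fun z => by simp⟩
  have h1 : P (Nat.findGreatest P N) := Nat.findGreatest_spec (Nat.zero_le _) h0
  obtain ⟨w, hw, hwe⟩ := h1
  refine ⟨_, w, hw, hwe, ?_⟩
  intro hcon
  have hv : ∀ᶠ z in 𝓝 x, z ∈ D → w z = 0 := hcon.mono fun z hz hzD => by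
    by_contra h3
    exact hz ⟨hzD, h3⟩
  obtain ⟨w', hw', hwe'⟩ := van_div he hw hv
  have h4 : P (Nat.findGreatest P N + 1) := by
    refine ⟨w', hw', ?_⟩
    filter_upwards [hwe, hwe'] with z h5 h6
    rw [h5, h6]; ring
  obtain ⟨w₁, hw₁, hwe₁⟩ := h4
  have h5 := hN _ w₁ hw₁ hwe₁
  have h6 := Nat.le_findGreatest h5 (P := P) ⟨w₁, hw₁, hwe₁⟩
  omega

end Factor

end Vale.Agent.P281.ISO
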