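import Vale.Agent.P281.ISO.Local

open scoped Manifold ContDiff Topology
open Set Filter Metric Asymptotics

namespace Vale.Agent.P281.ISO

open Vale.Agent.P281 Vale.Agent.P281.MF

set_option linter.unusedSectionVars false

universe u

/-- the fibration is good at `z`. -/
def Good (E E' : Type) [NormedAddCommGroup E] [NormedSpace ℂ E]
    [NormedAddCommGroup E'] [NormedSpace ℂ E'] {X Y : Type u} [TopologicalSpace X]
    [ChartedSpace E X] [TopologicalSpace Y] [ChartedSpace E' Y] (f : X → Y) (S : Set Y)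
    (z : X) : Prop :=
  f z ∉ S ∨ ∃ (D : Set X) (G : Set Y) (e : X → ℂ) (g : Y → ℂ) (w : X → ℂ) (κ : ℕ),
    IsPrimeDivisor E D ∧ IsPrimeDivisor E' G ∧ closure (f '' D) = G ∧ z ∈ D ∧ IsLocalEq E D e z ∧
    dif E e z ≠ 0 ∧ IsLocalEq E' G g (f z) ∧ dif E' g (f z) ≠ 0 ∧ HolAt E w z ∧ w z ≠ 0 ∧
    ∀ᶠ x in 𝓝 z, g (f x) = e x ^ κ * w x ∧ (f x ∈ S ↔ x ∈ D) ∧
      (x ∈ D → ∀ η, dif E' g (f x) η = 0 → ∃ ξ, dif E e x ξ = 0 ∧ dM E E' f x ξ = η)

section Lift

variable {E E' E₀ : Type} [NormedAddCommGroup E] [NormedSpace ℂ E] [FiniteDimensional ℂ E]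
  [NormedAddCommGroup E'] [NormedSpace ℂ E'] [FiniteDimensional ℂ E']
  [NormedAddCommGroup E₀] [NormedSpace ℂ E₀] [FiniteDimensional ℂ E₀]
variable {X Y F : Type u} [TopologicalSpace X] [ChartedSpace E X] [IsManifold 𝓘(ℂ, E) ω X]
  [TopologicalSpace Y] [ChartedSpace E' Y] [IsManifold 𝓘(ℂ, E') ω Y]
  [TopologicalSpace F] [ChartedSpace E₀ F] [IsManifold 𝓘(ℂ, E₀) ω F]

theorem ROD_avoid₂ {f : X → Y} (hf : ∀ x, HolM E E' f x) {D : Set X} {G G' : Set Y}
    (hDG : closure (f '' D) = G) (hG : IsPrimeDivisor E' G) (hG' : IsPrimeDivisor E' G')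
    (hne : G' ≠ G) (hD : IsPrimeDivisor E D) : ROD D {z | z ∈ D ∧ f z ∉ G'} := by
  have hfc : ∀ x, ContinuousAt f x := fun x => (hf x).continuousAt
  refine ⟨fun z hz => hz.1, ?_, ?_⟩
  · have h1 : D ⊆ closure (D \ (f ⁻¹' G')) := by
      refine dense_in_prime (W := ℂ) hD (fun x _ => ?_) ?_
      · obtain ⟨g, hg⟩ := hG'.2.1 (f x)
        refine ⟨fun z => g (f z), HolV.comp hg.holAt (hf x), ?_⟩
        filter_upwards [(hfc x).eventually hg.eventually] with z hz _
        exact hz.mem_iff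
      · by_contra hcon
        push Not at hcon
        apply hne
        refine (prime_eq_of_subset hG hG' ?_).symm
        rw [← hDG]
        refine closure_minimal ?_ hG'.1
        rintro y ⟨x, hx, rfl⟩
        exact hcon x hx
    exact h1
  · rintro z ⟨-, hz⟩
    filter_upwards [(hfc z).eventually (hG'.1.isOpen_compl.mem_nhds hz)] with w hw hwD
    exact ⟨hwD, hw⟩

theorem ROD_avoid_all₂ {f : X → Y} (hf : ∀ x, HolM E E' f x) {D : Set X} {G : Set Y}
    (hDG : closure (f '' D) = G) (hG : IsPrimeDivisor E' G) (hD : IsPrimeDivisor E D)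
    {S : Set (Set Y)} (hS : S.Finite) (hSp : ∀ G' ∈ S, IsPrimeDivisor E' G') :
    ROD D {z | z ∈ D ∧ ∀ G' ∈ S, G' ≠ G → f z ∉ G'} := by
  induction S, hS using Set.Finite.induction_on with
  | empty =>
    refine ⟨fun z hz => hz.1, fun z hz => subset_closure ⟨hz, by simp⟩, fun z hz => ?_⟩
    exact Eventually.of_forall fun w hw => ⟨hw, by simp⟩
  | @insert a s ha hs ih =>
    have ih' := ih fun G' hG' => hSp G' (mem_insert_of_mem _ hG')
    by_cases hag : a = G
    · have h1 : {z | z ∈ D ∧ ∀ G' ∈ insert a s, G' ≠ G → f z ∉ G'} =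
          {z | z ∈ D ∧ ∀ G' ∈ s, G' ≠ G → f z ∉ G'} := by
        ext z
        simp only [mem_ofPred_eq, mem_insert_iff, forall_eq_or_imp]
        constructor
        · rintro ⟨h1, -, h2⟩
          exact ⟨h1, h2⟩
        · rintro ⟨h1, h2⟩
          exact ⟨h1, fun h => absurd hag h, h2⟩
      rw [h1]
      exact ih'
    · have h1 := ih'.inter (ROD_avoid₂ hf hDG hG (hSp a (mem_insert _ _)) hag hD)
      have h2 : {z | z ∈ D ∧ ∀ G' ∈ insert a s, G' ≠ G → f z ∉ G'} =
          {z | z ∈ D ∧ ∀ G' ∈ s, G' ≠ G → f z ∉ G'} ∩ {z | z ∈ D ∧ f z ∉ a} := by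
        ext z
        simp only [mem_ofPred_eq, mem_insert_iff, forall_eq_or_imp, mem_inter_iff]
        constructor
        · rintro ⟨h1, h2, h3⟩
          exact ⟨⟨h1, h3⟩, h1, h2 hag⟩
        · rintro ⟨⟨h1, h3⟩, -, h2⟩
          exact ⟨h1, fun _ => h2, h3⟩
      rw [h2]
      exact h1

theorem dif_ne_eventually {e : X → ℂ} {x : X} (he : HolV E e x) (hd : dif E e x ≠ 0) :
    ∀ᶠ z in 𝓝 x, dif E e z ≠ 0 := by
  have hs : x ∈ (chartAt E x).source := mem_chart_source E x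
  have h2 : ContinuousAt (fun y => fderiv ℂ (e ∘ (chartAt E x).symm) (chartAt E x y)) x :=
    (HolV.comp_contDiff (G := fderiv ℂ (e ∘ (chartAt E x).symm))
        ((he.rep hs).fderiv_right (by simp)) (HolV.chart hs)).continuousAt
  have h3 : fderiv ℂ (e ∘ (chartAt E x).symm) (chartAt E x x) ≠ 0 := by
    intro h0
    apply hd
    rw [dif_eq_dV, dV_eq_chart hs he, h0]
    ext; simp
  filter_upwards [h2.eventually_ne h3, he.eventually,
    (chartAt E x).open_source.mem_nhds hs] with y hy hgy hys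
  intro h0
  apply hy
  rw [dif_eq_dV, dV_eq_chart hys hgy] at h0
  refine ContinuousLinearMap.ext fun v => ?_
  obtain ⟨u, rfl⟩ := chart_surj (E := E) hys v
  exact congrArg (fun A : E →L[ℂ] ℂ => A u) h0

theorem ne_frequently {Den : X → ℂ} {x : X} (hD : HolV E Den x)
    (hne : ¬ ∀ᶠ z in 𝓝 x, Den z = 0) : ∀ᶠ y in 𝓝 x, ∃ᶠ z in 𝓝 y, Den z ≠ 0 := by
  set φ := chartAt E x with hφ
  have hx : x ∈ φ.source := mem_chart_source E x
  obtain ⟨r, hr, hball⟩ := Metric.mem_nhds_iff.1 (inter_mem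
    (rep_analytic hD).eventually_analyticAt (φ.open_target.mem_nhds (φ.map_source hx)))
  have hana : AnalyticOnNhd ℂ (Den ∘ φ.symm) (ball (φ x) r) := fun w hw => (hball hw).1
  filter_upwards [(tendsto_chart x).eventually (ball_mem_nhds (φ x) hr),
    φ.open_source.mem_nhds hx] with y hy hys
  intro hcon
  have hcon' : ∀ᶠ z in 𝓝 y, Den z = 0 := hcon.mono fun z hz => not_not.1 hz
  have hsy : Tendsto φ.symm (𝓝 (φ y)) (𝓝 y) := by
    have := (φ.continuousAt_symm (φ.map_source hys)).tendsto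
    rwa [φ.left_inv hys] at this
  have hz : (Den ∘ φ.symm) =ᶠ[𝓝 (φ y)] 0 := hsy.eventually hcon'
  have hall := hana.eqOn_zero_of_preconnected_of_eventuallyEq_zero
    (convex_ball _ _).isPreconnected hy hz
  apply hne
  filter_upwards [(tendsto_chart x).eventually (ball_mem_nhds (φ x) hr),
    φ.open_source.mem_nhds hx] with z hz hzs
  have h1 : Den (φ.symm (φ z)) = 0 := hall hz
  rwa [φ.left_inv hzs] at h1

variable {f : X → Y} {S : Set Y} {ι : Type u} {U : ι → Set Y} {q : ι → X → F}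

theorem lift [Nonempty X] (hf : ∀ x, HolM E E' f x) (hS : IsClosed S)
    (hI : Iso E E' E₀ f S U q) (hUS : ∀ a, ∀ y ∈ U a, y ∉ S) (e₀ : E ≃L[ℂ] (E' × E₀))
    (hthin : ∀ x, ∃ h : X → ℂ, HolV E h x ∧ (¬ ∀ᶠ z in 𝓝 x, h z = 0) ∧
      ∀ᶠ z in 𝓝 x, (f z ∈ S → h z = 0) ∧ (h z = 0 → z ∈ closure {z | h z = 0 ∧ Good E E' f S z}))
    {n : ℕ} {s : F → ℂ} (hs : Sec E₀ n s) (hinv : Inv E E' E₀ e₀ f U q n s)
    (hrel : ∀ (x₀ y : X) (y₀ : Y), y ∈ (chartAt E x₀).source → f y ∈ (chartAt E' y₀).source →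
      ∀ (e w : X → ℂ) (g : Y → ℂ) (κ : ℕ), 0 < κ → HolV E e y → e y = 0 → dif E e y ≠ 0 →
      HolV E' g (f y) → g (f y) = 0 → dif E' g (f y) ≠ 0 → HolV E w y → w y ≠ 0 →
      (∀ᶠ z in 𝓝 y, g (f z) = e z ^ κ * w z) →
      (∀ η, dif E' g (f y) η = 0 → ∃ ξ, dif E e y ξ = 0 ∧ dM E E' f y ξ = η) →
      ∃ C : ℝ, ∀ᶠ z in 𝓝 y, ∀ a, f z ∈ U a →
        ‖jac E' (chartAt E' y₀) (f z) ^ n * TH E E' E₀ e₀ f (q a) n s z‖ ≤
          C * ‖e z‖ ^ (n * (κ - 1)) * ‖jac E (chartAt E x₀) z ^ n‖)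
    {K : Set X → ℕ} (hKfin : {D | K D ≠ 0}.Finite) (hKpr : ∀ D, K D ≠ 0 → IsPrimeDivisor E D)
    {k : Set Y → ℕ} (hkpr : ∀ G, k G ≠ 0 → IsPrimeDivisor E' G) (hkS : ∀ G, k G ≠ 0 → G ⊆ S)
    (hexp : ∀ (D : Set X) (G : Set Y) (κ : ℕ), IsPrimeDivisor E D → IsPrimeDivisor E' G →
      closure (f '' D) = G → 0 < κ →
      (∃ z ∈ D, ∃ e g w, IsLocalEq E D e z ∧ IsLocalEq E' G g (f z) ∧ HolAt E w z ∧
        w z ≠ 0 ∧ ∀ᶠ x in 𝓝 z, g (f x) = e x ^ κ * w x) →
      κ * k G ≤ n * (κ - 1) + K D)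
    {t : Y → ℂ} (ht : IsSection E' (fun (G : Set Y) z g => IsLocalEq E' G g z) n k t) :
    ∃ σ : X → ℂ, IsSection E (fun (D : Set X) z g => IsLocalEq E D g z) n K σ ∧
      ∀ a x, f x ∈ U a → σ x = t (f x) * TH E E' E₀ e₀ f (q a) n s x := by
  classical
  obtain ⟨x₁⟩ := ‹Nonempty X›
  have hkfin : {G | k G ≠ 0}.Finite := by
    obtain ⟨T, -, -, hT, -⟩ := ht (f x₁)
    exact T.finite_toSet.subset fun G hG => hT G hG
  have hfc : ∀ x, ContinuousAt f x := fun x => (hf x).continuousAt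
  have hfcont : Continuous f := continuous_iff_continuousAt.2 hfc
  set Ω : Set X := {z | f z ∉ S} with hΩ
  have hΩo : IsOpen Ω := hS.isOpen_compl.preimage hfcont
  have hΩd : Dense Ω := by
    intro x
    obtain ⟨h, -, hne, hev⟩ := hthin x
    rw [mem_closure_iff_frequently]
    intro hcon
    apply hne
    filter_upwards [hcon, hev] with z hz hz'
    exact hz'.1 (not_not.1 hz)
  -- the section over `Ω`
  set σ₀ : X → ℂ := fun x => if hx : ∃ a, f x ∈ U a then
    t (f x) * TH E E' E₀ e₀ f (q hx.choose) n s x else 0 with hσ₀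
  have hσ₀e : ∀ a x, f x ∈ U a → σ₀ x = t (f x) * TH E E' E₀ e₀ f (q a) n s x := by
    intro a x hx
    have hx' : ∃ a, f x ∈ U a := ⟨a, hx⟩
    rw [hσ₀]
    simp only [dif_pos hx']
    rw [hinv _ a x hx'.choose_spec hx]
  obtain ⟨σ', hσ', hsec⟩ := extend_section (E := E) (m := n) (K := K) hΩd (σ := σ₀) (by
    intro z₀
    obtain ⟨TY, gY, aY, hTY, hgY, haY, hevY⟩ := ht (f z₀)
    obtain ⟨Den, hDen, hDne, hDev⟩ := hthin z₀
    have heX : ∀ D, ∃ e : X → ℂ, K D ≠ 0 → IsLocalEq E D e z₀ := by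
      intro D
      by_cases hD : K D = 0
      · exact ⟨fun _ => 0, fun h => absurd hD h⟩
      · obtain ⟨e, he⟩ := (hKpr D hD).2.1 z₀
        exact ⟨e, fun _ => he⟩
    choose eX heX using heX
    set TX : Finset (Set X) := hKfin.toFinset with hTX
    have hTXm : ∀ D, D ∈ TX ↔ K D ≠ 0 := fun D => by rw [hTX, Set.Finite.mem_toFinset]; rfl
    have heX' : ∀ D ∈ TX, IsLocalEq E D (eX D) z₀ := fun D hD => heX D ((hTXm D).1 hD)
    set φ := chartAt E z₀ with hφ
    set ψ := chartAt E' (f z₀) with hψ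
    have hz₀s : z₀ ∈ φ.source := mem_chart_source E z₀
    have hy₀s : f z₀ ∈ ψ.source := mem_chart_source E' (f z₀)
    set PX : X → ℂ := fun z => ∏ D ∈ TX, eX D z ^ K D with hPX
    set PY : Y → ℂ := fun y => ∏ G ∈ TY, gY G y ^ k G with hPY
    set h₀ : X → ℂ := fun z => σ₀ z * PX z / jac E φ z ^ n with hh₀
    have hgYe : ∀ᶠ z in 𝓝 z₀, ∀ G ∈ TY, IsLocalEq E' G (gY G) (f z) := by
      rw [Filter.eventually_all_finset]
      intro G hG
      exact (hfc z₀).eventually (hgY G hG).eventually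
    have heXe : ∀ᶠ z in 𝓝 z₀, ∀ D ∈ TX, IsLocalEq E D (eX D) z := by
      rw [Filter.eventually_all_finset]
      intro D hD
      exact (heX' D hD).eventually
    -- everything needed at points near `z₀`
    set W : X → Prop := fun z => (∀ G ∈ TY, IsLocalEq E' G (gY G) (f z)) ∧
      (∀ D ∈ TX, IsLocalEq E D (eX D) z) ∧ z ∈ φ.source ∧ f z ∈ ψ.source ∧ HolV E' aY (f z) ∧
      (PY (f z) ≠ 0 → t (f z) * PY (f z) = aY (f z) * jac E' ψ (f z) ^ n) with hW
    have hWev : ∀ᶠ z in 𝓝 z₀, W z := by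
      filter_upwards [hgYe, heXe, φ.open_source.mem_nhds hz₀s,
        (hfc z₀).eventually (ψ.open_source.mem_nhds hy₀s),
        (hfc z₀).eventually (HolV.eventually (E := E') haY),
        (hfc z₀).eventually hevY] with z h1 h2 h3 h4 h5 h6
      exact ⟨h1, h2, h3, h4, h5, h6⟩
    have hWW : ∀ᶠ z in 𝓝 z₀, ∀ᶠ z' in 𝓝 z, W z' := eventually_eventually_nhds.2 hWev
    have hPY0 : ∀ z, W z → f z ∉ S → PY (f z) ≠ 0 := by
      intro z hz hzS
      refine Finset.prod_ne_zero_iff.2 fun G hG => ?_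
      by_cases hk : k G = 0
      · simp [hk]
      · refine pow_ne_zero _ fun h0 => hzS (hkS G hk ((hz.1 G hG).mem_iff.2 h0))
    have hPXh : ∀ z, W z → HolV E PX z := fun z hz =>
      HolV.prod fun D hD => ((hz.2.1 D hD).holAt).pow (K D)
    have hPYh : ∀ z, W z → HolV E (fun z => PY (f z)) z := fun z hz =>
      HolV.prod fun G hG => (HolV.comp (E' := E') (hz.1 G hG).holAt (hf z)).pow (k G)
    -- holomorphy over `Ω`
    have hhol : ∀ z, (∀ᶠ z' in 𝓝 z, W z') → f z ∉ S → HolV E h₀ z := by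
      intro z hz hzS
      have hz0 := hz.self_of_nhds
      obtain ⟨a, ha⟩ := hI.cov (f z) hzS
      have hUa : ∀ᶠ z' in 𝓝 z, f z' ∈ U a := (hfc z).eventually ((hI.isOpen a).mem_nhds ha)
      obtain ⟨H, hH, hHe⟩ := TH_local e₀ hf (q := q a) (z₁ := z)
        (hUa.mono fun z' hz' => hI.hol a z' hz') hs (x₀ := z₀) (y₀ := f z₀) hz0.2.2.1 hz0.2.2.2.1
      have h1 : HolV E (fun z => aY (f z) * H z * PX z / PY (f z)) z :=
        HolV.div (((HolV.comp (E' := E') hz0.2.2.2.2.1 (hf z)).mul hH).mul (hPXh z hz0))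
          (hPYh z hz0) (hPY0 z hz0 hzS)
      refine h1.congr ?_
      filter_upwards [hz, hUa, hHe, hΩo.mem_nhds hzS] with z' h2 h3 h4 h5
      have h6 := hPY0 z' h2 h5
      have h7 := h2.2.2.2.2.2 h6
      have hj : jac E φ z' ^ n ≠ 0 := pow_ne_zero _ (jac_chart_ne_zero h2.2.2.1)
      simp only [hh₀]
      rw [hσ₀e a z' h3, div_eq_div_iff hj h6]
      calc t (f z') * TH E E' E₀ e₀ f (q a) n s z' * PX z' * PY (f z')
          = (t (f z') * PY (f z')) * TH E E' E₀ e₀ f (q a) n s z' * PX z' := by ring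
        _ = aY (f z') * (jac E' ψ (f z') ^ n * TH E E' E₀ e₀ f (q a) n s z') * PX z' := by
            rw [h7]; ring
        _ = aY (f z') * H z' * PX z' * jac E φ z' ^ n := by rw [h4]; ring
    obtain ⟨Q, hQ, hQe⟩ := extendM_off (h := h₀) hDen hDne (by
      filter_upwards [hWW, hDev] with z hz hz' hz0
      exact hhol z hz fun hzS => hz0 (hz'.1 hzS)) (by
      filter_upwards [hWW, hDev, eventually_eventually_nhds.2 hDev] with z hz hz' hz'' hz0
      have h1 := mem_closure_iff_frequently.1 (hz'.2 hz0)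
      rw [mem_closure_iff_frequently]
      have h2 : ∃ᶠ y in 𝓝 z, (Den y = 0 ∧ Good E E' f S y) ∧ (∀ᶠ z' in 𝓝 y, W z') ∧
          ∀ᶠ z' in 𝓝 y, (f z' ∈ S → Den z' = 0) :=
        h1.and_eventually ((eventually_eventually_nhds.2 hz).and
          ((eventually_eventually_nhds.2 hz'').mono fun y hy => hy.mono fun _ h => h.1))
      -- it suffices to find such points near `y`
      suffices hsuf : ∀ y, (Den y = 0 ∧ Good E E' f S y) → (∀ᶠ z' in 𝓝 y, W z') →
          (∀ᶠ z' in 𝓝 y, (f z' ∈ S → Den z' = 0)) →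
          ∃ᶠ y' in 𝓝 y, Den y' = 0 ∧ ∃ C : ℝ, ∀ᶠ w in 𝓝 y', Den w ≠ 0 → ‖h₀ w‖ ≤ C by
        intro hcon
        obtain ⟨y, ⟨hy1, hy2, hy3⟩, hy4⟩ :=
          (h2.and_eventually (eventually_eventually_nhds.2 hcon)).exists
        exact hsuf y hy1 hy2 hy3 hy4
      rintro y ⟨hy0, hyg⟩ hyW hyD
      rcases hyg with hyS | ⟨D, G, e, g, w, κ, hDp, hGp, hDG, hyDm, he, hde, hg, hdg, hw, hw0,
        hev⟩
      · intro hcon
        refine hcon.self_of_nhds ⟨hy0, ‖h₀ y‖ + 1, ?_⟩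
        filter_upwards [(hhol y hyW hyS).continuousAt.norm.eventually_lt_const
          (lt_add_one ‖h₀ y‖)] with z hz _ using hz.le
      · have hrod := ROD_avoid_all₂ hf hDG hGp hDp hkfin (fun G' hG' => hkpr G' hG')
        have h3 := mem_closure_iff_frequently.1 (hrod.2.1 hyDm)
        refine (h3.and_eventually ((eventually_eventually_nhds.2 hyW).and
          ((eventually_eventually_nhds.2 hyD).and (he.eventually.and
          ((dif_ne_eventually he.holAt hde).and (((hfc y).eventually hg.eventually).and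
          (((hfc y).eventually (dif_ne_eventually hg.holAt hdg)).and
          ((HolV.eventually (E := E) hw).and (((HolV.continuousAt (E := E) hw).eventually_ne
            hw0).and (eventually_eventually_nhds.2 hev)))))))))).mono ?_
        rintro y' ⟨⟨hy'D, hy'av⟩, hW', hD', he', hde', hg', hdg', hw', hw0', hev'⟩
        have hev0 := hev'.self_of_nhds
        have hfyG : f y' ∈ G := by
          rw [← hDG]
          exact subset_closure ⟨y', hy'D, rfl⟩
        have hg0 : g (f y') = 0 := hg'.mem_iff.1 hfyG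
        have he0 : e y' = 0 := he'.mem_iff.1 hy'D
        have hκ0 : 0 < κ := by
          rcases Nat.eq_zero_or_pos κ with h0 | h0
          · exfalso
            have h4 := hev0.1
            rw [hg0, h0, pow_zero, one_mul] at h4
            exact hw0' h4.symm
          · exact h0
        refine ⟨hD'.self_of_nhds (hev0.2.1.2 hy'D), ?_⟩
        have hW0 := hW'.self_of_nhds
        obtain ⟨C, hC⟩ := hrel z₀ y' (f z₀) hW0.2.2.1 hW0.2.2.2.1 e w g κ hκ0 he'.holAt he0 hde'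
          hg'.holAt hg0 hdg' hw' hw0' (hev'.mono fun _ h => h.1) (hev0.2.2 hy'D)
        obtain ⟨C', hC'⟩ := good_bound' hf he' hg' hw' hw0' (hev'.mono fun _ h => h.1) hW0.2.1
          (K := K) (by
            intro h
            by_contra h0
            exact h ((hTXm _).2 h0)) hW0.1 (k := k) (by
            intro h
            by_contra h0
            exact h (hTY _ h0)) (fun G' _ hk' hne' => hy'av G' hk' hne')
          (A := fun z => aY (f z))
          (HolV.comp (E' := E') hW0.2.2.2.2.1 (hf y')).continuousAt (n := n)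
          (hexp D G κ hDp hGp hDG hκ0 ⟨y', hy'D, e, g, w, he', hg', hw', hw0',
            hev'.mono fun _ h => h.1⟩)
        refine ⟨max C 0 * C', ?_⟩
        filter_upwards [hC, hC', hW', hD'] with z h4 h5 h6 h7 hz0
        have hzS : f z ∉ S := fun h => hz0 (h7 h)
        obtain ⟨a, ha⟩ := hI.cov (f z) hzS
        have h8 := hPY0 z h6 hzS
        have h9 := h6.2.2.2.2.2 h8
        have hj : jac E φ z ^ n ≠ 0 := pow_ne_zero _ (jac_chart_ne_zero h6.2.2.1)
        have h10 : h₀ z * (PY (f z) * jac E φ z ^ n) =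
            aY (f z) * (jac E' ψ (f z) ^ n * TH E E' E₀ e₀ f (q a) n s z) * PX z := by
          simp only [hh₀]
          rw [hσ₀e a z ha]
          field_simp
          linear_combination (TH E E' E₀ e₀ f (q a) n s z * PX z) * h9
        have h11 : ‖h₀ z‖ * (‖PY (f z)‖ * ‖jac E φ z ^ n‖) ≤
            (max C 0 * C') * (‖PY (f z)‖ * ‖jac E φ z ^ n‖) := by
          calc ‖h₀ z‖ * (‖PY (f z)‖ * ‖jac E φ z ^ n‖)
              = ‖h₀ z * (PY (f z) * jac E φ z ^ n)‖ := by rw [norm_mul, norm_mul]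
            _ = ‖aY (f z)‖ * ‖jac E' ψ (f z) ^ n * TH E E' E₀ e₀ f (q a) n s z‖ * ‖PX z‖ := by
                rw [h10, norm_mul, norm_mul]
            _ ≤ ‖aY (f z)‖ * (C * ‖e z‖ ^ (n * (κ - 1)) * ‖jac E φ z ^ n‖) * ‖PX z‖ := by
                gcongr
                exact h4 a ha
            _ ≤ ‖aY (f z)‖ * (max C 0 * ‖e z‖ ^ (n * (κ - 1)) * ‖jac E φ z ^ n‖) * ‖PX z‖ := by
                gcongr
                exact le_max_left _ _
            _ = max C 0 * ‖jac E φ z ^ n‖ *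
                  ‖aY (f z) * e z ^ (n * (κ - 1)) * ∏ D ∈ TX, eX D z ^ K D‖ := by
                rw [norm_mul, norm_mul, norm_pow (e z)]; ring
            _ ≤ max C 0 * ‖jac E φ z ^ n‖ * (C' * ‖PY (f z)‖) := by
                gcongr
            _ = (max C 0 * C') * (‖PY (f z)‖ * ‖jac E φ z ^ n‖) := by ring
        exact le_of_mul_le_mul_right h11 (by positivity))
    refine ⟨TX, eX, Q, fun D hD => (hTXm D).2 hD, heX', hQ, ?_⟩
    filter_upwards [hQe, eventually_eventually_nhds.2 hQe, hWW, ne_frequently hDen hDne,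
      hQ.eventually] with z h1 h2 h3 h4 h5 hzS _
    have hj : jac E φ z ^ n ≠ 0 := pow_ne_zero _ (jac_chart_ne_zero h3.self_of_nhds.2.2.1)
    have h6 : h₀ z = Q z := by
      by_contra hcon
      have h7 : ContinuousAt (fun y => h₀ y - Q y) z :=
        (hhol z h3 hzS).continuousAt.sub h5.continuousAt
      have h8 := h7.eventually_ne (sub_ne_zero.2 hcon)
      obtain ⟨y, hy, hy1, hy2⟩ := (h4.and_eventually (h2.and h8)).exists
      exact hy2 (sub_eq_zero.2 (hy1 hy))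
    show σ₀ z * PX z = Q z * jac E φ z ^ n
    rw [← h6]
    simp only [hh₀]
    rw [div_mul_cancel₀ _ hj])
  exact ⟨σ', hsec, fun a x hx => by rw [hσ' x (hUS a _ hx), hσ₀e a x hx]⟩

end Lift

end Vale.Agent.P281.ISO
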