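import Vale.Agent.P281.ISO.Lift

open scoped Manifold ContDiff Topology
open Set Filter Metric Asymptotics

namespace Vale.Agent.P281.ISO

open Vale.Agent.P281 Vale.Agent.P281.MF

set_option linter.unusedSectionVars false

universe u

section Lift

variable {E E' E₀ : Type} [NormedAddCommGroup E] [NormedSpace ℂ E] [FiniteDimensional ℂ E]
  [NormedAddCommGroup E'] [NormedSpace ℂ E'] [FiniteDimensional ℂ E']
  [NormedAddCommGroup E₀] [NormedSpace ℂ E₀] [FiniteDimensional ℂ E₀]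
variable {X Y F : Type u} [TopologicalSpace X] [ChartedSpace E X] [IsManifold 𝓘(ℂ, E) ω X]
  [TopologicalSpace Y] [ChartedSpace E' Y] [IsManifold 𝓘(ℂ, E') ω Y]
  [TopologicalSpace F] [ChartedSpace E₀ F] [IsManifold 𝓘(ℂ, E₀) ω F]

/-- the relative form is holomorphic. -/
theorem TH_local' (e₀ : E ≃L[ℂ] (E' × E₀)) {f : X → Y} (hf : ∀ x, HolM E E' f x) {q : X → F}
    {z₁ : X} (hq : ∀ᶠ z in 𝓝 z₁, HolM E E₀ q z) {m : ℕ} {s c : F → ℂ} (hc : HolV E₀ c (q z₁))
    (hce : ∀ᶠ p in 𝓝 (q z₁), s p = c p * jac E₀ (chartAt E₀ (q z₁)) p ^ m) {x₀ : X}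
    {y₀ : Y} (hx₀ : z₁ ∈ (chartAt E x₀).source) (hy₀ : f z₁ ∈ (chartAt E' y₀).source) :
    ∃ H : X → ℂ, HolV E H z₁ ∧ ∀ᶠ z in 𝓝 z₁, jac E' (chartAt E' y₀) (f z) ^ m *
      TH E E' E₀ e₀ f q m s z = H z * jac E (chartAt E x₀) z ^ m := by
  set φ := chartAt E x₀ with hφ
  set ψ := chartAt E' y₀ with hψ
  set χ := chartAt E₀ (q z₁) with hχ
  have hq1 : HolM E E₀ q z₁ := hq.self_of_nhds
  have hqc : ContinuousAt q z₁ := hq1.continuousAt
  have hfc : ContinuousAt f z₁ := (hf z₁).continuousAt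
  have hχs : q z₁ ∈ χ.source := mem_chart_source E₀ (q z₁)
  let A₁ : X → E' := fun x => ψ (f x)
  let A₂ : X → E₀ := fun x => χ (q x)
  have hA₁ : HolV E A₁ z₁ := HolV.comp (h := (ψ : Y → E')) (HolV.chart hy₀) (hf z₁)
  have hA₂ : HolV E A₂ z₁ := HolV.comp (h := (χ : F → E₀)) (HolV.chart hχs) hq1
  let A : X → (E →L[ℂ] E') := fun z => fderiv ℂ (A₁ ∘ φ.symm) (φ z)
  let P : X → (E →L[ℂ] E₀) := fun z => fderiv ℂ (A₂ ∘ φ.symm) (φ z)
  have hA : HolV E A z₁ := by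
    refine HolV.comp_contDiff (G := fderiv ℂ (A₁ ∘ φ.symm)) ?_ (HolV.chart hx₀)
    exact (hA₁.rep hx₀).fderiv_right (by simp)
  have hP : HolV E P z₁ := by
    refine HolV.comp_contDiff (G := fderiv ℂ (A₂ ∘ φ.symm)) ?_ (HolV.chart hx₀)
    exact (hA₂.rep hx₀).fderiv_right (by simp)
  have hM := holV_JP e₀ hA hP
  have hJ : HolV E (fun z => JP e₀ (A z) (P z)) z₁ :=
    HolV.comp_contDiff contDiff_det.contDiffAt hM
  refine ⟨fun z => c (q z) * JP e₀ (A z) (P z) ^ m, (HolV.comp hc hq1).mul (hJ.pow m), ?_⟩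
  filter_upwards [hqc.eventually hce, hA₁.eventually, hA₂.eventually,
    φ.open_source.mem_nhds hx₀, hfc.eventually (ψ.open_source.mem_nhds hy₀),
    hqc.eventually (χ.open_source.mem_nhds hχs), hq] with z h1 h2 h3 h4 h5 h6 h7
  have h8 : (dV E' (ψ : Y → E') (f z)).comp (dM E E' f z) =
      (A z).comp (dV E (φ : X → E) z) := by
    have h9 := dV_comp (h := (ψ : Y → E')) (HolV.chart h5) (hf z)
    rw [← h9]
    exact dV_eq_chart h4 h2
  have h10 : (dV E₀ (χ : F → E₀) (q z)).comp (dM E E₀ q z) =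
      (P z).comp (dV E (φ : X → E) z) := by
    have h9 := dV_comp (h := (χ : F → E₀)) (HolV.chart h6) h7
    rw [← h9]
    exact dV_eq_chart h4 h3
  have h11 := JP_left e₀ (dM E E' f z) (dM E E₀ q z) (dV E' (ψ : Y → E') (f z))
    (dV E₀ (χ : F → E₀) (q z))
  rw [h8, h10, JP_comp] at h11
  have h12 : JP e₀ (A z) (P z) * jac E φ z =
      jac E' ψ (f z) * jac E₀ χ (q z) * JP e₀ (dM E E' f z) (dM E E₀ q z) := h11
  unfold TH
  rw [h1]
  calc jac E' ψ (f z) ^ m * (c (q z) * jac E₀ χ (q z) ^ m *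
        JP e₀ (dM E E' f z) (dM E E₀ q z) ^ m)
      = c (q z) * (jac E' ψ (f z) * jac E₀ χ (q z) *
          JP e₀ (dM E E' f z) (dM E E₀ q z)) ^ m := by ring
    _ = c (q z) * JP e₀ (A z) (P z) ^ m * jac E φ z ^ m := by rw [← h12]; ring

theorem poles_local {q : X → F} {z : X} (hq' : HolM E E₀ q z) {T : Finset (Set F)}
    {g : Set F → F → ℂ} {κ : Set F → ℕ} (hg : ∀ C ∈ T, IsLocalEq E₀ C (g C) (q z))
    {TX : Finset (Set X)} {eX : Set X → X → ℂ} {K : Set X → ℕ} (hTX : ∀ D, K D ≠ 0 → D ∈ TX)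
    (heX : ∀ D ∈ TX, IsLocalEq E D (eX D) z) {φ : Set F → Set X}
    (hφi : InjOn φ {C | κ C ≠ 0 ∧ q z ∈ C}) (hφ : ∀ C, κ C ≠ 0 → q z ∈ C → K (φ C) = κ C ∧
      ∃ g, IsLocalEq E₀ C g (q z) ∧ IsLocalEq E (φ C) (fun x => g (q x)) z) :
    ∃ u : X → ℂ, HolV E u z ∧ ∀ᶠ x in 𝓝 z,
      ∏ D ∈ TX, eX D x ^ K D = u x * ∏ C ∈ T, g C (q x) ^ κ C := by
  classical
  set T₁ := T.filter (fun C => κ C ≠ 0 ∧ q z ∈ C) with hT₁
  have hex : ∀ C, ∃ v : X → ℂ, C ∈ T₁ → HolV E v z ∧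
      ∀ᶠ x in 𝓝 z, eX (φ C) x = v x * g C (q x) := by
    intro C
    by_cases hC : C ∈ T₁
    · obtain ⟨hCT, hκ, hqC⟩ := Finset.mem_filter.1 hC
      obtain ⟨hK, g', hg', he'⟩ := hφ C hκ hqC
      obtain ⟨u₁, hu₁, -, h1⟩ := leq_unit (hg C hCT) hg'
      obtain ⟨u₂, hu₂, -, h2⟩ := leq_unit he' (heX (φ C) (hTX _ (by rw [hK]; exact hκ)))
      refine ⟨fun x => u₁ (q x) * u₂ x, fun _ => ⟨(HolV.comp (E' := E₀) hu₁ hq').mul hu₂, ?_⟩⟩
      filter_upwards [hq'.continuousAt.eventually h1, h2] with x h3 h4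
      rw [h4, h3]; ring
    · exact ⟨fun _ => 0, fun h => absurd h hC⟩
  choose v hv using hex
  set R : X → ℂ := fun x => ∏ C ∈ T \ T₁, g C (q x) ^ κ C with hR
  have hRh : HolV E R z := HolV.prod fun C hC => (HolV.comp (E' := E₀)
    (hg C (Finset.mem_sdiff.1 hC).1).holAt hq').pow (κ C)
  have hR0 : R z ≠ 0 := by
    refine Finset.prod_ne_zero_iff.2 fun C hC => ?_
    obtain ⟨h1, h2⟩ := Finset.mem_sdiff.1 hC
    by_cases hk : κ C = 0
    · simp [hk]
    · refine pow_ne_zero _ fun h0 => h2 (Finset.mem_filter.2 ⟨h1, hk, (hg C h1).mem_iff.2 h0⟩)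
  have him : T₁.image φ ⊆ TX := by
    intro D hD
    obtain ⟨C, hC, rfl⟩ := Finset.mem_image.1 hD
    obtain ⟨hCT, hκ, hqC⟩ := Finset.mem_filter.1 hC
    exact hTX _ (by rw [(hφ C hκ hqC).1]; exact hκ)
  refine ⟨fun x => (∏ C ∈ T₁, v C x ^ κ C) * (∏ D ∈ TX \ T₁.image φ, eX D x ^ K D) / R x,
    HolV.div ((HolV.prod fun C hC => (hv C hC).1.pow (κ C)).mul (HolV.prod fun D hD =>
      ((heX D (Finset.mem_sdiff.1 hD).1).holAt).pow (K D))) hRh hR0, ?_⟩
  have hve : ∀ᶠ x in 𝓝 z, ∀ C ∈ T₁, eX (φ C) x = v C x * g C (q x) := by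
    rw [Filter.eventually_all_finset]
    exact fun C hC => (hv C hC).2
  filter_upwards [hve, hRh.continuousAt.eventually_ne hR0] with x hx hRx
  have hsub : T₁ ⊆ T := Finset.filter_subset _ _
  rw [← Finset.prod_sdiff him, ← Finset.prod_sdiff hsub, Finset.prod_image (by
      intro C hC C' hC' h
      exact hφi (Finset.mem_filter.1 hC).2 (Finset.mem_filter.1 hC').2 h)]
  have h1 : ∏ C ∈ T₁, eX (φ C) x ^ K (φ C) =
      (∏ C ∈ T₁, v C x ^ κ C) * ∏ C ∈ T₁, g C (q x) ^ κ C := by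
    rw [← Finset.prod_mul_distrib]
    refine Finset.prod_congr rfl fun C hC => ?_
    obtain ⟨hCT, hκ, hqC⟩ := Finset.mem_filter.1 hC
    rw [hx C hC, (hφ C hκ hqC).1, mul_pow]
  rw [h1]
  show _ = _ / R x * (R x * _)
  field_simp

theorem freq_mul {A B : X → ℂ} {x : X} (hA : HolV E A x)
    (hA' : ∀ᶠ y in 𝓝 x, ∃ᶠ z in 𝓝 y, A z ≠ 0) (hB' : ∀ᶠ y in 𝓝 x, ∃ᶠ z in 𝓝 y, B z ≠ 0) :
    ∀ᶠ y in 𝓝 x, ∃ᶠ z in 𝓝 y, A z * B z ≠ 0 := by
  filter_upwards [hA', eventually_eventually_nhds.2 hB',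
    eventually_eventually_nhds.2 hA.eventually] with y h1 h2 h3
  intro hcon
  have h4 := eventually_eventually_nhds.2 hcon
  obtain ⟨z, hz, h5, h6, h7⟩ := (h1.and_eventually (h2.and (h3.and h4))).exists
  have h8 : ∀ᶠ w in 𝓝 z, A w ≠ 0 := (HolV.continuousAt (E := E) h6).eventually_ne hz
  obtain ⟨w, hw, h9, h10⟩ := (h5.and_eventually (h8.and h7)).exists
  exact h10 (mul_ne_zero h9 hw)

theorem freq_prod {ι : Type*} {T : Finset ι} {A : ι → X → ℂ} {x : X}
    (hA : ∀ i ∈ T, HolV E (A i) x) (hA' : ∀ i ∈ T, ∀ᶠ y in 𝓝 x, ∃ᶠ z in 𝓝 y, A i z ≠ 0) :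
    ∀ᶠ y in 𝓝 x, ∃ᶠ z in 𝓝 y, ∏ i ∈ T, A i z ≠ 0 := by
  classical
  induction T using Finset.induction_on with
  | empty =>
    refine Eventually.of_forall fun y => ?_
    simp only [Finset.prod_empty]
    exact (Eventually.of_forall fun _ => one_ne_zero).frequently
  | insert a s ha ih =>
    have h1 := ih (fun i hi => hA i (Finset.mem_insert_of_mem hi))
      (fun i hi => hA' i (Finset.mem_insert_of_mem hi))
    have h2 := freq_mul (hA a (Finset.mem_insert_self a s)) (hA' a (Finset.mem_insert_self a s)) h1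
    refine h2.mono fun y hy => hy.mono fun z hz => ?_
    rw [Finset.prod_insert ha]
    exact hz

variable {f : X → Y} {S : Set Y} {ι : Type u} {U : ι → Set Y} {q : ι → X → F}

theorem liftP [Nonempty X] (hf : ∀ x, HolM E E' f x) (hS : IsClosed S)
    (hI : Iso E E' E₀ f S U q) (hUS : ∀ a, ∀ y ∈ U a, y ∉ S) (e₀ : E ≃L[ℂ] (E' × E₀))
    (hthin : ∀ x, ∃ h : X → ℂ, HolV E h x ∧ (¬ ∀ᶠ z in 𝓝 x, h z = 0) ∧
      ∀ᶠ z in 𝓝 x, (f z ∈ S → h z = 0) ∧ (h z = 0 → z ∈ closure {z | h z = 0 ∧ Good E E' f S z}))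
    {n : ℕ} {κF : Set F → ℕ} {s : F → ℂ}
    (hs : IsSection E₀ (fun (C : Set F) p g => IsLocalEq E₀ C g p) n κF s)
    (hinv : Inv E E' E₀ e₀ f U q n s)
    (hrel : ∀ (x₀ y : X) (y₀ : Y), y ∈ (chartAt E x₀).source → f y ∈ (chartAt E' y₀).source →
      ∀ (e w : X → ℂ) (g : Y → ℂ) (κ : ℕ), 0 < κ → HolV E e y → e y = 0 → dif E e y ≠ 0 →
      HolV E' g (f y) → g (f y) = 0 → dif E' g (f y) ≠ 0 → HolV E w y → w y ≠ 0 →
      (∀ᶠ z in 𝓝 y, g (f z) = e z ^ κ * w z) →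
      (∀ η, dif E' g (f y) η = 0 → ∃ ξ, dif E e y ξ = 0 ∧ dM E E' f y ξ = η) →
      (∀ᶠ z in 𝓝 y, ∀ a, f z ∈ U a → ∀ C, κF C ≠ 0 → q a z ∉ C) →
      ∃ C : ℝ, ∀ᶠ z in 𝓝 y, ∀ a, f z ∈ U a →
        ‖jac E' (chartAt E' y₀) (f z) ^ n * TH E E' E₀ e₀ f (q a) n s z‖ ≤
          C * ‖e z‖ ^ (n * (κ - 1)) * ‖jac E (chartAt E x₀) z ^ n‖)
    {K : Set X → ℕ} (hKfin : {D | K D ≠ 0}.Finite) (hKpr : ∀ D, K D ≠ 0 → IsPrimeDivisor E D)
    (hloc : ∀ a x, f x ∈ U a → ∃ φ : Set F → Set X, InjOn φ {C | κF C ≠ 0 ∧ q a x ∈ C} ∧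
      ∀ C, κF C ≠ 0 → q a x ∈ C → K (φ C) = κF C ∧
        ∃ g, IsLocalEq E₀ C g (q a x) ∧ IsLocalEq E (φ C) (fun z => g (q a z)) x)
    {k : Set Y → ℕ} (hkpr : ∀ G, k G ≠ 0 → IsPrimeDivisor E' G) (hkS : ∀ G, k G ≠ 0 → G ⊆ S)
    (hexp : ∀ (D : Set X) (G : Set Y) (κ : ℕ), IsPrimeDivisor E D → IsPrimeDivisor E' G →
      closure (f '' D) = G → 0 < κ →
      (∃ z ∈ D, ∃ e g w, IsLocalEq E D e z ∧ IsLocalEq E' G g (f z) ∧ HolAt E w z ∧
        w z ≠ 0 ∧ ∀ᶠ x in 𝓝 z, g (f x) = e x ^ κ * w x) →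
      κ * k G ≤ n * (κ - 1) + K D)
    {t : Y → ℂ} (ht : IsSection E' (fun (G : Set Y) z g => IsLocalEq E' G g z) n k t) :
    ∃ σ : X → ℂ, IsSection E (fun (D : Set X) z g => IsLocalEq E D g z) n K σ ∧
      ∀ a x, f x ∈ U a → σ x = t (f x) * TH E E' E₀ e₀ f (q a) n s x := by
  classical
  obtain ⟨x₁⟩ := ‹Nonempty X›
  have hkfin : {G | k G ≠ 0}.Finite := by
    obtain ⟨T, -, -, hT, -⟩ := ht (f x₁)
    exact T.finite_toSet.subset fun G hG => hT G hG
  have hfc : ∀ x, ContinuousAt f x := fun x => (hf x).continuousAt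
  have hfcont : Continuous f := continuous_iff_continuousAt.2 hfc
  set Ω : Set X := {z | f z ∉ S} with hΩ
  have hΩo : IsOpen Ω := hS.isOpen_compl.preimage hfcont
  have hΩd : Dense Ω := by
    intro x
    obtain ⟨h, -, hne, hev⟩ := hthin x
    rw [mem_closure_iff_frequently]
    intro hcon
    apply hne
    filter_upwards [hcon, hev] with z hz hz'
    exact hz'.1 (not_not.1 hz)
  -- the section over `Ω`
  set σ₀ : X → ℂ := fun x => if hx : ∃ a, f x ∈ U a then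
    t (f x) * TH E E' E₀ e₀ f (q hx.choose) n s x else 0 with hσ₀
  have hσ₀e : ∀ a x, f x ∈ U a → σ₀ x = t (f x) * TH E E' E₀ e₀ f (q a) n s x := by
    intro a x hx
    have hx' : ∃ a, f x ∈ U a := ⟨a, hx⟩
    rw [hσ₀]
    simp only [dif_pos hx']
    rw [hinv _ a x hx'.choose_spec hx]
  obtain ⟨σ', hσ', hsec⟩ := extend_section (E := E) (m := n) (K := K) hΩd (σ := σ₀) (by
    intro z₀
    obtain ⟨TY, gY, aY, hTY, hgY, haY, hevY⟩ := ht (f z₀)
    obtain ⟨Den, hDen, hDne, hDev⟩ := hthin z₀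
    have heX : ∀ D, ∃ e : X → ℂ, K D ≠ 0 → IsLocalEq E D e z₀ := by
      intro D
      by_cases hD : K D = 0
      · exact ⟨fun _ => 0, fun h => absurd hD h⟩
      · obtain ⟨e, he⟩ := (hKpr D hD).2.1 z₀
        exact ⟨e, fun _ => he⟩
    choose eX heX using heX
    set TX : Finset (Set X) := hKfin.toFinset with hTX
    have hTXm : ∀ D, D ∈ TX ↔ K D ≠ 0 := fun D => by rw [hTX, Set.Finite.mem_toFinset]; rfl
    have heX' : ∀ D ∈ TX, IsLocalEq E D (eX D) z₀ := fun D hD => heX D ((hTXm D).1 hD)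
    set φ := chartAt E z₀ with hφ
    set ψ := chartAt E' (f z₀) with hψ
    have hz₀s : z₀ ∈ φ.source := mem_chart_source E z₀
    have hy₀s : f z₀ ∈ ψ.source := mem_chart_source E' (f z₀)
    set PX : X → ℂ := fun z => ∏ D ∈ TX, eX D z ^ K D with hPX
    set PY : Y → ℂ := fun y => ∏ G ∈ TY, gY G y ^ k G with hPY
    set h₀ : X → ℂ := fun z => σ₀ z * PX z / jac E φ z ^ n with hh₀
    have hgYe : ∀ᶠ z in 𝓝 z₀, ∀ G ∈ TY, IsLocalEq E' G (gY G) (f z) := by
      rw [Filter.eventually_all_finset]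
      intro G hG
      exact (hfc z₀).eventually (hgY G hG).eventually
    have heXe : ∀ᶠ z in 𝓝 z₀, ∀ D ∈ TX, IsLocalEq E D (eX D) z := by
      rw [Filter.eventually_all_finset]
      intro D hD
      exact (heX' D hD).eventually
    -- everything needed at points near `z₀`
    set W : X → Prop := fun z => (∀ G ∈ TY, IsLocalEq E' G (gY G) (f z)) ∧
      (∀ D ∈ TX, IsLocalEq E D (eX D) z) ∧ z ∈ φ.source ∧ f z ∈ ψ.source ∧ HolV E' aY (f z) ∧
      (PY (f z) ≠ 0 → t (f z) * PY (f z) = aY (f z) * jac E' ψ (f z) ^ n) with hW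
    have hWev : ∀ᶠ z in 𝓝 z₀, W z := by
      filter_upwards [hgYe, heXe, φ.open_source.mem_nhds hz₀s,
        (hfc z₀).eventually (ψ.open_source.mem_nhds hy₀s),
        (hfc z₀).eventually (HolV.eventually (E := E') haY),
        (hfc z₀).eventually hevY] with z h1 h2 h3 h4 h5 h6
      exact ⟨h1, h2, h3, h4, h5, h6⟩
    have hWW : ∀ᶠ z in 𝓝 z₀, ∀ᶠ z' in 𝓝 z, W z' := eventually_eventually_nhds.2 hWev
    have hPY0 : ∀ z, W z → f z ∉ S → PY (f z) ≠ 0 := by
      intro z hz hzS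
      refine Finset.prod_ne_zero_iff.2 fun G hG => ?_
      by_cases hk : k G = 0
      · simp [hk]
      · refine pow_ne_zero _ fun h0 => hzS (hkS G hk ((hz.1 G hG).mem_iff.2 h0))
    have hPXh : ∀ z, W z → HolV E PX z := fun z hz =>
      HolV.prod fun D hD => ((hz.2.1 D hD).holAt).pow (K D)
    have hPYh : ∀ z, W z → HolV E (fun z => PY (f z)) z := fun z hz =>
      HolV.prod fun G hG => (HolV.comp (E' := E') (hz.1 G hG).holAt (hf z)).pow (k G)
    -- holomorphy over `Ω`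
    have hTXm' : ∀ D, K D ≠ 0 → D ∈ TX := fun D hD => (hTXm D).2 hD
    have hhol : ∀ z, (∀ᶠ z' in 𝓝 z, W z') → f z ∉ S →
        ∃ H₁ : X → ℂ, HolV E H₁ z ∧ ∀ᶠ z' in 𝓝 z, PX z' ≠ 0 → h₀ z' = H₁ z' := by
      intro z hz hzS
      have hz0 := hz.self_of_nhds
      obtain ⟨a, ha⟩ := hI.cov (f z) hzS
      have hUa : ∀ᶠ z' in 𝓝 z, f z' ∈ U a := (hfc z).eventually ((hI.isOpen a).mem_nhds ha)
      have hqa : HolM E E₀ (q a) z := hI.hol a z ha
      obtain ⟨TF, gF, c, hTF, hgF, hc, hce⟩ := hs (q a z)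
      obtain ⟨φF, hφi, hφF⟩ := hloc a z ha
      obtain ⟨u, hu, hue⟩ := poles_local hqa hgF hTXm' (fun D hD => hz0.2.1 D hD) hφi hφF
      set s' : F → ℂ := fun p => c p * jac E₀ (chartAt E₀ (q a z)) p ^ n with hs'
      obtain ⟨H, hH, hHe⟩ := TH_local' e₀ hf (q := q a) (z₁ := z)
        (hUa.mono fun z' hz' => hI.hol a z' hz') (s := s') hc (Eventually.of_forall fun _ => rfl)
        (x₀ := z₀) (y₀ := f z₀) hz0.2.2.1 hz0.2.2.2.1
      refine ⟨fun z => aY (f z) * H z * u z / PY (f z),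
        HolV.div (((HolV.comp (E' := E') hz0.2.2.2.2.1 (hf z)).mul hH).mul hu)
          (hPYh z hz0) (hPY0 z hz0 hzS), ?_⟩
      filter_upwards [hz, hUa, hHe, hΩo.mem_nhds hzS, hue, hqa.continuousAt.eventually hce]
        with z' h2 h3 h4 h5 hu' hs'' hPX0
      have h6 := hPY0 z' h2 h5
      have h7 := h2.2.2.2.2.2 h6
      have hj : jac E φ z' ^ n ≠ 0 := pow_ne_zero _ (jac_chart_ne_zero h2.2.2.1)
      have hu'' : PX z' = u z' * ∏ C ∈ TF, gF C (q a z') ^ κF C := hu'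
      have hg0 : ∏ C ∈ TF, gF C (q a z') ^ κF C ≠ 0 := by
        intro h0
        apply hPX0
        rw [hu'', h0, mul_zero]
      have h8 : TH E E' E₀ e₀ f (q a) n s z' * ∏ C ∈ TF, gF C (q a z') ^ κF C =
          TH E E' E₀ e₀ f (q a) n s' z' := by
        unfold TH
        rw [hs']
        linear_combination (JP e₀ (dM E E' f z') (dM E E₀ (q a) z') ^ n) * (hs'' hg0)
      simp only [hh₀]
      rw [hσ₀e a z' h3, div_eq_div_iff hj h6, hu'']
      linear_combination (u z' * ∏ C ∈ TF, gF C (q a z') ^ κF C) *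
        TH E E' E₀ e₀ f (q a) n s z' * h7 + (aY (f z') * jac E' ψ (f z') ^ n * u z') * h8 +
        (aY (f z') * u z') * h4
    have hhol' : ∀ z, (∀ᶠ z' in 𝓝 z, W z') → f z ∉ S → PX z ≠ 0 → HolV E h₀ z := by
      intro z hz hzS h0
      obtain ⟨H₁, hH₁, hH₁e⟩ := hhol z hz hzS
      refine hH₁.congr ?_
      filter_upwards [hH₁e, (hPXh z hz.self_of_nhds).continuousAt.eventually_ne h0] with z' h1 h2
        using h1 h2
    set P₁ : X → ℂ := fun z => ∏ D ∈ TX, eX D z with hP₁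
    have hP₁h : HolV E P₁ z₀ := HolV.prod fun D hD => (heX' D hD).holAt
    set Den' : X → ℂ := fun z => Den z * P₁ z with hDen'
    have hfr : ∀ᶠ y in 𝓝 z₀, ∃ᶠ z in 𝓝 y, Den' z ≠ 0 :=
      freq_mul hDen (ne_frequently hDen hDne) (freq_prod (fun D hD => (heX' D hD).holAt)
        (fun D hD => leq_frequently_ne (heX' D hD)))
    have hPP : ∀ z, P₁ z ≠ 0 → PX z ≠ 0 := by
      intro z hz
      refine Finset.prod_ne_zero_iff.2 fun D hD => pow_ne_zero _ ?_
      exact Finset.prod_ne_zero_iff.1 hz D hD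
    obtain ⟨Q, hQ, hQe⟩ := extendM_off (h := h₀) (Den := Den') (hDen.mul hP₁h)
      (fun hcon => hfr.self_of_nhds (by simpa using hcon)) (by
      filter_upwards [hWW, hDev] with z hz hz' hz0
      exact hhol' z hz (fun hzS => left_ne_zero_of_mul hz0 (hz'.1 hzS))
        (hPP z (right_ne_zero_of_mul hz0))) (by
      filter_upwards [hWW, hDev, eventually_eventually_nhds.2 hDev] with z hz hz' hz'' hz0
      have hself : ∀ y, (∀ᶠ z' in 𝓝 y, W z') → f y ∉ S →
          ∃ C : ℝ, ∀ᶠ w in 𝓝 y, Den' w ≠ 0 → ‖h₀ w‖ ≤ C := by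
        intro y hyW hyS
        obtain ⟨H₁, hH₁, hH₁e⟩ := hhol y hyW hyS
        refine ⟨‖H₁ y‖ + 1, ?_⟩
        filter_upwards [hH₁e, (HolV.continuousAt (E := E) hH₁).norm.eventually_lt_const
          (lt_add_one ‖H₁ y‖)] with w h1 h2 h3
        rw [h1 (hPP w (right_ne_zero_of_mul h3))]
        exact h2.le
      by_cases hDz : Den z = 0
      swap
      · exact subset_closure ⟨hz0, hself z hz fun hzS => hDz (hz'.1 hzS)⟩
      have h1 := mem_closure_iff_frequently.1 (hz'.2 hDz)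
      rw [mem_closure_iff_frequently]
      have h2 : ∃ᶠ y in 𝓝 z, (Den y = 0 ∧ Good E E' f S y) ∧ (∀ᶠ z' in 𝓝 y, W z') ∧
          ∀ᶠ z' in 𝓝 y, (f z' ∈ S → Den z' = 0) :=
        h1.and_eventually ((eventually_eventually_nhds.2 hz).and
          ((eventually_eventually_nhds.2 hz'').mono fun y hy => hy.mono fun _ h => h.1))
      -- it suffices to find such points near `y`
      suffices hsuf : ∀ y, (Den y = 0 ∧ Good E E' f S y) → (∀ᶠ z' in 𝓝 y, W z') →
          (∀ᶠ z' in 𝓝 y, (f z' ∈ S → Den z' = 0)) →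
          ∃ᶠ y' in 𝓝 y, Den' y' = 0 ∧ ∃ C : ℝ, ∀ᶠ w in 𝓝 y', Den' w ≠ 0 → ‖h₀ w‖ ≤ C by
        intro hcon
        obtain ⟨y, ⟨hy1, hy2, hy3⟩, hy4⟩ :=
          (h2.and_eventually (eventually_eventually_nhds.2 hcon)).exists
        exact hsuf y hy1 hy2 hy3 hy4
      rintro y ⟨hy0, hyg⟩ hyW hyD
      rcases hyg with hyS | ⟨D, G, e, g, w, κ, hDp, hGp, hDG, hyDm, he, hde, hg, hdg, hw, hw0,
        hev⟩
      · intro hcon
        exact hcon.self_of_nhds ⟨by rw [hDen']; simp [hy0], hself y hyW hyS⟩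
      · have hrod := ROD_avoid_all₂ hf hDG hGp hDp hkfin (fun G' hG' => hkpr G' hG')
        have hrod' := ROD_avoid_all₂ (E' := E) (f := (id : X → X)) (fun x => contMDiffAt_id)
          (by rw [image_id]; exact hDp.1.closure_eq) hDp hDp hKfin (fun D' hD' => hKpr D' hD')
        have h3 := mem_closure_iff_frequently.1 ((hrod.inter hrod').2.1 hyDm)
        refine (h3.and_eventually ((eventually_eventually_nhds.2 hyW).and
          ((eventually_eventually_nhds.2 hyD).and (he.eventually.and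
          ((dif_ne_eventually he.holAt hde).and (((hfc y).eventually hg.eventually).and
          (((hfc y).eventually (dif_ne_eventually hg.holAt hdg)).and
          ((HolV.eventually (E := E) hw).and (((HolV.continuousAt (E := E) hw).eventually_ne
            hw0).and (eventually_eventually_nhds.2 hev)))))))))).mono ?_
        rintro y' ⟨⟨⟨hy'D, hy'av⟩, -, hy'av'⟩, hW', hD', he', hde', hg', hdg', hw', hw0', hev'⟩
        have hev0 := hev'.self_of_nhds
        have hfyG : f y' ∈ G := by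
          rw [← hDG]
          exact subset_closure ⟨y', hy'D, rfl⟩
        have hg0 : g (f y') = 0 := hg'.mem_iff.1 hfyG
        have he0 : e y' = 0 := he'.mem_iff.1 hy'D
        have hκ0 : 0 < κ := by
          rcases Nat.eq_zero_or_pos κ with h0 | h0
          · exfalso
            have h4 := hev0.1
            rw [hg0, h0, pow_zero, one_mul] at h4
            exact hw0' h4.symm
          · exact h0
        refine ⟨by
          show Den y' * P₁ y' = 0
          rw [hD'.self_of_nhds (hev0.2.1.2 hy'D), zero_mul], ?_⟩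
        have hoff : ∀ᶠ z in 𝓝 y', ∀ D', K D' ≠ 0 → D' ≠ D → z ∉ D' := by
          have h4 : ∀ᶠ z in 𝓝 y', ∀ D' ∈ hKfin.toFinset, D' ≠ D → z ∉ D' := by
            rw [Filter.eventually_all_finset]
            intro D' hD'
            by_cases hne : D' = D
            · exact Eventually.of_forall fun z h => absurd hne h
            · have hD'' : K D' ≠ 0 := by simpa using hD'
              filter_upwards [(hKpr D' hD'').1.isOpen_compl.mem_nhds (hy'av' D' hD'' hne)]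
                with z hz _ using hz
          filter_upwards [h4] with z hz D' hD' using hz D' (by simpa using hD')
        have hav : ∀ᶠ z in 𝓝 y', ∀ a, f z ∈ U a → ∀ C, κF C ≠ 0 → q a z ∉ C := by
          filter_upwards [hoff, hev'] with z h4 h5 a ha C hC hqC
          obtain ⟨φF, -, hφF⟩ := hloc a z ha
          obtain ⟨h6, g', hg', he''⟩ := hφF C hC hqC
          have h7 : z ∈ φF C := he''.mem_iff.2 (hg'.mem_iff.1 hqC)
          by_cases h8 : φF C = D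
          · exact hUS a _ ha (h5.2.1.2 (h8 ▸ h7))
          · exact h4 _ (by rw [h6]; exact hC) h8 h7
        have hW0 := hW'.self_of_nhds
        obtain ⟨C, hC⟩ := hrel z₀ y' (f z₀) hW0.2.2.1 hW0.2.2.2.1 e w g κ hκ0 he'.holAt he0 hde'
          hg'.holAt hg0 hdg' hw' hw0' (hev'.mono fun _ h => h.1) (hev0.2.2 hy'D) hav
        obtain ⟨C', hC'⟩ := good_bound' hf he' hg' hw' hw0' (hev'.mono fun _ h => h.1) hW0.2.1
          (K := K) (by
            intro h
            by_contra h0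
            exact h ((hTXm _).2 h0)) hW0.1 (k := k) (by
            intro h
            by_contra h0
            exact h (hTY _ h0)) (fun G' _ hk' hne' => hy'av G' hk' hne')
          (A := fun z => aY (f z))
          (HolV.comp (E' := E') hW0.2.2.2.2.1 (hf y')).continuousAt (n := n)
          (hexp D G κ hDp hGp hDG hκ0 ⟨y', hy'D, e, g, w, he', hg', hw', hw0',
            hev'.mono fun _ h => h.1⟩)
        refine ⟨max C 0 * C', ?_⟩
        filter_upwards [hC, hC', hW', hD'] with z h4 h5 h6 h7 hz0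
        have hzS : f z ∉ S := fun h => left_ne_zero_of_mul hz0 (h7 h)
        obtain ⟨a, ha⟩ := hI.cov (f z) hzS
        have h8 := hPY0 z h6 hzS
        have h9 := h6.2.2.2.2.2 h8
        have hj : jac E φ z ^ n ≠ 0 := pow_ne_zero _ (jac_chart_ne_zero h6.2.2.1)
        have h10 : h₀ z * (PY (f z) * jac E φ z ^ n) =
            aY (f z) * (jac E' ψ (f z) ^ n * TH E E' E₀ e₀ f (q a) n s z) * PX z := by
          simp only [hh₀]
          rw [hσ₀e a z ha]
          field_simp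
          linear_combination (TH E E' E₀ e₀ f (q a) n s z * PX z) * h9
        have h11 : ‖h₀ z‖ * (‖PY (f z)‖ * ‖jac E φ z ^ n‖) ≤
            (max C 0 * C') * (‖PY (f z)‖ * ‖jac E φ z ^ n‖) := by
          calc ‖h₀ z‖ * (‖PY (f z)‖ * ‖jac E φ z ^ n‖)
              = ‖h₀ z * (PY (f z) * jac E φ z ^ n)‖ := by rw [norm_mul, norm_mul]
            _ = ‖aY (f z)‖ * ‖jac E' ψ (f z) ^ n * TH E E' E₀ e₀ f (q a) n s z‖ * ‖PX z‖ := by
                rw [h10, norm_mul, norm_mul]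
            _ ≤ ‖aY (f z)‖ * (C * ‖e z‖ ^ (n * (κ - 1)) * ‖jac E φ z ^ n‖) * ‖PX z‖ := by
                gcongr
                exact h4 a ha
            _ ≤ ‖aY (f z)‖ * (max C 0 * ‖e z‖ ^ (n * (κ - 1)) * ‖jac E φ z ^ n‖) * ‖PX z‖ := by
                gcongr
                exact le_max_left _ _
            _ = max C 0 * ‖jac E φ z ^ n‖ *
                  ‖aY (f z) * e z ^ (n * (κ - 1)) * ∏ D ∈ TX, eX D z ^ K D‖ := by
                rw [norm_mul, norm_mul, norm_pow (e z)]; ring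
            _ ≤ max C 0 * ‖jac E φ z ^ n‖ * (C' * ‖PY (f z)‖) := by
                gcongr
            _ = (max C 0 * C') * (‖PY (f z)‖ * ‖jac E φ z ^ n‖) := by ring
        exact le_of_mul_le_mul_right h11 (by positivity))
    refine ⟨TX, eX, Q, fun D hD => (hTXm D).2 hD, heX', hQ, ?_⟩
    filter_upwards [hQe, eventually_eventually_nhds.2 hQe, hWW, hfr,
      hQ.eventually] with z h1 h2 h3 h4 h5 hzS hPz
    have hj : jac E φ z ^ n ≠ 0 := pow_ne_zero _ (jac_chart_ne_zero h3.self_of_nhds.2.2.1)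
    have h6 : h₀ z = Q z := by
      by_contra hcon
      have h7 : ContinuousAt (fun y => h₀ y - Q y) z :=
        (hhol' z h3 hzS hPz).continuousAt.sub h5.continuousAt
      have h8 := h7.eventually_ne (sub_ne_zero.2 hcon)
      obtain ⟨y, hy, hy1, hy2⟩ := (h4.and_eventually (h2.and h8)).exists
      exact hy2 (sub_eq_zero.2 (hy1 hy))
    show σ₀ z * PX z = Q z * jac E φ z ^ n
    rw [← h6]
    simp only [hh₀]
    rw [div_mul_cancel₀ _ hj])
  exact ⟨σ', hsec, fun a x hx => by rw [hσ' x (hUS a _ hx), hσ₀e a x hx]⟩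

end Lift

end Vale.Agent.P281.ISO
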