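import Vale.Agent.P281.ISO.Base
import Vale.Agent.P281.ISO.Ext3

open scoped Manifold ContDiff Topology
open Set Filter Metric Asymptotics

namespace Vale.Agent.P281.ISO

open Vale.Agent.P281 Vale.Agent.P281.MF

set_option linter.unusedSectionVars false

universe u

section Local

variable {E E' E₀ : Type} [NormedAddCommGroup E] [NormedSpace ℂ E] [FiniteDimensional ℂ E]
  [NormedAddCommGroup E'] [NormedSpace ℂ E'] [FiniteDimensional ℂ E']
  [NormedAddCommGroup E₀] [NormedSpace ℂ E₀] [FiniteDimensional ℂ E₀]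
variable {X Y F : Type u} [TopologicalSpace X] [ChartedSpace E X] [IsManifold 𝓘(ℂ, E) ω X]
  [TopologicalSpace Y] [ChartedSpace E' Y] [IsManifold 𝓘(ℂ, E') ω Y]
  [TopologicalSpace F] [ChartedSpace E₀ F] [IsManifold 𝓘(ℂ, E₀) ω F]

/-- the relative form is holomorphic. -/
theorem TH_local (e₀ : E ≃L[ℂ] (E' × E₀)) {f : X → Y} (hf : ∀ x, HolM E E' f x) {q : X → F}
    {z₁ : X} (hq : ∀ᶠ z in 𝓝 z₁, HolM E E₀ q z) {m : ℕ} {s : F → ℂ} (hs : Sec E₀ m s) {x₀ : X}
    {y₀ : Y} (hx₀ : z₁ ∈ (chartAt E x₀).source) (hy₀ : f z₁ ∈ (chartAt E' y₀).source) :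
    ∃ H : X → ℂ, HolV E H z₁ ∧ ∀ᶠ z in 𝓝 z₁, jac E' (chartAt E' y₀) (f z) ^ m *
      TH E E' E₀ e₀ f q m s z = H z * jac E (chartAt E x₀) z ^ m := by
  obtain ⟨c, hc, hce⟩ := hs (q z₁)
  set φ := chartAt E x₀ with hφ
  set ψ := chartAt E' y₀ with hψ
  set χ := chartAt E₀ (q z₁) with hχ
  have hq1 : HolM E E₀ q z₁ := hq.self_of_nhds
  have hqc : ContinuousAt q z₁ := hq1.continuousAt
  have hfc : ContinuousAt f z₁ := (hf z₁).continuousAt
  have hχs : q z₁ ∈ χ.source := mem_chart_source E₀ (q z₁)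
  let A₁ : X → E' := fun x => ψ (f x)
  let A₂ : X → E₀ := fun x => χ (q x)
  have hA₁ : HolV E A₁ z₁ := HolV.comp (h := (ψ : Y → E')) (HolV.chart hy₀) (hf z₁)
  have hA₂ : HolV E A₂ z₁ := HolV.comp (h := (χ : F → E₀)) (HolV.chart hχs) hq1
  let A : X → (E →L[ℂ] E') := fun z => fderiv ℂ (A₁ ∘ φ.symm) (φ z)
  let P : X → (E →L[ℂ] E₀) := fun z => fderiv ℂ (A₂ ∘ φ.symm) (φ z)
  have hA : HolV E A z₁ := by
    refine HolV.comp_contDiff (G := fderiv ℂ (A₁ ∘ φ.symm)) ?_ (HolV.chart hx₀)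
    exact (hA₁.rep hx₀).fderiv_right (by simp)
  have hP : HolV E P z₁ := by
    refine HolV.comp_contDiff (G := fderiv ℂ (A₂ ∘ φ.symm)) ?_ (HolV.chart hx₀)
    exact (hA₂.rep hx₀).fderiv_right (by simp)
  have hM := holV_JP e₀ hA hP
  have hJ : HolV E (fun z => JP e₀ (A z) (P z)) z₁ :=
    HolV.comp_contDiff contDiff_det.contDiffAt hM
  refine ⟨fun z => c (q z) * JP e₀ (A z) (P z) ^ m, (HolV.comp hc hq1).mul (hJ.pow m), ?_⟩
  filter_upwards [hqc.eventually hce, hA₁.eventually, hA₂.eventually,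
    φ.open_source.mem_nhds hx₀, hfc.eventually (ψ.open_source.mem_nhds hy₀),
    hqc.eventually (χ.open_source.mem_nhds hχs), hq] with z h1 h2 h3 h4 h5 h6 h7
  have h8 : (dV E' (ψ : Y → E') (f z)).comp (dM E E' f z) =
      (A z).comp (dV E (φ : X → E) z) := by
    have h9 := dV_comp (h := (ψ : Y → E')) (HolV.chart h5) (hf z)
    rw [← h9]
    exact dV_eq_chart h4 h2
  have h10 : (dV E₀ (χ : F → E₀) (q z)).comp (dM E E₀ q z) =
      (P z).comp (dV E (φ : X → E) z) := by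
    have h9 := dV_comp (h := (χ : F → E₀)) (HolV.chart h6) h7
    rw [← h9]
    exact dV_eq_chart h4 h3
  have h11 := JP_left e₀ (dM E E' f z) (dM E E₀ q z) (dV E' (ψ : Y → E') (f z))
    (dV E₀ (χ : F → E₀) (q z))
  rw [h8, h10, JP_comp] at h11
  have h12 : JP e₀ (A z) (P z) * jac E φ z =
      jac E' ψ (f z) * jac E₀ χ (q z) * JP e₀ (dM E E' f z) (dM E E₀ q z) := h11
  unfold TH
  rw [h1]
  calc jac E' ψ (f z) ^ m * (c (q z) * jac E₀ χ (q z) ^ m *
        JP e₀ (dM E E' f z) (dM E E₀ q z) ^ m)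
      = c (q z) * (jac E' ψ (f z) * jac E₀ χ (q z) *
          JP e₀ (dM E E' f z) (dM E E₀ q z)) ^ m := by ring
    _ = c (q z) * JP e₀ (A z) (P z) ^ m * jac E φ z ^ m := by rw [← h12]; ring

/-- version of `good_bound` for an arbitrary divisor `D`. -/
theorem good_bound' {f : X → Y} (hf : ∀ x, HolM E E' f x) {y : X} {G : Set Y} {D₀ : Set X} {κ : ℕ}
    {e w : X → ℂ} {g : Y → ℂ} (he : IsLocalEq E D₀ e y) (hg : IsLocalEq E' G g (f y))
    (hw : HolV E w y) (hw0 : w y ≠ 0) (heq : ∀ᶠ z in 𝓝 y, g (f z) = e z ^ κ * w z)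
    {TX : Finset (Set X)} {eX : Set X → X → ℂ} (heX : ∀ D ∈ TX, IsLocalEq E D (eX D) y)
    {K : Set X → ℕ} (hK : D₀ ∉ TX → K D₀ = 0)
    {TY : Finset (Set Y)} {gY : Set Y → Y → ℂ} (hgY : ∀ G' ∈ TY, IsLocalEq E' G' (gY G') (f y))
    {k : Set Y → ℕ} (hG : G ∉ TY → k G = 0)
    (havoid : ∀ G' ∈ TY, k G' ≠ 0 → G' ≠ G → f y ∉ G')
    {A : X → ℂ} (hA : ContinuousAt A y) {n : ℕ}
    (hexp : κ * k G ≤ n * (κ - 1) + K D₀) :
    ∃ C : ℝ, ∀ᶠ z in 𝓝 y, ‖A z * e z ^ (n * (κ - 1)) * ∏ D ∈ TX, eX D z ^ K D‖ ≤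
      C * ‖∏ G' ∈ TY, gY G' (f z) ^ k G'‖ := by
  classical
  have hfc : ContinuousAt f y := (hf y).continuousAt
  suffices h : (fun z => A z * e z ^ (n * (κ - 1)) * ∏ D ∈ TX, eX D z ^ K D) =O[𝓝 y]
      (fun z => ∏ G' ∈ TY, gY G' (f z) ^ k G') from isBigO_iff.1 h
  have hec : ContinuousAt e y := he.holAt.continuousAt
  have h1 : (fun z => e z ^ (n * (κ - 1))) =O[𝓝 y] fun z => e z ^ (n * (κ - 1)) :=
    isBigO_refl _ _
  have h2 : (fun z => ∏ D ∈ TX, eX D z ^ K D) =O[𝓝 y] fun z => e z ^ K D₀ := by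
    by_cases hD : D₀ ∈ TX
    · obtain ⟨u, hu, hu0, hue⟩ := leq_unit he (heX _ hD)
      have h3 : eX D₀ =O[𝓝 y] e := by
        have h4 : eX D₀ =ᶠ[𝓝 y] fun z => e z * u z := hue
        refine h4.trans_isBigO ?_
        simpa using (isBigO_refl e (𝓝 y)).mul (bigO_one hu.continuousAt)
      have h5 : (fun z => ∏ D ∈ TX.erase D₀, eX D z ^ K D) =O[𝓝 y] fun _ => (1 : ℂ) := by
        refine bigO_one ?_
        exact (HolV.prod (E := E) fun D hD => ((heX D (Finset.mem_of_mem_erase hD)).holAt).pow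
          (K D)).continuousAt
      have h6 := (h3.pow (K D₀)).mul h5
      refine (h6.congr_left fun z => ?_).congr_right fun z => mul_one _
      exact Finset.mul_prod_erase TX (fun D => eX D z ^ K D) hD
    · rw [hK hD]
      simp only [pow_zero]
      refine bigO_one ?_
      exact (HolV.prod (E := E) fun D hD => ((heX D hD).holAt).pow (K D)).continuousAt
  have h3 : (fun z => A z * e z ^ (n * (κ - 1)) * ∏ D ∈ TX, eX D z ^ K D) =O[𝓝 y]
      fun z => e z ^ (n * (κ - 1) + K D₀) := by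
    have := ((bigO_one hA).mul h1).mul h2
    refine this.congr_right fun z => ?_
    rw [one_mul, pow_add]
  have h4 : (fun z => e z ^ (n * (κ - 1) + K D₀)) =O[𝓝 y]
      fun z => e z ^ (κ * k G) := by
    obtain ⟨r, hr⟩ := Nat.exists_eq_add_of_le hexp
    have h5 := (isBigO_refl (fun z => e z ^ (κ * k G)) (𝓝 y)).mul (bigO_one (hec.pow r))
    refine (h5.congr_left fun z => ?_).congr_right fun z => mul_one _
    rw [hr, pow_add]
    rfl
  refine (h3.trans h4).trans ?_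
  by_cases hGT : G ∈ TY
  · obtain ⟨u, hu, hu0, hue⟩ := leq_unit hg (hgY G hGT)
    have h5 : (fun z => e z ^ κ) =O[𝓝 y] fun z => gY G (f z) := by
      have huc : ContinuousAt (fun z => (w z * u (f z))⁻¹) y :=
        ContinuousAt.inv₀ (hw.continuousAt.mul (ContinuousAt.comp hu.continuousAt hfc))
          (mul_ne_zero hw0 hu0)
      have h6 := (isBigO_refl (fun z => gY G (f z)) (𝓝 y)).mul (bigO_one huc)
      have h7 : (fun z => e z ^ κ) =ᶠ[𝓝 y] fun z => gY G (f z) * (w z * u (f z))⁻¹ := by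
        filter_upwards [heq, hfc.eventually hue, hw.continuousAt.eventually_ne hw0,
          (ContinuousAt.comp hu.continuousAt hfc).eventually_ne hu0] with z h8 h9 h10 h11
        have h12 : u (f z) ≠ 0 := h11
        rw [h9, h8]
        field_simp
      refine h7.trans_isBigO ?_
      simpa using h6
    have h6 : (fun z => e z ^ (κ * k G)) =O[𝓝 y] fun z => gY G (f z) ^ k G := by
      have := h5.pow (k G)
      refine this.congr_left fun z => ?_
      rw [← pow_mul]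
    refine h6.trans ?_
    set R : X → ℂ := fun z => ∏ G' ∈ TY.erase G, gY G' (f z) ^ k G' with hR
    have hRc : ContinuousAt R y :=
      (HolV.prod (E := E) fun G' hG' => (HolV.comp (E' := E') (hgY G'
        (Finset.mem_of_mem_erase hG')).holAt (hf y)).pow (k G')).continuousAt
    have hR0 : R y ≠ 0 := by
      refine Finset.prod_ne_zero_iff.2 fun G' hG' => ?_
      by_cases hk : k G' = 0
      · simp [hk]
      · refine pow_ne_zero _ fun h0 => ?_
        exact havoid G' (Finset.mem_of_mem_erase hG') hk (Finset.ne_of_mem_erase hG')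
          ((hgY G' (Finset.mem_of_mem_erase hG')).mem_iff.2 h0)
    have h8 := (isBigO_refl (fun z => ∏ G' ∈ TY, gY G' (f z) ^ k G') (𝓝 y)).mul
      (bigO_one (hRc.inv₀ hR0))
    have h9 : (fun z => gY G (f z) ^ k G) =ᶠ[𝓝 y]
        fun z => (∏ G' ∈ TY, gY G' (f z) ^ k G') * (R z)⁻¹ := by
      filter_upwards [hRc.eventually_ne hR0] with z hz
      rw [← Finset.mul_prod_erase TY (fun G' => gY G' (f z) ^ k G') hGT]
      rw [mul_assoc, mul_inv_cancel₀ hz, mul_one]
    refine h9.trans_isBigO ?_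
    simpa using h8
  · rw [hG hGT, mul_zero]
    simp only [pow_zero]
    set R : X → ℂ := fun z => ∏ G' ∈ TY, gY G' (f z) ^ k G' with hR
    have hRc : ContinuousAt R y :=
      (HolV.prod (E := E) fun G' hG' => (HolV.comp (E' := E') (hgY G' hG').holAt
        (hf y)).pow (k G')).continuousAt
    have hR0 : R y ≠ 0 := by
      refine Finset.prod_ne_zero_iff.2 fun G' hG' => ?_
      by_cases hk : k G' = 0
      · simp [hk]
      · refine pow_ne_zero _ fun h0 => ?_
        have hne : G' ≠ G := fun h => hk (h ▸ hG hGT)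
        exact havoid G' hG' hk hne ((hgY G' hG').mem_iff.2 h0)
    have h8 := (isBigO_refl R (𝓝 y)).mul (bigO_one (hRc.inv₀ hR0))
    have h9 : (fun _ : X => (1 : ℂ)) =ᶠ[𝓝 y] fun z => R z * (R z)⁻¹ := by
      filter_upwards [hRc.eventually_ne hR0] with z hz
      rw [mul_inv_cancel₀ hz]
    refine h9.trans_isBigO ?_
    simpa using h8

theorem ROD_avoid' {f : X → Y} (hf : ∀ x, HolM E E' f x) {D : Set X} {G' : Set Y}
    (hG : IsPrimeDivisor E' (f '' D)) (hG' : IsPrimeDivisor E' G') (hne : G' ≠ f '' D)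
    (hD : IsPrimeDivisor E D) : ROD D {z | z ∈ D ∧ f z ∉ G'} := by
  have hfc : ∀ x, ContinuousAt f x := fun x => (hf x).continuousAt
  refine ⟨fun z hz => hz.1, ?_, ?_⟩
  · have h1 : D ⊆ closure (D \ (f ⁻¹' G')) := by
      refine dense_in_prime (W := ℂ) hD (fun x _ => ?_) ?_
      · obtain ⟨g, hg⟩ := hG'.2.1 (f x)
        refine ⟨fun z => g (f z), HolV.comp hg.holAt (hf x), ?_⟩
        filter_upwards [(hfc x).eventually hg.eventually] with z hz _
        exact hz.mem_iff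
      · by_contra hcon
        push Not at hcon
        apply hne
        refine (prime_eq_of_subset hG hG' ?_).symm
        rintro y ⟨x, hx, rfl⟩
        exact hcon x hx
    exact h1
  · rintro z ⟨-, hz⟩
    filter_upwards [(hfc z).eventually (hG'.1.isOpen_compl.mem_nhds hz)] with w hw hwD
    exact ⟨hwD, hw⟩

theorem ROD_avoid_all {f : X → Y} (hf : ∀ x, HolM E E' f x) {D : Set X}
    (hG : IsPrimeDivisor E' (f '' D)) (hD : IsPrimeDivisor E D) {S : Set (Set Y)}
    (hS : S.Finite) (hSp : ∀ G' ∈ S, IsPrimeDivisor E' G') :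
    ROD D {z | z ∈ D ∧ ∀ G' ∈ S, G' ≠ f '' D → f z ∉ G'} := by
  induction S, hS using Set.Finite.induction_on with
  | empty =>
    refine ⟨fun z hz => hz.1, fun z hz => subset_closure ⟨hz, by simp⟩, fun z hz => ?_⟩
    exact Eventually.of_forall fun w hw => ⟨hw, by simp⟩
  | @insert a s ha hs ih =>
    have ih' := ih fun G' hG' => hSp G' (mem_insert_of_mem _ hG')
    by_cases hag : a = f '' D
    · have h1 : {z | z ∈ D ∧ ∀ G' ∈ insert a s, G' ≠ f '' D → f z ∉ G'} =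
          {z | z ∈ D ∧ ∀ G' ∈ s, G' ≠ f '' D → f z ∉ G'} := by
        ext z
        simp only [mem_ofPred_eq, mem_insert_iff, forall_eq_or_imp]
        constructor
        · rintro ⟨h1, -, h2⟩
          exact ⟨h1, h2⟩
        · rintro ⟨h1, h2⟩
          exact ⟨h1, fun h => absurd hag h, h2⟩
      rw [h1]
      exact ih'
    · have h1 := ih'.inter (ROD_avoid' hf hG (hSp a (mem_insert _ _)) hag hD)
      have h2 : {z | z ∈ D ∧ ∀ G' ∈ insert a s, G' ≠ f '' D → f z ∉ G'} =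
          {z | z ∈ D ∧ ∀ G' ∈ s, G' ≠ f '' D → f z ∉ G'} ∩ {z | z ∈ D ∧ f z ∉ a} := by
        ext z
        simp only [mem_ofPred_eq, mem_insert_iff, forall_eq_or_imp, mem_inter_iff]
        constructor
        · rintro ⟨h1, h2, h3⟩
          exact ⟨⟨h1, h3⟩, h1, h2 hag⟩
        · rintro ⟨⟨h1, h3⟩, -, h2⟩
          exact ⟨h1, fun _ => h2, h3⟩
      rw [h2]
      exact h1

end Local

end Vale.Agent.P281.ISO
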