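import Vale.Agent.P281.ISO.Defs
import Vale.Agent.P281.Bdl.B1

/-! P281, isotrivial fibrations: numerical part (orbifold multiplicities, sum of the suprema) -/

open scoped Manifold ContDiff Topology ENNReal
open Set Filter Metric

namespace Vale.Agent.P281.ISO

open Vale.Agent.P281

set_option linter.all false

universe u

theorem mult_num {κ : ℕ} (hκ : 0 < κ) {m : ℝ≥0∞} {δ : ℝ} (h0 : 0 ≤ δ) (h1 : δ ≤ 1)
    (hle : m ≤ κ * (1 - ENNReal.ofReal δ)⁻¹) : κ * (1 - m⁻¹).toReal ≤ κ - 1 + δ := by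
  have hκ0 : (0 : ℝ) < κ := by exact_mod_cast hκ
  have hinv : (κ * (1 - ENNReal.ofReal δ)⁻¹)⁻¹ ≤ m⁻¹ := ENNReal.inv_le_inv.2 hle
  have h3 : ((κ : ℝ≥0∞) * (1 - ENNReal.ofReal δ)⁻¹)⁻¹ = ENNReal.ofReal ((1 - δ) / κ) := by
    rw [ENNReal.mul_inv (Or.inl (by exact_mod_cast hκ.ne')) (Or.inl (ENNReal.natCast_ne_top κ)),
      inv_inv, ← ENNReal.ofReal_one, ← ENNReal.ofReal_sub _ h0, div_eq_inv_mul,
      ENNReal.ofReal_mul (by positivity), ENNReal.ofReal_inv_of_pos hκ0, ENNReal.ofReal_natCast]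
  have h4 : (1 - m⁻¹) ≤ ENNReal.ofReal (1 - (1 - δ) / κ) := by
    calc (1 - m⁻¹) ≤ 1 - (κ * (1 - ENNReal.ofReal δ)⁻¹)⁻¹ := tsub_le_tsub_left hinv 1
      _ = ENNReal.ofReal (1 - (1 - δ) / κ) := by
        rw [h3, ← ENNReal.ofReal_one, ← ENNReal.ofReal_sub]
        exact div_nonneg (by linarith) hκ0.le
  have h5 : (1 - δ) / κ ≤ 1 := by
    rw [div_le_one hκ0]
    have : (1 : ℝ) ≤ κ := by exact_mod_cast hκ
    linarith
  have h6 : (1 - m⁻¹).toReal ≤ 1 - (1 - δ) / κ := by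
    calc (1 - m⁻¹).toReal ≤ (ENNReal.ofReal (1 - (1 - δ) / κ)).toReal :=
          ENNReal.toReal_mono ENNReal.ofReal_ne_top h4
      _ = 1 - (1 - δ) / κ := ENNReal.toReal_ofReal (by linarith)
  calc (κ : ℝ) * (1 - m⁻¹).toReal ≤ κ * (1 - (1 - δ) / κ) := by gcongr
    _ = κ - 1 + δ := by field_simp; ring

section Orb

variable {E E' : Type} [NormedAddCommGroup E] [NormedSpace ℂ E]
  [NormedAddCommGroup E'] [NormedSpace ℂ E']
variable {X Y : Type u} [TopologicalSpace X] [ChartedSpace E X]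
  [TopologicalSpace Y] [ChartedSpace E' Y]
variable {f : X → Y}

theorem orbBase_mul_le₁ {Δ : Set X → ℝ} {D : Set X} {G : Set Y} {κ : ℕ} (hκ : 0 < κ)
    (hG : IsPrimeDivisor E' G) (hD : IsPrimeDivisor E D) (hDG : f '' D = G)
    (hx : ∃ x ∈ D, ∃ e g w, IsLocalEq E D e x ∧ IsLocalEq E' G g (f x) ∧
      HolAt E w x ∧ w x ≠ 0 ∧ ∀ᶠ z in 𝓝 x, g (f z) = e z ^ κ * w z)
    (h0 : 0 ≤ Δ D) (h1 : Δ D ≤ 1) : κ * orbBase E E' f Δ G ≤ κ - 1 + Δ D := by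
  have hle : orbMult E E' f Δ G ≤ κ * (1 - ENNReal.ofReal (Δ D))⁻¹ := by
    unfold orbMult
    refine (iInf_le _ D).trans ((iInf_le _ ⟨hD, hDG⟩).trans ?_)
    have h2 : ordAlong E E' f G D ≤ κ := Nat.sInf_le hx
    unfold mult
    gcongr
  unfold orbBase
  rw [if_pos hG]
  exact mult_num hκ h0 h1 hle

theorem orbBase'_mul_le {Δ : Set X → ℝ} {D : Set X} {G : Set Y} {κ : ℕ} (hκ : 0 < κ)
    (hG : IsPrimeDivisor E' G) (hD : IsPrimeDivisor E D) (hDG : closure (f '' D) = G)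
    (hx : ∃ x ∈ D, ∃ e g w, IsLocalEq E D e x ∧ IsLocalEq E' G g (f x) ∧
      HolAt E w x ∧ w x ≠ 0 ∧ ∀ᶠ z in 𝓝 x, g (f z) = e z ^ κ * w z)
    (h0 : 0 ≤ Δ D) (h1 : Δ D ≤ 1) : κ * J.orbBase' E E' f Δ G ≤ κ - 1 + Δ D := by
  classical
  have hG' : J.IsPrime E' G := hG
  have hD' : J.IsPrime E D := hD
  have hle : (⨅ (D : Set X) (_ : J.IsPrime E D ∧ closure (f '' D) = G),
      ((sInf {k : ℕ | ∃ x ∈ D, ∃ e g w, J.IsLocalEq E D e x ∧ J.IsLocalEq E' G g (f x) ∧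
        J.HolAt E w x ∧ w x ≠ 0 ∧ ∀ᶠ z in 𝓝 x, g (f z) = e z ^ k * w z} : ℕ) : ℝ≥0∞) *
      (1 - ENNReal.ofReal (Δ D))⁻¹) ≤ κ * (1 - ENNReal.ofReal (Δ D))⁻¹ := by
    refine (iInf_le _ D).trans ((iInf_le _ ⟨hD', hDG⟩).trans ?_)
    have h2 : sInf {k : ℕ | ∃ x ∈ D, ∃ e g w, J.IsLocalEq E D e x ∧ J.IsLocalEq E' G g (f x) ∧
        J.HolAt E w x ∧ w x ≠ 0 ∧ ∀ᶠ z in 𝓝 x, g (f z) = e z ^ k * w z} ≤ κ := Nat.sInf_le hx
    gcongr
  unfold J.orbBase'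
  rw [if_pos hG']
  exact mult_num hκ h0 h1 hle

/-- the coefficients of the orbifold base live on prime divisors -/
theorem orbBase'_prime {Δ : Set X → ℝ} {G : Set Y} (h : J.orbBase' E E' f Δ G ≠ 0) :
    IsPrimeDivisor E' G := by
  classical
  by_contra hn
  apply h
  have hn' : ¬ J.IsPrime E' G := hn
  unfold J.orbBase'
  rw [if_neg hn']

theorem orbBase'_nonneg {Δ : Set X → ℝ} (G : Set Y) : 0 ≤ J.orbBase' E E' f Δ G := by
  classical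
  unfold J.orbBase'
  split_ifs
  · exact ENNReal.toReal_nonneg
  · exact le_rfl

theorem orbBase'_le_one {Δ : Set X → ℝ} (G : Set Y) : J.orbBase' E E' f Δ G ≤ 1 := by
  classical
  unfold J.orbBase'
  split_ifs
  · refine ENNReal.toReal_le_of_le_ofReal zero_le_one ?_
    rw [ENNReal.ofReal_one]
    exact tsub_le_self
  · exact zero_le_one

end Orb

section Kod

/-- the supremum in the definition of `kod` is attained -/
theorem kod_attained {E₀ : Type} [NormedAddCommGroup E₀] [NormedSpace ℂ E₀]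
    [FiniteDimensional ℂ E₀] {F : Type u} [TopologicalSpace F] [ChartedSpace E₀ F] {ι : Type u}
    (eqn : ι → F → (F → ℂ) → Prop) (c : ι → ℝ) :
    kod E₀ eqn c = ⊥ ∨ ∃ j, KodGE E₀ eqn c j ∧ kod E₀ eqn c = ((j : ℕ∞) : WithBot ℕ∞) := by
  classical
  by_cases hne : ∃ j, KodGE E₀ eqn c j
  · right
    obtain ⟨j, hj⟩ := hne
    have h1 : KodGE E₀ eqn c (Nat.findGreatest (fun j => KodGE E₀ eqn c j)
        (Module.finrank ℂ E₀)) :=
      Nat.findGreatest_spec (P := fun j => KodGE E₀ eqn c j) (kodGE_le hj) hj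
    have h2 : ∀ j, KodGE E₀ eqn c j → j ≤ Nat.findGreatest (fun j => KodGE E₀ eqn c j)
        (Module.finrank ℂ E₀) := fun j' hj' => Nat.le_findGreatest (kodGE_le hj') hj'
    refine ⟨_, h1, le_antisymm ?_ ?_⟩
    · unfold kod
      refine iSup₂_le fun j hj => ?_
      exact_mod_cast h2 j hj
    · unfold kod
      exact le_iSup₂_of_le _ h1 le_rfl
  · left
    unfold kod
    rw [iSup₂_eq_bot]
    intro j hj
    exact absurd ⟨j, hj⟩ hne

theorem kod_add_le {E E' E₀ : Type} [NormedAddCommGroup E] [NormedSpace ℂ E]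
    [NormedAddCommGroup E'] [NormedSpace ℂ E'] [FiniteDimensional ℂ E']
    [NormedAddCommGroup E₀] [NormedSpace ℂ E₀] [FiniteDimensional ℂ E₀]
    {X Y F : Type u} [TopologicalSpace X] [ChartedSpace E X] [TopologicalSpace Y]
    [ChartedSpace E' Y] [TopologicalSpace F] [ChartedSpace E₀ F] {ι ι' ι₀ : Type u}
    {eqn : ι → X → (X → ℂ) → Prop} {c : ι → ℝ} {eqn' : ι' → Y → (Y → ℂ) → Prop} {c' : ι' → ℝ}
    {eqn₀ : ι₀ → F → (F → ℂ) → Prop} {c₀ : ι₀ → ℝ}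
    (h : ∀ j₁ j₂, KodGE E₀ eqn₀ c₀ j₁ → KodGE E' eqn' c' j₂ → KodGE E eqn c (j₁ + j₂)) :
    kod E₀ eqn₀ c₀ + kod E' eqn' c' ≤ kod E eqn c := by
  rcases kod_attained (E₀ := E₀) eqn₀ c₀ with h1 | ⟨j₁, h1, e1⟩
  · rw [h1, WithBot.bot_add]
    exact bot_le
  rcases kod_attained (E₀ := E') eqn' c' with h2 | ⟨j₂, h2, e2⟩
  · rw [h2, WithBot.add_bot]
    exact bot_le
  have h3 : (((j₁ + j₂ : ℕ) : ℕ∞) : WithBot ℕ∞) ≤ kod E eqn c := by
    unfold kod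
    exact le_iSup₂_of_le (j₁ + j₂) (h j₁ j₂ h1 h2) le_rfl
  rw [e1, e2]
  refine le_trans (le_of_eq ?_) h3
  push_cast
  rfl

end Kod

end Vale.Agent.P281.ISO
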