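import Vale.Agent.P281.ISO.Core
import Vale.Agent.P281.ISO.Num
import Vale.Agent.P281.ISO.Mono

open scoped Manifold ContDiff Topology
open Set Filter Metric Asymptotics

namespace Vale.Agent.P281.ISO

open Vale.Agent.P281 Vale.Agent.P281.MF

set_option linter.unusedSectionVars false

universe u

section Main

variable {E E' E₀ : Type} [NormedAddCommGroup E] [NormedSpace ℂ E] [FiniteDimensional ℂ E]
  [NormedAddCommGroup E'] [NormedSpace ℂ E'] [FiniteDimensional ℂ E']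
  [NormedAddCommGroup E₀] [NormedSpace ℂ E₀] [FiniteDimensional ℂ E₀]
variable {X Z Y F : Type u} [TopologicalSpace X] [ChartedSpace E X] [IsManifold 𝓘(ℂ, E) ω X]
  [TopologicalSpace Z] [ChartedSpace E Z] [IsManifold 𝓘(ℂ, E) ω Z]
  [TopologicalSpace Y] [ChartedSpace E' Y] [IsManifold 𝓘(ℂ, E') ω Y]
  [TopologicalSpace F] [ChartedSpace E₀ F] [IsManifold 𝓘(ℂ, E₀) ω F]

theorem good_of {f : X → Y} {S : Set Y} {z : X} (h : J.IsGood E E' f S z) : Good E E' f S z := h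

theorem thin_of {f : X → Y} {S : Set Y} (h : J.IsThin E E' f S) :
    ∀ x, ∃ h : X → ℂ, HolV E h x ∧ (¬ ∀ᶠ z in 𝓝 x, h z = 0) ∧ ∀ᶠ z in 𝓝 x,
      (f z ∈ S → h z = 0) ∧ (h z = 0 → z ∈ closure {z | h z = 0 ∧ Good E E' f S z}) := h

/-- the main theorem for the holomorphic fibration `f : Z → Y`. -/
theorem main_core [CompactSpace F] [PreconnectedSpace F] [Nonempty Z]
    (hE : Module.finrank ℂ E = Module.finrank ℂ E' + Module.finrank ℂ E₀)
    {f : Z → Y} (hf : ContMDiff 𝓘(ℂ, E) 𝓘(ℂ, E') ω f) {S : Set Y} (hSd : Dense Sᶜ)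
    {ι : Type u} {U : ι → Set Y} {q : ι → Z → F} (hB : J.IsFibreBundle E E' E₀ f S U q)
    (hM : J.HasFiniteMonodromy E₀ f U q 0) (hthin : J.IsThin E E' f S) {Δ : Set Z → ℝ}
    (hsnc : IsSNCBoundary E Δ) {B : Set Y → ℝ} (hB₁ : ∀ G, B G ≠ 0 → IsPrimeDivisor E' G ∧ G ⊆ S)
    (hBD : ∀ (D : Set Z) (G : Set Y) (κ : ℕ), IsPrimeDivisor E D → IsPrimeDivisor E' G →
      closure (f '' D) = G → 0 < κ → (∃ z ∈ D, ∃ e g w, IsLocalEq E D e z ∧
        IsLocalEq E' G g (f z) ∧ HolAt E w z ∧ w z ≠ 0 ∧ ∀ᶠ x in 𝓝 z, g (f x) = e x ^ κ * w x) →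
      (κ : ℝ) * B G ≤ κ - 1 + Δ D)
    {j₁ j₂ : ℕ} (h₁ : KodGE E₀ (fun (D : Set F) p g => IsLocalEq E₀ D g p) 0 j₁)
    (h₂ : KodGE E' (fun (G : Set Y) z g => IsLocalEq E' G g z) B j₂) :
    KodGE E (fun (D : Set Z) z g => IsLocalEq E D g z) Δ (j₁ + j₂) := by
  let e₀ : E ≃L[ℂ] (E' × E₀) := ContinuousLinearEquiv.ofFinrankEq (by
    rw [hE, Module.finrank_prod])
  obtain ⟨hI, hUS, hS⟩ := iso_of hB
  exact core (fun x => hf x) hS hSd hI hUS e₀ (thin_of hthin)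
    (fun m s hm hs => by
      obtain ⟨𝒮, h1, h2, h3, h4⟩ := orbit_of (fun x => hf x) hB hM e₀ m (fun _ => 0) s hm
        (by simp) hs.isSection
      exact ⟨𝒮, h1, h2, fun s' hs' => sec_of_isSection (fun _ => rfl) (h3 s' hs'), h4⟩)
    hsnc hB₁ hBD h₁ h₂

theorem snc01 {Δ : Set X → ℝ} (h : IsSNCBoundary E Δ) (D : Set X) : 0 ≤ Δ D ∧ Δ D ≤ 1 := by
  obtain ⟨q, h1, h2, h3⟩ := h.rational D
  rw [h1]
  exact ⟨by exact_mod_cast h2, by exact_mod_cast h3⟩

/-- holomorphic fibrations on a compact manifold. -/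
theorem main_hol [CompactSpace X] [ConnectedSpace X] [T2Space Y]
    (hE : Module.finrank ℂ E = Module.finrank ℂ E' + Module.finrank ℂ E₀)
    (f : X → Y) (hf : ContMDiff 𝓘(ℂ, E) 𝓘(ℂ, E') ω f) (hfib : ∀ y, IsConnected (f ⁻¹' {y}))
    (S : Set Y) {ι : Type u} (U : ι → Set Y) (q : ι → X → F)
    (hB : J.IsFibreBundle E E' E₀ f S U q) (hM : J.HasFiniteMonodromy E₀ f U q 0)
    (hthin : J.IsThin E E' f S) (Δ : Set X → ℝ) (hsnc : J.IsSNC E Δ)
    (hBS : ∀ G, J.orbBase E E' f Δ G ≠ 0 → G ⊆ S) :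
    J.kod E₀ (fun (D : Set F) p g => J.IsLocalEq E₀ D g p) 0 +
      J.kod E' (fun (G : Set Y) z g => J.IsLocalEq E' G g z) (J.orbBase E E' f Δ) ≤
      J.kod E (fun (D : Set X) z g => J.IsLocalEq E D g z) Δ := by
  classical
  rw [JB.kod_eq, JB.kod_eq, JB.kod_eq, JB.orbBase_eq]
  rw [JB.orbBase_eq] at hBS
  have hsurj : Function.Surjective f := fun y => (hfib y).nonempty
  have hfc : Continuous f := hf.continuous
  have hsnc' := JB.snc hsnc
  -- `S` is nowhere dense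
  have hSd : Dense Sᶜ := by
    have h1 : Dense (f ⁻¹' Sᶜ) := by
      intro x
      obtain ⟨h, -, hne, hev⟩ := hthin x
      rw [mem_closure_iff_frequently]
      intro hcon
      apply hne
      filter_upwards [hcon, hev] with z hz hz'
      exact hz'.1 (not_not.1 hz)
    have h2 := hsurj.denseRange.dense_image hfc h1
    exact h2.mono (image_preimage_subset f _)
  -- the fibre is compact and connected
  obtain ⟨x₁⟩ := (inferInstance : Nonempty X)
  have hne : (Sᶜ : Set Y).Nonempty := by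
    have : Nonempty Y := ⟨f x₁⟩
    exact hSd.nonempty
  obtain ⟨y₁, hy₁⟩ := hne
  obtain ⟨a, ha⟩ := (hB.1 y₁).1 hy₁
  have him : q a '' (f ⁻¹' {y₁}) = univ := by
    refine eq_univ_of_forall fun p => ?_
    obtain ⟨x, ⟨hx, hxp⟩, -⟩ := (hB.2 a).2.1 y₁ ha p
    exact ⟨x, hx, hxp⟩
  have hqc : ContinuousOn (q a) (f ⁻¹' {y₁}) := by
    intro x hx
    have hx' : f x ∈ U a := by rw [show f x = y₁ from hx]; exact ha
    exact ((hB.2 a).2.2 x hx').1.continuousAt.continuousWithinAt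
  have hFc : CompactSpace F := by
    rw [← isCompact_univ_iff, ← him]
    exact (isClosed_singleton.preimage hfc).isCompact.image_of_continuousOn hqc
  have hFconn : PreconnectedSpace F := by
    rw [preconnectedSpace_iff_univ, ← him]
    exact (hfib y₁).isPreconnected.image _ hqc
  refine kod_add_le fun j₁ j₂ h₁ h₂ => main_core hE hf hSd hB hM hthin hsnc' (fun G hG => ⟨?_,
    hBS G hG⟩) (fun D G κ hD hG hDG hκ hwit => ?_) h₁ h₂
  · by_contra h
    exact hG (by unfold orbBase; rw [if_neg h])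
  · obtain ⟨h0, h1⟩ := snc01 hsnc' D
    refine orbBase_mul_le₁ hκ hG hD ?_ hwit h0 h1
    rw [← hDG]
    exact ((hD.1.isCompact.image hfc).isClosed.closure_eq).symm

end Main

end Vale.Agent.P281.ISO
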