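import Vale.Agent.P281.ISO.LiftP

open scoped Manifold ContDiff Topology
open Set Filter Metric

namespace Vale.Agent.P281.ISO

open Vale.Agent.P281 Vale.Agent.P281.MF

set_option linter.unusedSectionVars false

section Lin

variable {E E' V : Type} [NormedAddCommGroup E] [NormedSpace ℂ E] [FiniteDimensional ℂ E]
  [NormedAddCommGroup E'] [NormedSpace ℂ E'] [FiniteDimensional ℂ E']
  [NormedAddCommGroup V] [NormedSpace ℂ V] [FiniteDimensional ℂ V]

/-- rank of a linear map -/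
noncomputable def rk (L : E →L[ℂ] V) : ℕ := Module.finrank ℂ (LinearMap.range (L : E →ₗ[ℂ] V))

theorem rk_of_surj (L : E →L[ℂ] V) (S : V →L[ℂ] E') (h : Function.Surjective (S.comp L)) :
    Module.finrank ℂ E' ≤ rk L := by
  have h1 : LinearMap.range ((S : V →ₗ[ℂ] E').comp (L : E →ₗ[ℂ] V)) = ⊤ := by
    rw [LinearMap.range_eq_top]
    exact h
  have h2 : Submodule.map (S : V →ₗ[ℂ] E') (LinearMap.range (L : E →ₗ[ℂ] V)) = ⊤ := by
    rw [← LinearMap.range_comp, h1]
  have h3 := Submodule.finrank_map_le (S : V →ₗ[ℂ] E') (LinearMap.range (L : E →ₗ[ℂ] V))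
  rw [h2, finrank_top] at h3
  exact h3

theorem exists_ST (L : E →L[ℂ] V) (h : Module.finrank ℂ E' ≤ rk L) :
    ∃ (S : V →L[ℂ] E') (T : E' →L[ℂ] E), (S.comp (L.comp T)).det = 1 := by
  classical
  obtain ⟨v, hv⟩ := exists_linearIndependent_of_le_finrank h
  have hx : ∀ i, ∃ x : E, L x = (v i : V) := fun i => (v i).2
  choose x hx using hx
  let b := Module.finBasis ℂ E'
  let T : E' →ₗ[ℂ] E := b.constr ℂ x
  let j : E' →ₗ[ℂ] V := (L : E →ₗ[ℂ] V).comp T
  have hj : ∀ i, j (b i) = (v i : V) := by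
    intro i
    simp only [j, T, LinearMap.comp_apply, Module.Basis.constr_basis]
    exact hx i
  have hv' : LinearIndependent ℂ (fun i => (v i : V)) :=
    hv.map' (LinearMap.range (L : E →ₗ[ℂ] V)).subtype (Submodule.ker_subtype _)
  have hji : LinearMap.ker j = ⊥ := by
    rw [LinearMap.ker_eq_bot']
    intro w hw
    have h1 : ∑ i, b.repr w i • (v i : V) = 0 := by
      rw [← hw]
      conv_rhs => rw [← b.sum_repr w]
      rw [map_sum]
      refine Finset.sum_congr rfl fun i _ => ?_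
      rw [map_smul, hj]
    have h2 := Fintype.linearIndependent_iff.1 hv' _ h1
    rw [← b.sum_repr w]
    exact Finset.sum_eq_zero fun i _ => by rw [h2 i, zero_smul]
  obtain ⟨S, hS⟩ := LinearMap.exists_leftInverse_of_injective j hji
  refine ⟨LinearMap.toContinuousLinearMap S, LinearMap.toContinuousLinearMap T, ?_⟩
  have h3 : (LinearMap.toContinuousLinearMap S).comp (L.comp (LinearMap.toContinuousLinearMap T)) =
      ContinuousLinearMap.id ℂ E' := by
    refine ContinuousLinearMap.ext fun w => ?_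
    exact LinearMap.congr_fun hS w
  rw [h3]
  simp [ContinuousLinearMap.det]

/-- the key statement of linear algebra. -/
theorem rk_iff {A : E →L[ℂ] E'} {ε : E →L[ℂ] ℂ} {γ : E' →L[ℂ] ℂ} {c : ℂ} (hε : ε ≠ 0) (hγ : γ ≠ 0)
    (h : ∀ ξ, γ (A ξ) = c * ε ξ) :
    Module.finrank ℂ E' ≤ rk (A.prod ε) ↔ ∀ η, γ η = 0 → ∃ ξ, ε ξ = 0 ∧ A ξ = η := by
  constructor
  · intro hr η hη
    let N : E' × ℂ →ₗ[ℂ] ℂ := (γ : E' →ₗ[ℂ] ℂ).comp (LinearMap.fst ℂ E' ℂ) -
      c • LinearMap.snd ℂ E' ℂ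
    have hN : ∀ p, N p = γ p.1 - c * p.2 := fun p => rfl
    have hN0 : N ≠ 0 := by
      intro h0
      apply hγ
      refine ContinuousLinearMap.ext fun w => ?_
      have := LinearMap.congr_fun h0 (w, 0)
      rw [hN] at this
      simpa using this
    have h1 := Module.Dual.finrank_ker_add_one_of_ne_zero (f := N) hN0
    rw [Module.finrank_prod, Module.finrank_self] at h1
    have hle : LinearMap.range ((A.prod ε : E →L[ℂ] E' × ℂ) : E →ₗ[ℂ] E' × ℂ) ≤ LinearMap.ker N := by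
      rintro _ ⟨ξ, rfl⟩
      rw [LinearMap.mem_ker, hN]
      show γ (A ξ) - c * ε ξ = 0
      rw [h, sub_self]
    have heq := Submodule.eq_of_le_of_finrank_le hle (by
      have h2 : Module.finrank ℂ (LinearMap.ker N) = Module.finrank ℂ E' := by omega
      rw [h2]
      exact hr)
    have h3 : ((η, 0) : E' × ℂ) ∈ LinearMap.ker N := by
      rw [LinearMap.mem_ker, hN]
      simp [hη]
    rw [← heq] at h3
    obtain ⟨ξ, hξ⟩ := h3
    have h4 : (A ξ, ε ξ) = ((η, 0) : E' × ℂ) := hξ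
    exact ⟨ξ, (Prod.mk.inj h4).2, (Prod.mk.inj h4).1⟩
  · intro hs
    obtain ⟨ξ₁, hξ₁⟩ : ∃ ξ, ε ξ = 1 := by
      obtain ⟨ξ, hξ⟩ : ∃ ξ, ε ξ ≠ 0 := by
        by_contra hcon
        push Not at hcon
        exact hε (ContinuousLinearMap.ext hcon)
      exact ⟨(ε ξ)⁻¹ • ξ, by simp [hξ]⟩
    obtain ⟨w, hw⟩ : ∃ ξ, γ ξ = 1 := by
      obtain ⟨ξ, hξ⟩ : ∃ ξ, γ ξ ≠ 0 := by
        by_contra hcon
        push Not at hcon
        exact hγ (ContinuousLinearMap.ext hcon)
      exact ⟨(γ ξ)⁻¹ • ξ, by simp [hξ]⟩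
    let S : E' × ℂ →L[ℂ] E' :=
      (ContinuousLinearMap.id ℂ E' - γ.smulRight w).comp (ContinuousLinearMap.fst ℂ E' ℂ) +
        (ContinuousLinearMap.snd ℂ E' ℂ).smulRight w
    have hS : ∀ p : E' × ℂ, S p = p.1 - γ p.1 • w + p.2 • w := fun p => rfl
    refine rk_of_surj _ S ?_
    intro η
    set η₀ := η - γ η • w - γ η • (A ξ₁ - γ (A ξ₁) • w) with hη₀
    have hγ0 : γ η₀ = 0 := by
      simp [hη₀, hw]
    obtain ⟨ξ₀, h1, h2⟩ := hs η₀ hγ0
    refine ⟨γ η • ξ₁ + ξ₀, ?_⟩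
    show S (A (γ η • ξ₁ + ξ₀), ε (γ η • ξ₁ + ξ₀)) = η
    rw [hS]
    simp only [map_add, map_smul, h1, h2, hξ₁, hγ0, smul_eq_mul, mul_one, add_zero]
    rw [hη₀]
    module

theorem rk_comp_left {V' : Type} [NormedAddCommGroup V'] [NormedSpace ℂ V']
    [FiniteDimensional ℂ V'] (L : E →L[ℂ] V) (M : V →L[ℂ] V') (hM : Function.Injective M) :
    rk (M.comp L) = rk L := by
  unfold rk
  have h1 : LinearMap.range ((M.comp L : E →L[ℂ] V') : E →ₗ[ℂ] V') =
      Submodule.map (M : V →ₗ[ℂ] V') (LinearMap.range (L : E →ₗ[ℂ] V)) := by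
    rw [← LinearMap.range_comp]
    rfl
  rw [h1]
  exact (Submodule.equivMapOfInjective (M : V →ₗ[ℂ] V') hM _).finrank_eq.symm

theorem rk_comp_right {E₁ : Type} [NormedAddCommGroup E₁] [NormedSpace ℂ E₁]
    (L : E →L[ℂ] V) (M : E₁ →L[ℂ] E) (hM : Function.Surjective M) :
    Module.finrank ℂ (LinearMap.range ((L.comp M : E₁ →L[ℂ] V) : E₁ →ₗ[ℂ] V)) = rk L := by
  unfold rk
  have h1 : LinearMap.range ((L.comp M : E₁ →L[ℂ] V) : E₁ →ₗ[ℂ] V) =
      LinearMap.range (L : E →ₗ[ℂ] V) := by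
    have h2 := LinearMap.range_comp_of_range_eq_top (f := (M : E₁ →ₗ[ℂ] E)) (L : E →ₗ[ℂ] V)
      (LinearMap.range_eq_top.2 hM)
    exact h2
  rw [h1]

end Lin

section GG

variable (E E' V : Type) [NormedAddCommGroup E] [NormedSpace ℂ E] [FiniteDimensional ℂ E]
  [NormedAddCommGroup E'] [NormedSpace ℂ E'] [FiniteDimensional ℂ E']
  [NormedAddCommGroup V] [NormedSpace ℂ V] [FiniteDimensional ℂ V]

/-- a compact space of parameters -/
def KK : Type := ↥(closedBall (0 : (V →L[ℂ] E') × (E' →L[ℂ] E)) 1)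

noncomputable instance : TopologicalSpace (KK E E' V) :=
  inferInstanceAs (TopologicalSpace ↥(closedBall (0 : (V →L[ℂ] E') × (E' →L[ℂ] E)) 1))

instance : CompactSpace (KK E E' V) := by
  have : ProperSpace ((V →L[ℂ] E') × (E' →L[ℂ] E)) := FiniteDimensional.proper ℂ _
  exact isCompact_iff_compactSpace.1 (isCompact_closedBall (0 : (V →L[ℂ] E') × (E' →L[ℂ] E)) 1)

variable {E E' V}

/-- matrix entries -/
noncomputable def ent (i j : Fin (Module.finrank ℂ E')) : (E →L[ℂ] V) →L[ℂ] C(KK E E' V, ℂ) :=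
  LinearMap.toContinuousLinearMap
    { toFun := fun L => ⟨fun k => (Module.finBasis ℂ E').coord i
          (k.1.1 (L (k.1.2 (Module.finBasis ℂ E' j)))), by
        have h1 : Continuous (LinearMap.toContinuousLinearMap
          ((Module.finBasis ℂ E').coord i)) := ContinuousLinearMap.continuous _
        have h2 : Continuous (fun k : KK E E' V => k.1.1 (L (k.1.2 (Module.finBasis ℂ E' j)))) := by
          have h3 : Continuous (fun k : KK E E' V => k.1) := continuous_subtype_val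
          have h4 : Continuous (fun k : KK E E' V => L (k.1.2 (Module.finBasis ℂ E' j))) :=
            L.continuous.comp (h3.snd.clm_apply continuous_const)
          exact h3.fst.clm_apply h4
        exact h1.comp h2⟩
      map_add' := by
        intro A B
        ext k
        simp
      map_smul' := by
        intro c A
        ext k
        simp }

/-- the family of the determinants `det (S L T)`. -/
noncomputable def GG (L : E →L[ℂ] V) : C(KK E E' V, ℂ) := (Matrix.of fun i j => ent i j L).det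

theorem contDiff_GG : ContDiff ℂ ω (GG : (E →L[ℂ] V) → C(KK E E' V, ℂ)) := by
  classical
  have h : (GG : (E →L[ℂ] V) → C(KK E E' V, ℂ)) = fun L =>
      ∑ σ : Equiv.Perm (Fin (Module.finrank ℂ E')), ((Equiv.Perm.sign σ : ℤ) : C(KK E E' V, ℂ)) *
        ∏ i, ent (σ i) i L := by
    funext L
    rw [GG, Matrix.det_apply']
    rfl
  rw [h]
  refine ContDiff.sum fun σ _ => contDiff_const.mul (contDiff_prod fun i _ => ?_)
  exact ContinuousLinearMap.contDiff (𝕜 := ℂ) (E := E →L[ℂ] V) (F := C(KK E E' V, ℂ))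
    (ent (σ i) i)

theorem GG_apply (L : E →L[ℂ] V) (k : KK E E' V) :
    GG L k = (k.1.1.comp (L.comp k.1.2)).det := by
  classical
  have h1 : GG L k = (ContinuousMap.evalAlgHom ℂ ℂ k).toRingHom (GG L) := rfl
  rw [h1, GG, RingHom.map_det, ContinuousLinearMap.det,
    ← LinearMap.det_toMatrix (Module.finBasis ℂ E')]
  congr 1
  ext i j
  rw [LinearMap.toMatrix_apply]
  rfl

theorem GG_ne_zero (L : E →L[ℂ] V) :
    (GG L : C(KK E E' V, ℂ)) ≠ 0 ↔ Module.finrank ℂ E' ≤ rk L := by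
  constructor
  · intro h
    obtain ⟨k, hk⟩ : ∃ k : KK E E' V, GG L k ≠ 0 := by
      by_contra hcon
      push Not at hcon
      exact h (ContinuousMap.ext hcon)
    rw [GG_apply] at hk
    refine rk_of_surj L k.1.1 ?_
    have h2 := (LinearMap.equivOfDetNeZero
      ((k.1.1.comp (L.comp k.1.2) : E' →L[ℂ] E') : E' →ₗ[ℂ] E') hk)
    intro w
    refine ⟨k.1.2 ((LinearMap.equivOfDetNeZero
      ((k.1.1.comp (L.comp k.1.2) : E' →L[ℂ] E') : E' →ₗ[ℂ] E') hk).symm w), ?_⟩
    exact (LinearMap.equivOfDetNeZero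
      ((k.1.1.comp (L.comp k.1.2) : E' →L[ℂ] E') : E' →ₗ[ℂ] E') hk).apply_symm_apply w
  · intro h h0
    obtain ⟨S, T, hST⟩ := exists_ST L h
    set r : ℝ := (‖(S, T)‖ + 1)⁻¹ with hr
    have hr0 : 0 < r := by positivity
    have hmem : ((r : ℂ) • (S, T) : (V →L[ℂ] E') × (E' →L[ℂ] E)) ∈
        closedBall (0 : (V →L[ℂ] E') × (E' →L[ℂ] E)) 1 := by
      rw [mem_closedBall_zero_iff, norm_smul, Complex.norm_real, Real.norm_of_nonneg hr0.le, hr,
        inv_mul_le_one₀ (by positivity)]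
      linarith
    let k : KK E E' V := ⟨(r : ℂ) • (S, T), hmem⟩
    have h1 : (GG L : C(KK E E' V, ℂ)) k = 0 := by rw [h0]; rfl
    rw [GG_apply] at h1
    have h2 : ((r : ℂ) • (S, T) : (V →L[ℂ] E') × (E' →L[ℂ] E)).1.comp
        (L.comp ((r : ℂ) • (S, T) : (V →L[ℂ] E') × (E' →L[ℂ] E)).2) =
        ((r : ℂ) * (r : ℂ)) • (S.comp (L.comp T)) := by
      refine ContinuousLinearMap.ext fun w => ?_
      show (r : ℂ) • S (L ((r : ℂ) • T w)) = ((r : ℂ) * (r : ℂ)) • S (L (T w))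
      rw [map_smul, map_smul, smul_smul]
    have h1' : (((r : ℂ) • (S, T) : (V →L[ℂ] E') × (E' →L[ℂ] E)).1.comp
        (L.comp ((r : ℂ) • (S, T) : (V →L[ℂ] E') × (E' →L[ℂ] E)).2)).det = 0 := h1
    rw [h2] at h1'
    have h3 : (((r : ℂ) * (r : ℂ)) • (S.comp (L.comp T)) : E' →L[ℂ] E').det =
        ((r : ℂ) * (r : ℂ)) ^ (Module.finrank ℂ E') * (S.comp (L.comp T)).det := by
      unfold ContinuousLinearMap.det
      rw [← LinearMap.det_smul]
      rfl
    rw [h3, hST, mul_one] at h1'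
    have h4 : (r : ℂ) ≠ 0 := by exact_mod_cast hr0.ne'
    exact pow_ne_zero _ (mul_ne_zero h4 h4) h1'

end GG

section Main

universe u

variable {E E' : Type} [NormedAddCommGroup E] [NormedSpace ℂ E] [FiniteDimensional ℂ E]
  [NormedAddCommGroup E'] [NormedSpace ℂ E'] [FiniteDimensional ℂ E']
variable {X Y : Type u} [TopologicalSpace X] [ChartedSpace E X] [IsManifold 𝓘(ℂ, E) ω X]
  [TopologicalSpace Y] [ChartedSpace E' Y] [IsManifold 𝓘(ℂ, E') ω Y]

/-- the rank does not depend on the local equation. -/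
theorem rk_unit (A : E →L[ℂ] E') (ε : E →L[ℂ] ℂ) {u : ℂ} (hu : u ≠ 0) :
    rk (A.prod (u • ε)) = rk (A.prod ε) := by
  let M : E' × ℂ →L[ℂ] E' × ℂ := (ContinuousLinearMap.fst ℂ E' ℂ).prod
    (u • ContinuousLinearMap.snd ℂ E' ℂ)
  have hM : Function.Injective M := by
    rintro ⟨a, b⟩ ⟨a', b'⟩ h
    have h1 : (a, u • b) = ((a', u • b') : E' × ℂ) := h
    have h2 := (Prod.mk.inj h1).2
    rw [(Prod.mk.inj h1).1]
    rw [smul_right_injective ℂ hu h2]
  rw [← rk_comp_left (A.prod ε) M hM]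
  rfl

/-- the rank of `(df, de)` at the points of `D` is at least `dim Y`. -/
def Big (E E' : Type) [NormedAddCommGroup E] [NormedSpace ℂ E]
    [NormedAddCommGroup E'] [NormedSpace ℂ E'] {X Y : Type u} [TopologicalSpace X]
    [ChartedSpace E X] [TopologicalSpace Y] [ChartedSpace E' Y] (f : X → Y) (D : Set X) : Set X :=
  {z | z ∈ D ∧ ∃ e, IsLocalEq E D e z ∧ Module.finrank ℂ E' ≤ rk ((dM E E' f z).prod (dif E e z))}

theorem big_iff {f : X → Y} {D : Set X} {e : X → ℂ} {z : X} (hz : z ∈ D)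
    (he : IsLocalEq E D e z) :
    z ∈ Big E E' f D ↔ Module.finrank ℂ E' ≤ rk ((dM E E' f z).prod (dif E e z)) := by
  constructor
  · rintro ⟨-, e', he', h⟩
    obtain ⟨u, hu, hu0, hue⟩ := leq_unit he he'
    have h1 : dif E e' z = u z • dif E e z := by
      have h2 : dif E e' z = dif E (fun z => e z * u z) z := by
        unfold dif
        exact Filter.EventuallyEq.mfderiv_eq hue
      rw [h2, dif_mul he.holAt hu (he.mem_iff.1 hz)]
    rw [h1, rk_unit _ _ hu0] at h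
    exact h
  · intro h
    exact ⟨hz, e, he, h⟩

/-- `g ∘ f` is divisible by the local equation. -/
theorem dif_div {f : X → Y} (hf : ∀ x, HolM E E' f x) {D : Set X} {G : Set Y}
    (hDG : ∀ z ∈ D, f z ∈ G) {e : X → ℂ} {g : Y → ℂ} {z : X} (hz : z ∈ D)
    (he : IsLocalEq E D e z) (hd : dif E e z ≠ 0) (hg : IsLocalEq E' G g (f z)) :
    ∃ c : ℂ, ∀ ξ, dif E' g (f z) (dM E E' f z ξ) = c * dif E e z ξ := by
  have hfc : ContinuousAt f z := (hf z).continuousAt
  have hgf : HolV E (fun w => g (f w)) z := HolV.comp hg.holAt (hf z)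
  have hzero : ∀ᶠ w in 𝓝 z, e w = 0 → g (f w) = 0 := by
    filter_upwards [he.eventually, hfc.eventually hg.eventually] with w hw hgw h0
    exact hgw.mem_iff.1 (hDG w (hw.mem_iff.2 h0))
  obtain ⟨Q, hQ, hQe⟩ := extendM hgf he.holAt (leq_not_zero he) (by
    filter_upwards [he.holAt.eventually, hgf.eventually, dif_ne_eventually he.holAt hd,
      eventually_eventually_nhds.2 hzero] with w hw hgw hdw hzw h0
    refine subset_closure ⟨h0, ?_⟩
    set φ := chartAt E w with hφ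
    have hs : w ∈ φ.source := mem_chart_source E w
    obtain ⟨C, hC⟩ := flat_bound (g := e ∘ φ.symm) (g' := (fun w => g (f w)) ∘ φ.symm)
      (x := φ w) ((hw.rep hs).of_le (by simp)) ((hgw.rep hs).of_le (by simp))
      (by
        intro h1
        apply hdw
        rw [dif_eq_dV, dV_eq_chart hs hw]
        simp only [← hφ]
        rw [h1]
        ext; simp)
      (by simp only [Function.comp_apply, φ.left_inv hs]; exact h0)
      ((tendsto_symm w).eventually hzw)
    refine ⟨C, ?_⟩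
    filter_upwards [(tendsto_chart w).eventually hC, φ.open_source.mem_nhds hs] with y hy hys
    simpa only [Function.comp_apply, ← hφ, φ.left_inv hys] using hy)
  refine ⟨Q z, fun ξ => ?_⟩
  have h1 : dif E (fun w => g (f w)) z = dif E (fun w => e w * Q w) z := by
    unfold dif
    exact Filter.EventuallyEq.mfderiv_eq hQe
  rw [dif_mul he.holAt hQ (he.mem_iff.1 hz), dif_comp hg.holAt (hf z)] at h1
  exact congrArg (fun A : E →L[ℂ] ℂ => A ξ) h1

theorem rod_smoothX {D : Set X} (hD : IsPrimeDivisor E D) : ROD D (smoothLocus E D) := by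
  refine ⟨fun z hz => hz.1, dense_smooth hD, ?_⟩
  rintro z ⟨hz, e, he, hd⟩
  filter_upwards [he.eventually, dif_ne_eventually he.holAt hd] with w hw hdw hwD
  exact ⟨hwD, e, hw, hdw⟩

theorem rod_smoothY {f : X → Y} (hf : ∀ x, HolM E E' f x) {D : Set X} {G : Set Y}
    (hD : IsPrimeDivisor E D) (hG : IsPrimeDivisor E' G) (hDG : ∀ z ∈ D, f z ∈ G)
    (hex : ∃ z ∈ D, f z ∈ smoothLocus E' G) : ROD D {z | z ∈ D ∧ f z ∈ smoothLocus E' G} := by
  have hfc : ∀ x, ContinuousAt f x := fun x => (hf x).continuousAt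
  refine ⟨fun z hz => hz.1, ?_, ?_⟩
  · have h1 : D ⊆ closure (D \ {z | f z ∉ smoothLocus E' G}) := by
      refine dense_in_prime (W := E' →L[ℂ] ℂ) hD (fun x hx => ?_) ?_
      · obtain ⟨g, hg⟩ := hG.2.1 (f x)
        set ψ := chartAt E' (f x) with hψ
        have hs : f x ∈ ψ.source := mem_chart_source E' (f x)
        refine ⟨fun z => fderiv ℂ (g ∘ ψ.symm) (ψ (f z)), ?_, ?_⟩
        · refine HolV.comp (E' := E') (h := fun y => fderiv ℂ (g ∘ ψ.symm) (ψ y)) ?_ (hf x)
          exact HolV.comp_contDiff (G := fderiv ℂ (g ∘ ψ.symm))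
            ((hg.holAt.rep hs).fderiv_right (by simp)) (HolV.chart hs)
        · filter_upwards [(hfc x).eventually hg.eventually,
            (hfc x).eventually (ψ.open_source.mem_nhds hs)] with z hgz hzs hzD
          have h2 : f z ∈ smoothLocus E' G ↔ dif E' g (f z) ≠ 0 := by
            constructor
            · rintro ⟨h3, g', hg', hd'⟩
              exact leq_dif_ne hg' hgz h3 hd'
            · intro h3
              exact ⟨hDG z hzD, g, hgz, h3⟩
          show f z ∉ smoothLocus E' G ↔ _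
          rw [h2, not_not, dif_eq_dV, dV_eq_chart hzs hgz.holAt]
          simp only [← hψ]
          constructor
          · intro h0
            refine ContinuousLinearMap.ext fun v => ?_
            obtain ⟨u, rfl⟩ := chart_surj (E := E') hzs v
            exact congrArg (fun A : E' →L[ℂ] ℂ => A u) h0
          · intro h0
            rw [h0]; ext; simp
      · obtain ⟨z, hz, hfz⟩ := hex
        exact ⟨z, hz, fun h => h hfz⟩
    refine h1.trans (closure_mono fun z hz => ?_)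
    refine ⟨hz.1, ?_⟩
    by_contra hcon
    exact hz.2 hcon
  · rintro z ⟨hzD, hzG, g, hg, hd⟩
    filter_upwards [(hfc z).eventually (dif_ne_eventually hg.holAt hd),
      (hfc z).eventually hg.eventually] with w hw hgw hwD
    exact ⟨hwD, hDG w hwD, g, hgw, hw⟩

/-- local description of `Big` -/
theorem big_local {f : X → Y} (hf : ∀ x, HolM E E' f x) {D : Set X} {e : X → ℂ} {x : X}
    (he : IsLocalEq E D e x) : ∃ θ : X → C(KK E E' (E' × ℂ), ℂ), HolV E θ x ∧
      ∀ᶠ z in 𝓝 x, z ∈ D → (z ∈ Big E E' f D ↔ θ z ≠ 0) := by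
  set φ := chartAt E x with hφ
  set ψ := chartAt E' (f x) with hψ
  have hs : x ∈ φ.source := mem_chart_source E x
  have hs' : f x ∈ ψ.source := mem_chart_source E' (f x)
  have hfc : ContinuousAt f x := (hf x).continuousAt
  let A₁ : X → E' := fun z => ψ (f z)
  have hA₁ : ∀ z, f z ∈ ψ.source → HolV E A₁ z := fun z hz =>
    HolV.comp (h := (ψ : Y → E')) (HolV.chart hz) (hf z)
  let B : X → (E →L[ℂ] E' × ℂ) := fun z =>
    fderiv ℂ ((fun w => (A₁ w, e w)) ∘ φ.symm) (φ z)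
  have hAe : HolV E (fun w => (A₁ w, e w)) x := HolV.prodMk (hA₁ x hs') he.holAt
  have hB : HolV E B x := by
    refine HolV.comp_contDiff (G := fderiv ℂ ((fun w => (A₁ w, e w)) ∘ φ.symm)) ?_
      (HolV.chart hs)
    exact (hAe.rep hs).fderiv_right (by simp)
  refine ⟨fun z => GG (B z), HolV.comp_contDiff (G := GG) contDiff_GG.contDiffAt hB, ?_⟩
  filter_upwards [φ.open_source.mem_nhds hs, hfc.eventually (ψ.open_source.mem_nhds hs'),
    he.eventually, hAe.eventually] with z hz hfz hez hAez hzD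
  rw [big_iff hzD hez, GG_ne_zero]
  have h1 : (B z).comp (dV E (φ : X → E) z) =
      ((dV E' (ψ : Y → E') (f z)).comp (dM E E' f z)).prod (dif E e z) := by
    have h2 := dV_eq_chart (E := E) hz hAez
    rw [← dV_comp (h := (ψ : Y → E')) (HolV.chart hfz) (hf z), dif_eq_dV,
      ← dV_prodMk (hA₁ z hfz) hez.holAt]
    exact h2.symm
  have h3 : rk (B z) = rk (((dV E' (ψ : Y → E') (f z)).comp (dM E E' f z)).prod (dif E e z)) := by
    rw [← h1]
    exact (rk_comp_right (B z) _ (chart_surj hz)).symm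
  have h4 : rk (((dV E' (ψ : Y → E') (f z)).comp (dM E E' f z)).prod (dif E e z)) =
      rk ((dM E E' f z).prod (dif E e z)) := by
    let M : E' × ℂ →L[ℂ] E' × ℂ :=
      ((dV E' (ψ : Y → E') (f z)).comp (ContinuousLinearMap.fst ℂ E' ℂ)).prod
        (ContinuousLinearMap.snd ℂ E' ℂ)
    have hinj : Function.Injective (dV E' (ψ : Y → E') (f z)) := by
      have h5 := chart_surj (E := E') hfz
      exact (LinearMap.injective_iff_surjective
        (f := ((dV E' (ψ : Y → E') (f z) : E' →L[ℂ] E') : E' →ₗ[ℂ] E'))).2 h5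
    have hM : Function.Injective M := by
      rintro ⟨a, b⟩ ⟨a', b'⟩ h
      have h1 : (dV E' (ψ : Y → E') (f z) a, b) =
        ((dV E' (ψ : Y → E') (f z) a', b') : E' × ℂ) := h
      rw [hinj (Prod.mk.inj h1).1, (Prod.mk.inj h1).2]
    rw [← rk_comp_left ((dM E E' f z).prod (dif E e z)) M hM]
    rfl
  rw [h3, h4]

theorem rod_big {f : X → Y} (hf : ∀ x, HolM E E' f x) {D : Set X}
    (hD : IsPrimeDivisor E D) (hex : ∃ z, z ∈ Big E E' f D) : ROD D (Big E E' f D) := by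
  refine ⟨fun z hz => hz.1, ?_, ?_⟩
  · have h1 : D ⊆ closure (D \ (Big E E' f D)ᶜ) := by
      refine dense_in_prime (W := C(KK E E' (E' × ℂ), ℂ)) hD (fun x hx => ?_) ?_
      · obtain ⟨e, he⟩ := hD.2.1 x
        obtain ⟨θ, hθ, hθe⟩ := big_local hf he
        refine ⟨θ, hθ, ?_⟩
        filter_upwards [hθe] with z hz hzD
        rw [mem_compl_iff, hz hzD, not_not]
      · obtain ⟨z, hz⟩ := hex
        exact ⟨z, hz.1, fun h => h hz⟩
    refine h1.trans (closure_mono fun z hz => ?_)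
    by_contra hcon
    exact hz.2 hcon
  · intro z hz
    obtain ⟨e, he⟩ := hD.2.1 z
    obtain ⟨θ, hθ, hθe⟩ := big_local hf he
    have h1 : θ z ≠ 0 := (hθe.self_of_nhds hz.1).1 hz
    filter_upwards [hθ.continuousAt.eventually_ne h1, hθe] with w hw1 hw2 hwD
    exact (hw2 hwD).2 hw1

/-- The submersive points of `D → G` are dense in `D` once there is one. -/
theorem sub_dense {f : X → Y} (hf : ∀ x, HolM E E' f x) {D : Set X} {G : Set Y}
    (hD : IsPrimeDivisor E D) (hG : IsPrimeDivisor E' G) (hDG : ∀ z ∈ D, f z ∈ G)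
    (hex : ∃ z ∈ D, ∃ e g, IsLocalEq E D e z ∧ dif E e z ≠ 0 ∧ IsLocalEq E' G g (f z) ∧
      dif E' g (f z) ≠ 0 ∧ ∀ η, dif E' g (f z) η = 0 → ∃ ξ, dif E e z ξ = 0 ∧
        dM E E' f z ξ = η) :
    ROD D {z | z ∈ D ∧ ∃ e g, IsLocalEq E D e z ∧ dif E e z ≠ 0 ∧ IsLocalEq E' G g (f z) ∧
      dif E' g (f z) ≠ 0 ∧ ∀ η, dif E' g (f z) η = 0 → ∃ ξ, dif E e z ξ = 0 ∧
        dM E E' f z ξ = η} := by
  obtain ⟨z₀, hz₀, e₀, g₀, he₀, hd₀, hg₀, hdg₀, hs₀⟩ := hex
  obtain ⟨c₀, hc₀⟩ := dif_div hf hDG hz₀ he₀ hd₀ hg₀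
  have hb₀ : z₀ ∈ Big E E' f D := ⟨hz₀, e₀, he₀, (rk_iff hd₀ hdg₀ hc₀).2 hs₀⟩
  have key := ((rod_smoothX hD).inter (rod_smoothY hf hD hG hDG
    ⟨z₀, hz₀, hDG z₀ hz₀, g₀, hg₀, hdg₀⟩)).inter (rod_big hf hD ⟨z₀, hb₀⟩)
  convert key using 1
  ext z
  constructor
  · rintro ⟨hz, e, g, he, hd, hg, hdg, hs⟩
    obtain ⟨c, hc⟩ := dif_div hf hDG hz he hd hg
    exact ⟨⟨⟨hz, e, he, hd⟩, hz, hDG z hz, g, hg, hdg⟩, hz, e, he, (rk_iff hd hdg hc).2 hs⟩
  · rintro ⟨⟨⟨hz, e, he, hd⟩, -, -, g, hg, hdg⟩, hb⟩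
    obtain ⟨c, hc⟩ := dif_div hf hDG hz he hd hg
    exact ⟨hz, e, g, he, hd, hg, hdg, (rk_iff hd hdg hc).1 ((big_iff hz he).1 hb)⟩

end Main

end Vale.Agent.P281.ISO
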