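import Vale.Agent.P281.ISO.Factor
import Vale.Agent.P281.ISO.SubDense

/-! P281, isotrivial fibrations: a natural criterion for the hypothesis `IsThin` -/

open scoped Manifold ContDiff Topology
open Set Filter Metric

namespace Vale.Agent.P281.ISO

open Vale.Agent.P281 Vale.Agent.P281.MF

set_option linter.unusedSectionVars false

universe u

section Thin

variable {E E' : Type} [NormedAddCommGroup E] [NormedSpace ℂ E] [FiniteDimensional ℂ E]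
  [NormedAddCommGroup E'] [NormedSpace ℂ E'] [FiniteDimensional ℂ E']
variable {X Y : Type u} [TopologicalSpace X] [ChartedSpace E X] [IsManifold 𝓘(ℂ, E) ω X]
  [TopologicalSpace Y] [ChartedSpace E' Y] [IsManifold 𝓘(ℂ, E') ω Y]

theorem not_zero_mul {g h : X → ℂ} {x : X} (hg : HolV E g x) (hh : HolV E h x)
    (hg0 : ¬ ∀ᶠ z in 𝓝 x, g z = 0) (hh0 : ¬ ∀ᶠ z in 𝓝 x, h z = 0) :
    ¬ ∀ᶠ z in 𝓝 x, g z * h z = 0 := by
  intro hcon
  have h1 : ∃ᶠ z in 𝓝 x, g z ≠ 0 := Filter.not_eventually.1 hg0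
  obtain ⟨y, hy, hgc, hhy, hcy⟩ := (h1.and_eventually (hg.eventually.and
    ((ne_frequently hh hh0).and hcon.eventually_nhds))).exists
  have h2 : ∀ᶠ z in 𝓝 y, g z ≠ 0 := hgc.continuousAt.eventually_ne hy
  obtain ⟨z, hz, hz1, hz2⟩ := (hhy.and_eventually (h2.and hcy)).exists
  exact (mul_ne_zero hz1 hz) hz2

theorem not_zero_prod {ι : Type*} {s : Finset ι} {g : ι → X → ℂ} {x : X}
    (hg : ∀ i ∈ s, HolV E (g i) x) (hg0 : ∀ i ∈ s, ¬ ∀ᶠ z in 𝓝 x, g i z = 0) :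
    ¬ ∀ᶠ z in 𝓝 x, ∏ i ∈ s, g i z = 0 := by
  classical
  induction s using Finset.induction_on with
  | empty =>
    intro hcon
    have := hcon.self_of_nhds
    simp at this
  | insert a s ha ih =>
    have h1 := not_zero_mul (hg a (Finset.mem_insert_self _ _))
      (HolV.prod fun i hi => hg i (Finset.mem_insert_of_mem hi))
      (hg0 a (Finset.mem_insert_self _ _))
      (ih (fun i hi => hg i (Finset.mem_insert_of_mem hi))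
        fun i hi => hg0 i (Finset.mem_insert_of_mem hi))
    simpa only [Finset.prod_insert ha] using h1

/-- the good points are dense in `D` -/
theorem good_dense {f : X → Y} (hf : ∀ x, HolM E E' f x) {𝒢 : Set (Set Y)} {𝒟 : Set (Set X)}
    (h𝒟fin : 𝒟.Finite) (h𝒢 : ∀ G ∈ 𝒢, IsPrimeDivisor E' G) (h𝒟 : ∀ D ∈ 𝒟, IsPrimeDivisor E D)
    (hpre : f ⁻¹' (⋃₀ 𝒢) = ⋃₀ 𝒟) {D : Set X} (hD : D ∈ 𝒟) {G : Set Y} (hG : G ∈ 𝒢)
    (hDG : closure (f '' D) = G) (hex : ∃ z ∈ D, ∃ e g, IsLocalEq E D e z ∧ dif E e z ≠ 0 ∧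
      IsLocalEq E' G g (f z) ∧ dif E' g (f z) ≠ 0 ∧ ∀ η, dif E' g (f z) η = 0 →
        ∃ ξ, dif E e z ξ = 0 ∧ dM E E' f z ξ = η) :
    D ⊆ closure {z | z ∈ D ∧ Good E E' f (⋃₀ 𝒢) z} := by
  have hfc : ∀ x, ContinuousAt f x := fun x => (hf x).continuousAt
  have hDp := h𝒟 D hD
  have hGp := h𝒢 G hG
  have hDG' : ∀ z ∈ D, f z ∈ G := fun z hz => hDG ▸ subset_closure (mem_image_of_mem f hz)
  have R1 := sub_dense hf hDp hGp hDG' hex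
  have R2 : ROD D {z | z ∈ D ∧ ∀ D' ∈ 𝒟, D' ≠ D → id z ∉ D'} :=
    ROD_avoid_all₂ (E := E) (E' := E) (f := (id : X → X)) (fun x => contMDiffAt_id)
      (by rw [image_id, hDp.1.closure_eq]) hDp hDp h𝒟fin h𝒟
  have R3 : ROD D (Big E E' f D) := by
    obtain ⟨z₀, hz₀, e₀, g₀, he₀, hd₀, hg₀, hdg₀, hs₀⟩ := hex
    obtain ⟨c₀, hc₀⟩ := dif_div hf hDG' hz₀ he₀ hd₀ hg₀
    exact rod_big hf hDp ⟨z₀, hz₀, e₀, he₀, (rk_iff hd₀ hdg₀ hc₀).2 hs₀⟩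
  have R := (R1.inter R2).inter R3
  -- the other components
  have hoth : ∀ z, (∀ D' ∈ 𝒟, D' ≠ D → z ∉ D') → ∀ᶠ x in 𝓝 z, ∀ D' ∈ 𝒟, D' ≠ D → x ∉ D' := by
    intro z hz
    rw [Filter.eventually_all_finite h𝒟fin]
    intro D' hD'
    by_cases h : D' = D
    · exact Eventually.of_forall fun x hx => absurd h hx
    · filter_upwards [(h𝒟 D' hD').1.isOpen_compl.mem_nhds (hz D' hD' h)] with x hx _
      exact hx
  have hmem : ∀ x, (∀ D' ∈ 𝒟, D' ≠ D → x ∉ D') → (f x ∈ ⋃₀ 𝒢 ↔ x ∈ D) := by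
    intro x hx
    have h1 : f x ∈ ⋃₀ 𝒢 ↔ x ∈ ⋃₀ 𝒟 := by rw [← hpre]; rfl
    rw [h1]
    constructor
    · rintro ⟨D', hD', hxD'⟩
      by_cases h : D' = D
      · rwa [← h]
      · exact absurd hxD' (hx D' hD' h)
    · intro h
      exact ⟨D, hD, h⟩
  intro z₀ hz₀
  rw [mem_closure_iff_nhds]
  intro O₀ hO₀
  obtain ⟨O, hOO, hOo, hzO⟩ := mem_nhds_iff.1 hO₀
  obtain ⟨z₁, hz₁O, ⟨⟨hz₁, e, g, he, hd, hg, hdg, -⟩, -, hav⟩, hbig⟩ :=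
    mem_closure_iff_nhds.1 (R.2.1 hz₀) O (hOo.mem_nhds hzO)
  have hgf : HolV E (fun z => g (f z)) z₁ := HolV.comp hg.holAt (hf z₁)
  have hne : ¬ ∀ᶠ z in 𝓝 z₁, g (f z) = 0 := by
    intro hcon
    apply leq_not_zero he
    filter_upwards [hcon, hoth z₁ hav, he.eventually, (hfc z₁).eventually hg.eventually] with
      z h1 h2 h3 h4
    exact h3.mem_iff.1 ((hmem z h2).1 ⟨G, hG, h4.mem_iff.2 h1⟩)
  obtain ⟨κ, w, hw, hwe, hfreq⟩ := factor hz₁ he hgf hne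
  have hB : ∀ᶠ z in 𝓝 z₁, z ∈ D → z ∈ Big E E' f D := R3.2.2 z₁ hbig
  have hOe : ∀ᶠ z in 𝓝 z₁, z ∈ O := hOo.mem_nhds hz₁O
  obtain ⟨z, ⟨hzD, hwz⟩, hzO', he', hd', hg', hdg', hw', hwe', hoth', hB'⟩ :=
    (hfreq.and_eventually (hOe.and
      (he.eventually.and ((dif_ne_eventually he.holAt hd).and
      (((hfc z₁).eventually hg.eventually).and
      (((hfc z₁).eventually (dif_ne_eventually hg.holAt hdg)).and (hw.eventually.and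
      (hwe.eventually_nhds.and ((hoth z₁ hav).and hB.eventually_nhds))))))))).exists
  refine ⟨z, hOO hzO', hzD, Or.inr ⟨D, G, e, g, w, κ, hDp, hGp, hDG, hzD, he', hd', hg', hdg',
    hw', hwz, ?_⟩⟩
  filter_upwards [hwe', hoth z hoth', hB', he'.eventually, dif_ne_eventually he'.holAt hd',
    (hfc z).eventually hg'.eventually, (hfc z).eventually (dif_ne_eventually hg'.holAt hdg')]
    with x h1 h2 h3 h4 h5 h6 h7
  refine ⟨h1, hmem x h2, fun hx => ?_⟩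
  obtain ⟨c, hc⟩ := dif_div hf hDG' hx h4 h5 h6
  exact (rk_iff h5 h7 hc).1 ((big_iff hx h4).1 (h3 hx))

/-- **Criterion for thinness.** -/
theorem thin_of_components {f : X → Y} (hf : ∀ x, HolM E E' f x) {𝒢 : Set (Set Y)}
    {𝒟 : Set (Set X)} (h𝒟fin : 𝒟.Finite) (h𝒢 : ∀ G ∈ 𝒢, IsPrimeDivisor E' G)
    (h𝒟 : ∀ D ∈ 𝒟, IsPrimeDivisor E D) (hpre : f ⁻¹' (⋃₀ 𝒢) = ⋃₀ 𝒟)
    (hdom : ∀ D ∈ 𝒟, ∃ G ∈ 𝒢, closure (f '' D) = G ∧ ∃ z ∈ D, ∃ e g, IsLocalEq E D e z ∧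
      dif E e z ≠ 0 ∧ IsLocalEq E' G g (f z) ∧ dif E' g (f z) ≠ 0 ∧
      ∀ η, dif E' g (f z) η = 0 → ∃ ξ, dif E e z ξ = 0 ∧ dM E E' f z ξ = η) :
    ∀ x, ∃ h : X → ℂ, HolV E h x ∧ (¬ ∀ᶠ z in 𝓝 x, h z = 0) ∧ ∀ᶠ z in 𝓝 x,
      (f z ∈ ⋃₀ 𝒢 → h z = 0) ∧ (h z = 0 → z ∈ closure {z | h z = 0 ∧ Good E E' f (⋃₀ 𝒢) z}) := by
  classical
  intro x
  have hch : ∀ D, ∃ e : X → ℂ, D ∈ 𝒟 → IsLocalEq E D e x := by
    intro D
    by_cases hD : D ∈ 𝒟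
    · obtain ⟨e, he⟩ := (h𝒟 D hD).2.1 x
      exact ⟨e, fun _ => he⟩
    · exact ⟨0, fun h => absurd h hD⟩
  choose e he using hch
  have hmemT : ∀ D, D ∈ h𝒟fin.toFinset ↔ D ∈ 𝒟 := fun D => h𝒟fin.mem_toFinset
  have hev : ∀ᶠ z in 𝓝 x, ∀ D ∈ 𝒟, (z ∈ D ↔ e D z = 0) := by
    rw [Filter.eventually_all_finite h𝒟fin]
    intro D hD
    filter_upwards [(he D hD).eventually] with z hz
    exact hz.mem_iff
  refine ⟨fun z => ∏ D ∈ h𝒟fin.toFinset, e D z,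
    HolV.prod fun D hD => (he D ((hmemT D).1 hD)).holAt,
    not_zero_prod (fun D hD => (he D ((hmemT D).1 hD)).holAt)
      fun D hD => leq_not_zero (he D ((hmemT D).1 hD)), ?_⟩
  filter_upwards [hev, hev.eventually_nhds] with z hz hz'
  refine ⟨fun hfz => ?_, fun h0 => ?_⟩
  · have h1 : z ∈ ⋃₀ 𝒟 := by rw [← hpre]; exact hfz
    obtain ⟨D, hD, hzD⟩ := h1
    exact Finset.prod_eq_zero ((hmemT D).2 hD) ((hz D hD).1 hzD)
  · obtain ⟨D, hD, hzD⟩ := Finset.prod_eq_zero_iff.1 h0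
    rw [hmemT] at hD
    obtain ⟨G, hG, hDG, hex⟩ := hdom D hD
    have h2 := mem_closure_iff_frequently.1
      (good_dense hf h𝒟fin h𝒢 h𝒟 hpre hD hG hDG hex ((hz D hD).2 hzD))
    rw [mem_closure_iff_frequently]
    refine (h2.and_eventually hz').mono ?_
    rintro y ⟨⟨hyD, hyg⟩, hy⟩
    exact ⟨Finset.prod_eq_zero ((hmemT D).2 hD) ((hy D hD).1 hyD), hyg⟩

end Thin

end Vale.Agent.P281.ISO
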