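import Vale.Agent.P281.ISO.Main
import Vale.Agent.P281.ISO.CoreQ
import Vale.Agent.P281.ISO.DefsQ
import Vale.Agent.P281.ISO.Nat
import Vale.Agent.P281.ISO.Emb124

open scoped Manifold ContDiff Topology
open Set Filter Metric Asymptotics

namespace Vale.Agent.P281.ISO

open Vale.Agent.P281 Vale.Agent.P281.MF

set_option linter.unusedSectionVars false

universe u

section Main

variable {E E' E₀ : Type} [NormedAddCommGroup E] [NormedSpace ℂ E] [FiniteDimensional ℂ E]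
  [NormedAddCommGroup E'] [NormedSpace ℂ E'] [FiniteDimensional ℂ E']
  [NormedAddCommGroup E₀] [NormedSpace ℂ E₀] [FiniteDimensional ℂ E₀]
variable {X Z Y F : Type u} [TopologicalSpace X] [ChartedSpace E X] [IsManifold 𝓘(ℂ, E) ω X]
  [TopologicalSpace Z] [ChartedSpace E Z] [IsManifold 𝓘(ℂ, E) ω Z]
  [TopologicalSpace Y] [ChartedSpace E' Y] [IsManifold 𝓘(ℂ, E') ω Y]
  [TopologicalSpace F] [ChartedSpace E₀ F] [IsManifold 𝓘(ℂ, E₀) ω F]

/-- isotrivial pairs, meromorphic fibrations. -/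
theorem main_pairs [CompactSpace F] [ConnectedSpace F] [Nonempty X]
    (hE : Module.finrank ℂ E = Module.finrank ℂ E' + Module.finrank ℂ E₀)
    (j : Z → X) (hj : J.IsBigOpen E j)
    (f : Z → Y) (hf : ContMDiff 𝓘(ℂ, E) 𝓘(ℂ, E') ω f)
    (𝒢 : Set (Set Y)) (h𝒢 : J.IsDivisorial E E' f 𝒢) {ι : Type u} (U : ι → Set Y)
    (q : ι → Z → F) (hB : J.IsFibreBundle E E' E₀ f (⋃₀ 𝒢) U q)
    (ΔF : Set F → ℝ) (hF : J.IsSNC E₀ ΔF) (hlt : ∀ C, ΔF C < 1)
    (hM : J.HasFiniteMonodromy E₀ f U q ΔF) (Δ : Set X → ℝ) (hsnc : J.IsSNC E Δ)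
    (Δ' : Set Z → ℝ) (hsnc' : J.IsSNC E Δ') (hΔ : J.IsRestriction j Δ Δ')
    (hp : J.IsSubPair E E₀ f U q Δ' ΔF) (hBS : ∀ G, J.orbBase' E E' f Δ' G ≠ 0 → G ∈ 𝒢) :
    J.kod E₀ (fun (C : Set F) p g => J.IsLocalEq E₀ C g p) ΔF +
      J.kod E' (fun (G : Set Y) z g => J.IsLocalEq E' G g z) (J.orbBase' E E' f Δ') ≤
      J.kod E (fun (D : Set X) z g => J.IsLocalEq E D g z) Δ := by
  classical
  rw [JB.kod_eq, JB.kod_eq, JB.kod_eq]
  have hs := JB.snc hsnc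
  have hs' := JB.snc hsnc'
  have hsF := JB.snc hF
  let e₀ : E ≃L[ℂ] (E' × E₀) := ContinuousLinearEquiv.ofFinrankEq (by
    rw [hE, Module.finrank_prod])
  obtain ⟨hI, hUS, hS⟩ := iso_of hB
  have hZ : Nonempty Z := by
    obtain ⟨x⟩ := ‹Nonempty X›
    obtain ⟨h, -, hne, hev⟩ := hj.2.2.2 x
    by_contra hcon
    apply hne
    filter_upwards [hev] with z hz
    refine hz.1 ?_
    rintro ⟨w, -⟩
    exact hcon ⟨w⟩
  obtain ⟨h𝒢f, h𝒢p, 𝒟, h𝒟f, hpre, hdom⟩ := h𝒢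
  have hSd : Dense (⋃₀ 𝒢)ᶜ := by
    have h1 := (dense_compl_finite h𝒢f (fun G hG => (h𝒢p G hG).1) (fun G hG => by
      rw [← interior_eq_empty_iff_dense_compl, eq_empty_iff_forall_notMem]
      intro y hy
      obtain ⟨g, hg⟩ := (show IsPrimeDivisor E' G from h𝒢p G hG).2.1 y
      refine leq_not_zero hg ?_
      filter_upwards [hg.eventually, isOpen_interior.mem_nhds hy] with z hz hz'
      exact hz.mem_iff.1 (interior_subset hz'))).2
    refine h1.mono ?_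
    intro y hy
    rw [mem_compl_iff, mem_sUnion]
    rintro ⟨G, hG, hyG⟩
    exact hy G hG hyG
  have hthin := thin_of_components (fun x => hf x) h𝒟f h𝒢p
    (fun D hD => by obtain ⟨G, -, h⟩ := hdom D hD; exact h.1) hpre
    (fun D hD => by obtain ⟨G, hG, h⟩ := hdom D hD; exact ⟨G, hG, h.2⟩)
  refine kod_add_le fun j₁ j₂ h₁ h₂ => ?_
  refine kodGE_emb (fun z => hj.1 z) hj.2.1 hj.2.2.1 hj.2.2.2 hs.finite hs.prime hΔ.1 hΔ.2 ?_
  refine coreQ (fun x => hf x) hS hSd hI hUS e₀ hthin hsF hlt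
    (orbit_of (fun x => hf x) hB hM e₀) hs' hp
    (fun G hG => ⟨orbBase'_prime hG, subset_sUnion_of_mem (hBS G hG)⟩)
    (fun D G κ hD hG hDG hκ hwit => ?_) h₁ h₂
  obtain ⟨h0, h1⟩ := snc01 hs' D
  exact orbBase'_mul_le hκ hG hD hDG hwit h0 h1

end Main

end Vale.Agent.P281.ISO
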