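import Vale.Agent.P281.ISO.Base

/-!
# P281: symmetrisation of tuples of pluricanonical sections
-/

open scoped Manifold ContDiff Topology
open Set Filter Metric

namespace Vale.Agent.P281.ISO

open Vale.Agent.P281 Vale.Agent.P281.MF

set_option linter.unusedSectionVars false

universe u

section Alg

variable {P : Type*} [Fintype P] [DecidableEq P] {j : ℕ}

/-- symmetrisation -/
noncomputable def EX (N : ℕ) (H : (Fin (j + 1) → ℂ) → ℂ) (V : P → Fin (j + 1) → ℂ) : ℂ :=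
  ∑ σ, H (V σ) * ∏ τ, if τ = σ then 1 else V τ 0 ^ N

theorem prod_split (g : P → ℂ) (σ : P) :
    g σ * (∏ τ, if τ = σ then (1 : ℂ) else g τ) = ∏ τ, g τ := by
  have h3 : (∏ τ : P, if τ = σ then g τ else (1 : ℂ)) = g σ := by
    rw [Finset.prod_ite_eq' Finset.univ σ g]
    simp
  rw [← h3, ← Finset.prod_mul_distrib]
  exact Finset.prod_congr rfl fun τ _ => by split_ifs <;> simp

theorem EX_hom {N : ℕ} {H : (Fin (j + 1) → ℂ) → ℂ}
    (hH : ∀ v (l : ℂ), H (fun c => v c * l) = H v * l ^ N)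
    (V : P → Fin (j + 1) → ℂ) (l : ℂ) :
    EX N H (fun σ c => V σ c * l) = EX N H V * l ^ (N * Fintype.card P) := by
  unfold EX
  rw [Finset.sum_mul]
  refine Finset.sum_congr rfl fun σ _ => ?_
  rw [hH]
  have h1 : (∏ τ, if τ = σ then (1 : ℂ) else (V τ 0 * l) ^ N) =
      (∏ τ, if τ = σ then 1 else V τ 0 ^ N) * ∏ τ : P, if τ = σ then (1 : ℂ) else l ^ N := by
    rw [← Finset.prod_mul_distrib]
    refine Finset.prod_congr rfl fun τ _ => ?_
    split_ifs <;> simp [mul_pow]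
  have h2 : (l ^ N) * (∏ τ : P, if τ = σ then (1 : ℂ) else l ^ N) =
      l ^ (N * Fintype.card P) := by
    rw [prod_split (fun _ : P => l ^ N) σ, Finset.prod_const, ← pow_mul]
    rfl
  rw [h1, ← h2]
  ring

theorem EX_inv (N : ℕ) (H : (Fin (j + 1) → ℂ) → ℂ) (e : P ≃ P) (V : P → Fin (j + 1) → ℂ) :
    EX N H (fun σ => V (e σ)) = EX N H V := by
  unfold EX
  refine Fintype.sum_equiv e _ _ fun σ => ?_
  congr 1
  refine Fintype.prod_equiv e _ _ fun τ => ?_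
  by_cases h : τ = σ
  · rw [if_pos h, if_pos (congrArg e h)]
  · rw [if_neg h, if_neg fun h' => h (e.injective h')]

theorem EX_div {N : ℕ} {H : (Fin (j + 1) → ℂ) → ℂ}
    (hH : ∀ v (l : ℂ), H (fun c => v c * l) = H v * l ^ N)
    (V : P → Fin (j + 1) → ℂ) (h0 : ∀ τ, V τ 0 ≠ 0) :
    EX N H V / (∏ τ, V τ 0) ^ N = ∑ σ, H (fun c => V σ c / V σ 0) := by
  unfold EX
  rw [Finset.sum_div]
  refine Finset.sum_congr rfl fun σ _ => ?_
  have h1 : (∏ τ, V τ 0) ^ N = V σ 0 ^ N * ∏ τ, (if τ = σ then (1 : ℂ) else V τ 0 ^ N) := by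
    rw [prod_split (fun τ => V τ 0 ^ N) σ, Finset.prod_pow]
  have h2 : H (V σ) = H (fun c => V σ c / V σ 0) * V σ 0 ^ N := by
    rw [← hH]
    congr 1
    funext c
    rw [div_mul_cancel₀ _ (h0 σ)]
  have h3 : V σ 0 ^ N ≠ 0 := pow_ne_zero _ (h0 σ)
  have h4 : (∏ τ, (if τ = σ then (1 : ℂ) else V τ 0 ^ N)) ≠ 0 := by
    rw [Finset.prod_ne_zero_iff]
    intro τ _
    split_ifs
    · exact one_ne_zero
    · exact pow_ne_zero _ (h0 τ)
  rw [h1, h2, mul_assoc, mul_div_assoc, div_self (mul_ne_zero h3 h4), mul_one]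

/-- a form which is `x_b - ρ₀` to first order at one point, of order two at the bad points. -/
noncomputable def HB (bad : Finset P) (i : P → Fin (j + 1)) (ρ κ : P → ℂ) (b : Fin (j + 1))
    (ρ₀ : ℂ) (v : Fin (j + 1) → ℂ) : ℂ :=
  (v b - ρ₀ * v 0) * ∏ τ ∈ bad, ((v (i τ) - ρ τ * v 0) * κ τ) ^ 2

theorem HB_hom (bad : Finset P) (i : P → Fin (j + 1)) (ρ κ : P → ℂ) (b : Fin (j + 1))
    (ρ₀ : ℂ) (v : Fin (j + 1) → ℂ) (l : ℂ) :
    HB bad i ρ κ b ρ₀ (fun c => v c * l) = HB bad i ρ κ b ρ₀ v * l ^ (2 * bad.card + 1) := by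
  unfold HB
  have h1 : ∏ τ ∈ bad, ((v (i τ) * l - ρ τ * (v 0 * l)) * κ τ) ^ 2 =
      (∏ τ ∈ bad, ((v (i τ) - ρ τ * v 0) * κ τ) ^ 2) * l ^ (2 * bad.card) := by
    rw [pow_mul, ← Finset.prod_const, ← Finset.prod_mul_distrib]
    exact Finset.prod_congr rfl fun τ _ => by ring
  rw [h1]
  ring

end Alg

section Man

variable {E E' E₀ : Type} [NormedAddCommGroup E] [NormedSpace ℂ E] [FiniteDimensional ℂ E]
  [NormedAddCommGroup E'] [NormedSpace ℂ E'] [FiniteDimensional ℂ E']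
  [NormedAddCommGroup E₀] [NormedSpace ℂ E₀] [FiniteDimensional ℂ E₀]
variable {X Y F : Type u} [TopologicalSpace X] [ChartedSpace E X] [IsManifold 𝓘(ℂ, E) ω X]
  [TopologicalSpace Y] [ChartedSpace E' Y] [IsManifold 𝓘(ℂ, E') ω Y]
  [TopologicalSpace F] [ChartedSpace E₀ F] [IsManifold 𝓘(ℂ, E₀) ω F]
variable {P : Type*} [Fintype P] {j : ℕ}

/-- homogeneous symmetric holomorphic expressions. -/
structure GoodX (E₀ : Type) [NormedAddCommGroup E₀] [NormedSpace ℂ E₀] (F : Type u)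
    [TopologicalSpace F] [ChartedSpace E₀ F] {P : Type*} {j : ℕ} (D : ℕ)
    (Ψ : (P → Fin (j + 1) → ℂ) → ℂ) : Prop where
  hom : ∀ V (l : ℂ), Ψ (fun σ c => V σ c * l) = Ψ V * l ^ D
  inv : ∀ (e : P ≃ P) V, Ψ (fun σ => V (e σ)) = Ψ V
  hol : ∀ (A : P → Fin (j + 1) → F → ℂ) (p : F), (∀ σ c, HolV E₀ (A σ c) p) →
    HolV E₀ (fun w => Ψ (fun σ c => A σ c w)) p

theorem GoodX.sec {D : ℕ} {Ψ : (P → Fin (j + 1) → ℂ) → ℂ} (hΨ : GoodX E₀ F D Ψ) {m : ℕ}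
    {s : P → Fin (j + 1) → F → ℂ} (hs : ∀ σ c, Sec E₀ m (s σ c)) :
    Sec E₀ (m * D) (fun w => Ψ (fun σ c => s σ c w)) := by
  intro p₀
  choose A hA hAe using fun σ c => hs σ c p₀
  refine ⟨fun w => Ψ (fun σ c => A σ c w), hΨ.hol A p₀ hA, ?_⟩
  have h0 : ∀ᶠ p in 𝓝 p₀, ∀ σ c, s σ c p = A σ c p * jac E₀ (chartAt E₀ p₀) p ^ m :=
    Filter.eventually_all.2 fun σ => Filter.eventually_all.2 fun c => hAe σ c
  filter_upwards [h0] with p hp
  have h1 : (fun σ c => s σ c p) = fun σ c => A σ c p * jac E₀ (chartAt E₀ p₀) p ^ m := by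
    funext σ c; exact hp σ c
  rw [h1, hΨ.hom, ← pow_mul]

theorem GoodX.TH_eq {D : ℕ} {Ψ : (P → Fin (j + 1) → ℂ) → ℂ} (hΨ : GoodX E₀ F D Ψ)
    (e₀ : E ≃L[ℂ] (E' × E₀)) (f : X → Y) (q : X → F) (m : ℕ) (s : P → Fin (j + 1) → F → ℂ)
    (x : X) : TH E E' E₀ e₀ f q (m * D) (fun w => Ψ (fun σ c => s σ c w)) x =
      Ψ (fun σ c => TH E E' E₀ e₀ f q m (s σ c) x) := by
  unfold TH
  rw [hΨ.hom (fun σ c => s σ c (q x)), pow_mul]

theorem GoodX.inv' {D : ℕ} {Ψ : (P → Fin (j + 1) → ℂ) → ℂ} (hΨ : GoodX E₀ F D Ψ)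
    (e₀ : E ≃L[ℂ] (E' × E₀)) (f : X → Y) {ι : Type u} {U : ι → Set Y} {q : ι → X → F} {m : ℕ}
    {s : P → Fin (j + 1) → F → ℂ}
    (hT : ∀ a b x, f x ∈ U a → f x ∈ U b → ∃ T : P ≃ P, ∀ σ c,
      TH E E' E₀ e₀ f (q b) m (s σ c) x = TH E E' E₀ e₀ f (q a) m (s (T σ) c) x) :
    Inv E E' E₀ e₀ f U q (m * D) (fun w => Ψ (fun σ c => s σ c w)) := by
  intro a b x ha hb
  rw [hΨ.TH_eq, hΨ.TH_eq]
  obtain ⟨T, hT⟩ := hT a b x ha hb
  have h1 : (fun σ c => TH E E' E₀ e₀ f (q b) m (s σ c) x) =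
      fun σ => (fun σ c => TH E E' E₀ e₀ f (q a) m (s σ c) x) (T σ) := by
    funext σ c; exact hT σ c
  rw [h1, hΨ.inv T (fun σ c => TH E E' E₀ e₀ f (q a) m (s σ c) x)]

theorem goodX_prod (N : ℕ) :
    GoodX E₀ F (N * Fintype.card P) (fun V : P → Fin (j + 1) → ℂ => (∏ τ, V τ 0) ^ N) where
  hom V l := by
    show (∏ τ, V τ 0 * l) ^ N = _
    rw [Finset.prod_mul_distrib, Finset.prod_const, mul_pow, ← pow_mul, mul_comm N]
    rfl
  inv e V := by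
    show (∏ τ, V (e τ) 0) ^ N = _
    rw [Fintype.prod_equiv e (fun τ => V (e τ) 0) (fun τ => V τ 0) fun τ => rfl]
  hol A p hA := (HolV.prod fun τ _ => hA τ 0).pow N

theorem goodX_EX [DecidableEq P] (bad : Finset P) (i : P → Fin (j + 1)) (ρ κ : P → ℂ)
    (b : Fin (j + 1)) (ρ₀ : ℂ) :
    GoodX E₀ F ((2 * bad.card + 1) * Fintype.card P)
      (EX (P := P) (2 * bad.card + 1) (HB bad i ρ κ b ρ₀)) where
  hom V l := EX_hom (HB_hom bad i ρ κ b ρ₀) V l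
  inv e V := EX_inv _ _ e V
  hol A p hA := by
    unfold EX HB
    refine HolV.sum fun σ _ => HolV.mul (HolV.mul ?_ ?_) ?_
    · have h1 : HolV E₀ (fun w => A σ b w + (-ρ₀) * A σ 0 w) p :=
        (hA σ b).add ((HolV.const _ p).mul (hA σ 0))
      refine h1.congr (Eventually.of_forall fun w => ?_)
      show _ = _
      ring
    · refine HolV.prod fun τ _ => HolV.pow ?_ 2
      have h1 : HolV E₀ (fun w => (A σ (i τ) w + (-ρ τ) * A σ 0 w) * κ τ) p :=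
        ((hA σ (i τ)).add ((HolV.const _ p).mul (hA σ 0))).mul (HolV.const _ p)
      refine h1.congr (Eventually.of_forall fun w => ?_)
      show _ = _
      ring
    · refine HolV.prod fun τ _ => ?_
      by_cases h : τ = σ
      · simp only [if_pos h]
        exact HolV.const _ p
      · simp only [if_neg h]
        exact (hA τ 0).pow _

end Man

end Vale.Agent.P281.ISO
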